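import Vale.Agent.Lib.P123.U.Cauchy

/-! M3: properties of the measure `Vis · z` and boundary behaviour. -/

open Complex Finset Filter Topology MeasureTheory
open scoped ComplexConjugate

noncomputable section

namespace P123U
namespace Poly
variable (P : Poly)

lemma σ_cont (j : ℕ) : Continuous (P.σ j) := by unfold σ; fun_prop

lemma σ_zero (j : ℕ) : P.σ j 0 = P.v j := by simp [σ]

lemma σ_l (j : ℕ) : P.σ j (P.l j) = P.v (j + 1) := by rw [v_succ]; rfl

lemma Icc_l (j : ℕ) : Set.uIcc 0 (P.l j) = Set.Icc 0 (P.l j) := Set.uIcc_of_le (P.l_pos j).le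

lemma σ_mem (j : ℕ) {s : ℝ} (hs : s ∈ Set.uIcc 0 (P.l j)) : P.σ j s ∈ P.C := by
  rw [Icc_l] at hs; exact P.σ_mem_C hs.1 hs.2

lemma ci {g : ℂ → ℂ} (hg : ContinuousOn g P.C) {z : ℂ} (hz : z ∈ P.C) (j : ℕ) :
    ContinuousOn (fun s => g (P.σ j s) * (P.k j s z : ℂ)) (Set.uIcc 0 (P.l j)) := by
  apply ContinuousOn.mul
  · exact hg.comp (P.σ_cont j).continuousOn (fun s hs => P.σ_mem j hs)
  · exact (Complex.continuous_ofReal.comp (P.k_continuous hz j)).continuousOn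

lemma ii {g : ℂ → ℂ} (hg : ContinuousOn g P.C) {z : ℂ} (hz : z ∈ P.C) (j : ℕ) :
    IntervalIntegrable (fun s => g (P.σ j s) * (P.k j s z : ℂ)) volume 0 (P.l j) :=
  (P.ci hg hz j).intervalIntegrable

theorem vis_add {g h : ℂ → ℂ} (hg : ContinuousOn g P.C) (hh : ContinuousOn h P.C) {z : ℂ}
    (hz : z ∈ P.C) : P.Vis (fun w => g w + h w) z = P.Vis g z + P.Vis h z := by
  unfold Vis
  rw [← mul_add, ← sum_add_distrib]
  congr 1
  refine sum_congr rfl fun j _ => ?_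
  rw [← intervalIntegral.integral_add (P.ii hg hz j) (P.ii hh hz j)]
  simp only [add_mul]

theorem vis_const_mul (a : ℂ) (g : ℂ → ℂ) (z : ℂ) :
    P.Vis (fun w => a * g w) z = a * P.Vis g z := by
  unfold Vis
  rw [mul_left_comm]
  congr 1
  rw [Finset.mul_sum]
  refine sum_congr rfl fun j _ => ?_
  rw [← intervalIntegral.integral_const_mul]
  simp only [mul_assoc]

lemma vis_real (g : ℂ → ℝ) (z : ℂ) : P.Vis (fun w => (g w : ℂ)) z =
    ((Real.pi⁻¹ * ∑ j ∈ range P.N, ∫ s in (0 : ℝ)..P.l j, g (P.σ j s) * P.k j s z : ℝ) : ℂ) := by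
  unfold Vis
  push_cast
  congr 1
  refine sum_congr rfl fun j _ => ?_
  rw [← intervalIntegral.integral_ofReal]
  simp only [Complex.ofReal_mul]

theorem vis_im_real (g : ℂ → ℝ) (z : ℂ) : (P.Vis (fun w => (g w : ℂ)) z).im = 0 := by
  rw [vis_real, Complex.ofReal_im]

lemma vis_re_eq (g : ℂ → ℝ) (z : ℂ) : (P.Vis (fun w => (g w : ℂ)) z).re =
    Real.pi⁻¹ * ∑ j ∈ range P.N, ∫ s in (0 : ℝ)..P.l j, g (P.σ j s) * P.k j s z := by
  rw [vis_real, Complex.ofReal_re]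

lemma cir {g : ℂ → ℝ} (hg : ContinuousOn g P.C) {z : ℂ} (hz : z ∈ P.C) (j : ℕ) :
    ContinuousOn (fun s => g (P.σ j s) * P.k j s z) (Set.uIcc 0 (P.l j)) :=
  (hg.comp (P.σ_cont j).continuousOn (fun s hs => P.σ_mem j hs)).mul
    (P.k_continuous hz j).continuousOn

lemma iir {g : ℂ → ℝ} (hg : ContinuousOn g P.C) {z : ℂ} (hz : z ∈ P.C) (j : ℕ) :
    IntervalIntegrable (fun s => g (P.σ j s) * P.k j s z) volume 0 (P.l j) :=
  (P.cir hg hz j).intervalIntegrable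

theorem vis_re_mono {g h : ℂ → ℝ} (hg : ContinuousOn g P.C) (hh : ContinuousOn h P.C)
    (hgh : ∀ w ∈ P.C, g w ≤ h w) {z : ℂ} (hz : z ∈ P.C) :
    (P.Vis (fun w => (g w : ℂ)) z).re ≤ (P.Vis (fun w => (h w : ℂ)) z).re := by
  rw [vis_re_eq, vis_re_eq]
  refine mul_le_mul_of_nonneg_left (sum_le_sum fun j _ => ?_) (inv_nonneg.2 Real.pi_pos.le)
  refine intervalIntegral.integral_mono_on (P.l_pos j).le (P.iir hg hz j) (P.iir hh hz j) ?_
  intro s hs
  exact mul_le_mul_of_nonneg_right (hgh _ (P.σ_mem_C hs.1 hs.2)) (P.k_nonneg hz j s)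

theorem vis_re (g : ℂ → ℂ) (hg : ContinuousOn g P.C) {z : ℂ} (hz : z ∈ P.C) :
    (P.Vis g z).re = (P.Vis (fun w => ((g w).re : ℂ)) z).re := by
  rw [vis_re_eq]
  unfold Vis
  rw [Complex.re_ofReal_mul, Complex.re_sum]
  congr 1
  refine sum_congr rfl fun j _ => ?_
  have := Complex.reCLM.intervalIntegral_comp_comm (P.ii hg hz j)
  simp only [Complex.reCLM_apply] at this
  rw [← this]
  simp [Complex.re_mul_ofReal]

theorem vis_conj (g : ℂ → ℂ) (z : ℂ) :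
    P.Vis (fun w => conj (g w)) z = conj (P.Vis g z) := by
  unfold Vis
  rw [map_mul, Complex.conj_ofReal, map_sum]
  congr 1
  refine sum_congr rfl fun j _ => ?_
  have : ∀ f : ℝ → ℂ, ∫ s in (0 : ℝ)..P.l j, conj (f s) = conj (∫ s in (0 : ℝ)..P.l j, f s) := by
    intro f
    simp [intervalIntegral, integral_conj]
  rw [← this]
  simp

theorem norm_vis_le {g : ℂ → ℂ} (hg : ContinuousOn g P.C) {z : ℂ} (hz : z ∈ P.C) :
    ‖P.Vis g z‖ ≤ (P.Vis (fun w => (‖g w‖ : ℂ)) z).re := by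
  rw [vis_re_eq]
  unfold Vis
  rw [norm_mul, Complex.norm_real, Real.norm_of_nonneg (inv_nonneg.2 Real.pi_pos.le)]
  refine mul_le_mul_of_nonneg_left ((norm_sum_le _ _).trans (sum_le_sum fun j _ => ?_))
    (inv_nonneg.2 Real.pi_pos.le)
  refine (intervalIntegral.norm_integral_le_integral_norm (P.l_pos j).le).trans (le_of_eq ?_)
  refine intervalIntegral.integral_congr fun s _ => ?_
  simp only [norm_mul, Complex.norm_real, Real.norm_of_nonneg (P.k_nonneg hz j s)]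

/-- angle function seen from `p` with respect to the side `j`. -/
def ϑ (p : ℂ) (j : ℕ) (z : ℂ) : ℝ := Real.pi / 2 + Complex.arg (-I * ((z - p) / P.e j))

lemma e_ne (j : ℕ) : P.e j ≠ 0 := by
  unfold e
  refine mul_ne_zero I_ne_zero fun h => ?_
  have := P.norm_n (j + 1)
  rw [h] at this
  simp at this

lemma im_w {p : ℂ} {j : ℕ} (hp : P.d (j + 1) p = 0) (z : ℂ) :
    ((z - p) / P.e j).im = P.d (j + 1) z := by
  have h := P.d_sub (j + 1) p z
  have h0 : (z - p) / P.e j = -I * (conj (P.n (j + 1)) * (z - p)) := by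
    rw [div_eq_iff (P.e_ne j)]
    unfold e
    linear_combination ((z - p) * conj (P.n (j + 1)) * P.n (j + 1)) * Complex.I_mul_I
      - (z - p) * P.n_mul_conj (j + 1)
  rw [h0]
  simp only [Complex.mul_im, Complex.neg_re, Complex.neg_im, Complex.I_re, Complex.I_im]
  rw [hp] at h
  linarith

lemma mem_slit {w : ℂ} (h0 : w ≠ 0) (him : 0 ≤ w.im) : -I * w ∈ Complex.slitPlane := by
  rw [Complex.mem_slitPlane_iff]
  rcases him.lt_or_eq with h | h
  · left; simpa using h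
  · right
    have : w.re ≠ 0 := fun hre => h0 (Complex.ext hre h.symm)
    simpa using this

lemma arg_w {w : ℂ} (h0 : w ≠ 0) (him : 0 ≤ w.im) :
    Real.pi / 2 + Complex.arg (-I * w) = Complex.arg w := by
  have h1 : 0 ≤ Complex.arg w := Complex.arg_nonneg_iff.2 him
  have h2 := Complex.arg_le_pi w
  have h3 : Complex.arg (-I) = -(Real.pi / 2) := Complex.arg_neg_I
  have hpi := Real.pi_pos
  rw [Complex.arg_mul (neg_ne_zero.2 I_ne_zero) h0 (by rw [h3]; constructor <;> linarith), h3]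
  ring

lemma ϑ_eq {p : ℂ} {j : ℕ} (hp : P.d (j + 1) p = 0) {z : ℂ} (hz : z ∈ P.C) (hne : z ≠ p) :
    P.ϑ p j z = Complex.arg ((z - p) / P.e j) :=
  arg_w (div_ne_zero (sub_ne_zero.2 hne) (P.e_ne j)) (by rw [P.im_w hp]; exact hz _)

lemma ϑ_deriv {p : ℂ} {j i : ℕ} {s : ℝ} (hp : P.d (j + 1) p = 0) (hs : P.σ i s ∈ P.C)
    (hne : P.σ i s ≠ p) : HasDerivAt (fun t => P.ϑ p j (P.σ i t)) (P.k i s p) s := by
  have hw : (P.σ i s - p) / P.e j ≠ 0 := div_ne_zero (sub_ne_zero.2 hne) (P.e_ne j)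
  have hw2 : 0 ≤ ((P.σ i s - p) / P.e j).im := by rw [P.im_w hp]; exact hs _
  have h1 : HasDerivAt (fun t : ℝ => -I * ((P.σ i t - p) / P.e j)) (-I * (P.e i / P.e j)) s := by
    unfold σ
    have h : HasDerivAt (fun t : ℝ => (t : ℂ)) ((1 : ℝ) : ℂ) s := (hasDerivAt_id s).ofReal_comp
    have := ((((h.mul_const (P.e i)).const_add (P.v i)).sub_const p).div_const (P.e j)).const_mul
      (-I)
    simpa using this
  have h3 := Complex.imCLM.hasFDerivAt.comp_hasDerivAt s (h1.clog_real (mem_slit hw hw2))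
  have hfun : (fun t => P.ϑ p j (P.σ i t)) =
      fun x => Real.pi / 2 + (Complex.imCLM ∘ fun t : ℝ =>
        Complex.log (-I * ((P.σ i t - p) / P.e j))) x := by
    funext t
    simp [ϑ, Complex.log_im]
  rw [hfun]
  refine (h3.const_add (Real.pi / 2)).congr_deriv ?_
  rw [← P.im_kernel]
  simp only [Complex.imCLM_apply]
  congr 1
  have h5 := sub_ne_zero.2 hne
  have h6 := P.e_ne j
  field_simp

lemma chain {p : ℂ} {j i : ℕ} (hp : P.d (j + 1) p = 0) (hC : p ∈ P.C) (hne : ∀ s, P.σ i s ≠ p)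
    {a b : ℝ} (ha : a ∈ Set.Icc 0 (P.l i)) (hb : b ∈ Set.Icc 0 (P.l i)) :
    ∫ s in a..b, P.k i s p = P.ϑ p j (P.σ i b) - P.ϑ p j (P.σ i a) :=
  intervalIntegral.integral_eq_sub_of_hasDerivAt
    (fun s hs => P.ϑ_deriv hp (by
      have := Set.uIcc_subset_Icc ha hb hs
      exact P.σ_mem_C this.1 this.2) (hne s))
    ((P.k_continuous hC i).intervalIntegrable _ _)

lemma ϑ_mono {p : ℂ} {j i : ℕ} (hp : P.d (j + 1) p = 0) (hC : p ∈ P.C) (hne : ∀ s, P.σ i s ≠ p)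
    {a b : ℝ} (ha : a ∈ Set.Icc 0 (P.l i)) (hb : b ∈ Set.Icc 0 (P.l i)) (hab : a ≤ b) :
    P.ϑ p j (P.σ i a) ≤ P.ϑ p j (P.σ i b) := by
  have := P.chain hp hC hne ha hb
  have h2 : 0 ≤ ∫ s in a..b, P.k i s p :=
    intervalIntegral.integral_nonneg hab fun s _ => P.k_nonneg hC i s
  linarith

lemma side_sel {p : ℂ} {j i : ℕ} (hp : P.d (j + 1) p = 0) (hC : p ∈ P.C) (hne : ∀ s, P.σ i s ≠ p)
    {ψ : ℂ → ℝ} (hψc : ContinuousOn ψ P.C) (hψ : ∀ z ∈ P.C, 0 ≤ ψ z) {θ₁ θ₂ M : ℝ}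
    (hθ : θ₁ ≤ θ₂) (hM : 0 ≤ M)
    (hall : ∀ s, 0 < s → s < P.l i → θ₁ ≤ P.ϑ p j (P.σ i s) → P.ϑ p j (P.σ i s) ≤ θ₂ →
      M ≤ ψ (P.σ i s)) :
    M * (max θ₁ (min θ₂ (P.ϑ p j (P.v (i + 1)))) - max θ₁ (min θ₂ (P.ϑ p j (P.v i)))) ≤
      ∫ s in (0 : ℝ)..P.l i, ψ (P.σ i s) * P.k i s p := by
  have hl := (P.l_pos i).le
  have m0 : (0 : ℝ) ∈ Set.Icc 0 (P.l i) := ⟨le_rfl, hl⟩
  have m1 : P.l i ∈ Set.Icc 0 (P.l i) := ⟨hl, le_rfl⟩
  have hnn : ∀ s ∈ Set.Icc 0 (P.l i), 0 ≤ ψ (P.σ i s) * P.k i s p := fun s hs =>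
    mul_nonneg (hψ _ (P.σ_mem_C hs.1 hs.2)) (P.k_nonneg hC i s)
  have hint0 : 0 ≤ ∫ s in (0 : ℝ)..P.l i, ψ (P.σ i s) * P.k i s p :=
    intervalIntegral.integral_nonneg hl hnn
  set τ : ℝ → ℝ := fun s => P.ϑ p j (P.σ i s) with hτ
  have t0 : P.ϑ p j (P.v i) = τ 0 := by simp only [hτ, σ_zero]
  have t1 : P.ϑ p j (P.v (i + 1)) = τ (P.l i) := by simp only [hτ, σ_l]
  rw [t0, t1]
  set a := max θ₁ (min θ₂ (τ 0)) with ha
  set b := max θ₁ (min θ₂ (τ (P.l i))) with hb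
  rcases le_or_gt b a with hab | hab
  · exact (mul_nonpos_of_nonneg_of_nonpos hM (by linarith)).trans hint0
  have hτc : ContinuousOn τ (Set.Icc 0 (P.l i)) := fun s hs =>
    (P.ϑ_deriv hp (P.σ_mem_C hs.1 hs.2) (hne s)).continuousAt.continuousWithinAt
  have hθ0 : τ 0 < θ₂ := by
    by_contra h
    have h1 : min θ₂ (τ 0) = θ₂ := min_eq_left (not_lt.1 h)
    have h2 : τ 0 ≤ τ (P.l i) := P.ϑ_mono hp hC hne m0 m1 hl
    have h3 : min θ₂ (τ (P.l i)) = θ₂ := min_eq_left (by linarith [not_lt.1 h])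
    rw [ha, hb, h1, h3] at hab
    exact lt_irrefl _ hab
  have hθ1 : θ₁ < τ (P.l i) := by
    by_contra h
    have h0 := not_lt.1 h
    have h2 : τ 0 ≤ τ (P.l i) := P.ϑ_mono hp hC hne m0 m1 hl
    have h3 : max θ₁ (min θ₂ (τ (P.l i))) = θ₁ := max_eq_left ((min_le_right _ _).trans h0)
    have h4 : max θ₁ (min θ₂ (τ 0)) = θ₁ := max_eq_left ((min_le_right _ _).trans (h2.trans h0))
    rw [ha, hb, h3, h4] at hab
    exact lt_irrefl _ hab
  have ha' : a = max θ₁ (τ 0) := by rw [ha, min_eq_right hθ0.le]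
  have hb' : b = min θ₂ (τ (P.l i)) := by
    rw [hb]
    exact max_eq_right (le_min hθ hθ1.le)
  have haθ : θ₁ ≤ a := by rw [ha']; exact le_max_left _ _
  have hbθ : b ≤ θ₂ := by rw [hb']; exact min_le_left _ _
  have h0a : τ 0 ≤ a := by rw [ha']; exact le_max_right _ _
  have hbl : b ≤ τ (P.l i) := by rw [hb']; exact min_le_right _ _
  obtain ⟨s₁, hs₁, hτ₁⟩ := intermediate_value_Icc hl hτc ⟨h0a, hab.le.trans hbl⟩
  obtain ⟨s₂, hs₂, hτ₂⟩ := intermediate_value_Icc hl hτc ⟨h0a.trans hab.le, hbl⟩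
  have hss : s₁ < s₂ := by
    by_contra h
    have := P.ϑ_mono hp hC hne hs₂ hs₁ (not_lt.1 h)
    simp only [hτ] at hτ₁ hτ₂
    linarith
  have hcont := P.cir hψc hC i
  rw [Icc_l] at hcont
  have hs12 : Set.Icc s₁ s₂ ⊆ Set.Icc 0 (P.l i) := Set.Icc_subset_Icc hs₁.1 hs₂.2
  have hsub : ∫ s in s₁..s₂, ψ (P.σ i s) * P.k i s p ≤
      ∫ s in (0 : ℝ)..P.l i, ψ (P.σ i s) * P.k i s p := by
    refine intervalIntegral.integral_mono_interval hs₁.1 hss.le hs₂.2 ?_ ?_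
    · refine (ae_restrict_iff' measurableSet_Ioc).2 (ae_of_all _ fun s hs => ?_)
      exact hnn s ⟨hs.1.le, hs.2⟩
    · rw [← Icc_l] at hcont
      exact hcont.intervalIntegrable
  refine le_trans ?_ hsub
  have hk : ∫ s in s₁..s₂, M * P.k i s p = M * (b - a) := by
    rw [intervalIntegral.integral_const_mul, P.chain hp hC hne hs₁ hs₂]
    simp only [hτ] at hτ₁ hτ₂
    rw [hτ₁, hτ₂]
  rw [← hk]
  refine intervalIntegral.integral_mono_on_of_le_Ioo hss.le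
    (((P.k_continuous hC i).const_mul M).intervalIntegrable _ _) ?_ ?_
  · have : ContinuousOn (fun s => ψ (P.σ i s) * P.k i s p) (Set.uIcc s₁ s₂) := by
      rw [Set.uIcc_of_le hss.le]
      exact hcont.mono hs12
    exact this.intervalIntegrable
  · intro s hs
    refine mul_le_mul_of_nonneg_right ?_ (P.k_nonneg hC i s)
    have hsI : s ∈ Set.Icc 0 (P.l i) := hs12 ⟨hs.1.le, hs.2.le⟩
    have m1' := P.ϑ_mono hp hC hne hs₁ hsI hs.1.le
    have m2' := P.ϑ_mono hp hC hne hsI hs₂ hs.2.le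
    simp only [hτ] at hτ₁ hτ₂
    refine hall s (lt_of_le_of_lt hs₁.1 hs.1) (lt_of_lt_of_le hs.2 hs₂.2) ?_ ?_
    · linarith
    · linarith

lemma k_per (j : ℕ) (s : ℝ) (z : ℂ) : P.k (j + P.N) s z = P.k j s z := by
  unfold k
  have : j + P.N + 1 = j + 1 + P.N := by omega
  rw [this, d_per, σ_per]

lemma per_sum (F : ℕ → ℝ) (hF : ∀ i, F (i + P.N) = F i) (j : ℕ) :
    ∑ i ∈ range P.N, F i = ∑ r ∈ range P.N, F (j + r) := by
  induction j with
  | zero => simp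
  | succ j ih =>
    rw [ih]
    have h1 := Finset.sum_range_succ (fun r => F (j + r)) P.N
    have h2 := Finset.sum_range_succ' (fun r => F (j + r)) P.N
    have h3 : ∀ r, j + 1 + r = j + (r + 1) := fun r => by omega
    simp only [add_zero] at h2
    rw [hF j] at h1
    simp only [h3]
    linarith

lemma F_self {i : ℕ} {z : ℂ} (hz : P.d (i + 1) z = 0) (ψ : ℂ → ℝ) :
    ∫ s in (0 : ℝ)..P.l i, ψ (P.σ i s) * P.k i s z = 0 := by
  simp [k, hz]

lemma sum_split (ψ : ℂ → ℝ) {j : ℕ} {p : ℂ} (hp : P.d (j + 1) p = 0) {N' : ℕ} (hN : P.N = N' + 1) :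
    ∑ i ∈ range P.N, ∫ s in (0 : ℝ)..P.l i, ψ (P.σ i s) * P.k i s p =
      ∑ r ∈ range N', ∫ s in (0 : ℝ)..P.l (j + (r + 1)), ψ (P.σ (j + (r + 1)) s) *
        P.k (j + (r + 1)) s p := by
  rw [P.per_sum (fun i => ∫ s in (0 : ℝ)..P.l i, ψ (P.σ i s) * P.k i s p)
    (fun i => by simp only [l_per, σ_per, k_per]) j, hN, Finset.sum_range_succ']
  simp only [add_zero]
  rw [P.F_self hp, add_zero]

lemma v_sub_σ (j : ℕ) (s : ℝ) : (P.v j - P.σ j s) / P.e j = ((-s : ℝ) : ℂ) := by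
  have := P.e_ne j
  unfold σ
  push_cast
  field_simp
  ring

lemma v_succ_sub_σ (j : ℕ) (s : ℝ) : (P.v (j + 1) - P.σ j s) / P.e j = ((P.l j - s : ℝ) : ℂ) := by
  have := P.e_ne j
  unfold σ
  rw [v_succ]
  push_cast
  field_simp
  ring

lemma v_mem (j : ℕ) : P.v j ∈ P.C := by
  rw [← σ_zero]
  exact P.σ_mem_C le_rfl (P.l_pos j).le

lemma v_succ_mem (j : ℕ) : P.v (j + 1) ∈ P.C := P.v_mem (j + 1)

lemma ϑ_end {j : ℕ} {s : ℝ} (h1 : s < P.l j) : P.ϑ (P.σ j s) j (P.v (j + 1)) = 0 := by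
  have hne : P.v (j + 1) ≠ P.σ j s := by
    intro h
    have := P.v_succ_sub_σ j s
    rw [h, sub_self, zero_div] at this
    have h2 : P.l j - s = 0 := by exact_mod_cast this.symm
    linarith
  rw [P.ϑ_eq (P.d_σ_self j s) (P.v_succ_mem j) hne, v_succ_sub_σ]
  exact Complex.arg_ofReal_of_nonneg (by linarith)

lemma ϑ_start {j : ℕ} {s : ℝ} (h0 : 0 < s) : P.ϑ (P.σ j s) j (P.v j) = Real.pi := by
  have hne : P.v j ≠ P.σ j s := by
    intro h
    have := P.v_sub_σ j s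
    rw [h, sub_self, zero_div] at this
    have h2 : -s = 0 := by exact_mod_cast this.symm
    linarith
  rw [P.ϑ_eq (P.d_σ_self j s) (P.v_mem j) hne, v_sub_σ]
  exact Complex.arg_ofReal_of_neg (by linarith)

lemma ne_side {j : ℕ} {s₀ : ℝ} (h0 : 0 < s₀) (h1 : s₀ < P.l j) {r : ℕ} (hr : r + 1 < P.N) (s : ℝ) :
    P.σ (j + (r + 1)) s ≠ P.σ j s₀ := by
  intro h
  have h2 := P.d_σ_self (j + (r + 1)) s
  rw [h] at h2
  have h3 := P.d_σ_pos h0 h1 (show 1 ≤ r + 1 by omega) hr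
  have h4 : j + 1 + (r + 1) = j + (r + 1) + 1 := by omega
  rw [h4] at h3
  linarith

lemma mem_side {j : ℕ} {s₀ : ℝ} (h0 : 0 < s₀) (h1 : s₀ < P.l j) : P.σ j s₀ ∈ P.C :=
  P.σ_mem_C h0.le h1.le

lemma ext_one : (fun _ : ℂ => (1 : ℂ)) = fun w => (((fun _ : ℂ => (1 : ℝ)) w : ℝ) : ℂ) := by
  funext w
  simp

lemma N_eq : ∃ N', P.N = N' + 2 := ⟨P.N - 2, by have := P.N_ge; omega⟩

theorem selection {j : ℕ} {s₀ : ℝ} (h0 : 0 < s₀) (h1 : s₀ < P.l j) {ψ : ℂ → ℝ}
    (hψc : ContinuousOn ψ P.C) (hψ : ∀ z ∈ P.C, 0 ≤ ψ z) {θ₁ θ₂ M : ℝ} (hθ : θ₁ ≤ θ₂)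
    (hθ₁ : 0 ≤ θ₁) (hθ₂ : θ₂ ≤ Real.pi) (hM : 0 ≤ M)
    (hall : ∀ z, P.SideInt z → θ₁ ≤ Complex.arg ((z - P.σ j s₀) / P.e j) →
      Complex.arg ((z - P.σ j s₀) / P.e j) ≤ θ₂ → M ≤ ψ z) :
    M * (θ₂ - θ₁) / Real.pi ≤ (P.Vis (fun w => (ψ w : ℂ)) (P.σ j s₀)).re := by
  obtain ⟨N'', hN''⟩ := P.N_eq
  have hN : P.N = (N'' + 1) + 1 := hN''
  set p := P.σ j s₀ with hp
  have hd : P.d (j + 1) p = 0 := P.d_σ_self j s₀
  have hC : p ∈ P.C := P.mem_side h0 h1
  rw [vis_re_eq, P.sum_split ψ hd hN]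
  set Q : ℝ → ℝ := fun x => max θ₁ (min θ₂ x) with hQ
  set G : ℕ → ℝ := fun r => Q (P.ϑ p j (P.v (j + 1 + r))) with hG
  have hstep : ∀ r ∈ range (N'' + 1), M * (G (r + 1) - G r) ≤
      ∫ s in (0 : ℝ)..P.l (j + (r + 1)), ψ (P.σ (j + (r + 1)) s) * P.k (j + (r + 1)) s p := by
    intro r hr
    have hr' : r + 1 < P.N := by
      have := Finset.mem_range.1 hr
      omega
    have hne := P.ne_side h0 h1 hr'
    have := P.side_sel (j := j) (i := j + (r + 1)) hd hC hne hψc hψ hθ hM (by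
      intro s h0s h1s h2 h3
      have hm := P.σ_mem_C h0s.le h1s.le
      have he := P.ϑ_eq hd hm (hne s)
      exact hall _ ⟨_, s, h0s, h1s, rfl⟩ (he ▸ h2) (he ▸ h3))
    have e1 : j + (r + 1) + 1 = j + 1 + (r + 1) := by omega
    have e2 : j + (r + 1) = j + 1 + r := by omega
    simp only [hG, hQ]
    rw [e1] at this
    rw [e2] at this ⊢
    exact this
  have hsum := Finset.sum_le_sum hstep
  rw [← Finset.mul_sum, Finset.sum_range_sub] at hsum
  have hG0 : G 0 = θ₁ := by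
    simp only [hG, hQ, add_zero]
    rw [P.ϑ_end h1, min_eq_right (hθ₁.trans hθ), max_eq_left hθ₁]
  have hGN : G (N'' + 1) = θ₂ := by
    simp only [hG, hQ]
    have e : j + 1 + (N'' + 1) = j + P.N := by omega
    rw [e, v_per, P.ϑ_start h0, min_eq_left hθ₂, max_eq_right hθ]
  rw [hG0, hGN] at hsum
  rw [mul_div_assoc, div_eq_inv_mul, mul_comm M]
  have hpi := inv_nonneg.2 Real.pi_pos.le
  calc Real.pi⁻¹ * (θ₂ - θ₁) * M = Real.pi⁻¹ * (M * (θ₂ - θ₁)) := by ring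
    _ ≤ _ := mul_le_mul_of_nonneg_left hsum hpi

theorem vis_one_side {p : ℂ} (hp : P.SideInt p) : P.Vis (fun _ => 1) p = 1 := by
  obtain ⟨j, s₀, h0, h1, rfl⟩ := hp
  obtain ⟨N'', hN''⟩ := P.N_eq
  have hN : P.N = (N'' + 1) + 1 := hN''
  have hd : P.d (j + 1) (P.σ j s₀) = 0 := P.d_σ_self j s₀
  have hC := P.mem_side h0 h1
  have h2 := P.sum_split (fun _ => (1 : ℝ)) hd hN
  rw [ext_one, vis_real]
  simp only [one_mul] at h2 ⊢
  rw [h2]
  have hstep : ∀ r ∈ range (N'' + 1),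
      (∫ s in (0 : ℝ)..P.l (j + (r + 1)), P.k (j + (r + 1)) s (P.σ j s₀)) =
      P.ϑ (P.σ j s₀) j (P.v (j + 1 + (r + 1))) - P.ϑ (P.σ j s₀) j (P.v (j + 1 + r)) := by
    intro r hr
    have hr' : r + 1 < P.N := by
      have := Finset.mem_range.1 hr
      omega
    have hne := P.ne_side h0 h1 hr'
    have := P.chain (j := j) (i := j + (r + 1)) hd hC hne
      ⟨le_rfl, (P.l_pos _).le⟩ ⟨(P.l_pos _).le, le_rfl⟩
    rw [σ_zero, σ_l] at this
    have e1 : j + (r + 1) + 1 = j + 1 + (r + 1) := by omega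
    have e2 : j + (r + 1) = j + 1 + r := by omega
    rw [this, e1, e2]
  rw [Finset.sum_congr rfl hstep,
    Finset.sum_range_sub (fun r => P.ϑ (P.σ j s₀) j (P.v (j + 1 + r))) (N'' + 1)]
  have e : j + 1 + (N'' + 1) = j + P.N := by omega
  rw [e, v_per, P.ϑ_start h0, add_zero, P.ϑ_end h1, sub_zero]
  have hpi := Real.pi_pos.ne'
  simp only [inv_mul_cancel₀ hpi, Complex.ofReal_one]

lemma vis_one_vertex (j : ℕ) : (P.Vis (fun _ => 1) (P.v j)).re ≤ 1 := by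
  obtain ⟨N'', hN''⟩ := P.N_eq
  have hN : P.N = (N'' + 1) + 1 := hN''
  have hd : P.d (j + 1) (P.σ j 0) = 0 := P.d_σ_self j 0
  have hd0 : P.d j (P.σ j 0) = 0 := by rw [σ_zero]; exact P.d_v_self j
  have hC : P.σ j 0 ∈ P.C := P.σ_mem_C le_rfl (P.l_pos j).le
  have h2 := P.sum_split (fun _ => (1 : ℝ)) hd hN
  rw [← σ_zero, ext_one, vis_re_eq]
  simp only [one_mul] at h2 ⊢
  rw [h2, Finset.sum_range_succ]
  have hlast : ∫ s in (0 : ℝ)..P.l (j + (N'' + 1)), P.k (j + (N'' + 1)) s (P.σ j 0) = 0 := by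
    have := P.F_self (i := j + (N'' + 1)) (z := P.σ j 0) (by
      have e : j + (N'' + 1) + 1 = j + P.N := by omega
      rw [e, d_per]
      exact hd0) (fun _ => 1)
    simpa using this
  rw [hlast, add_zero]
  have hstep : ∀ r ∈ range N'',
      (∫ s in (0 : ℝ)..P.l (j + (r + 1)), P.k (j + (r + 1)) s (P.σ j 0)) =
      P.ϑ (P.σ j 0) j (P.v (j + 1 + (r + 1))) - P.ϑ (P.σ j 0) j (P.v (j + 1 + r)) := by
    intro r hr
    have hr' := Finset.mem_range.1 hr
    have hne : ∀ s, P.σ (j + (r + 1)) s ≠ P.σ j 0 := by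
      intro s h
      have h2 := P.d_σ_self (j + (r + 1)) s
      rw [h, σ_zero] at h2
      have h3 := P.D_pos (j + (r + 1) + 1) (N'' - r) (by omega) (by omega)
      have e : j + (r + 1) + 1 + (N'' - r) = j + P.N := by omega
      rw [e, v_per] at h3
      linarith
    have := P.chain (j := j) (i := j + (r + 1)) hd hC hne
      ⟨le_rfl, (P.l_pos _).le⟩ ⟨(P.l_pos _).le, le_rfl⟩
    rw [P.σ_zero (j + (r + 1)), σ_l] at this
    have e1 : j + (r + 1) + 1 = j + 1 + (r + 1) := by omega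
    have e2 : j + (r + 1) = j + 1 + r := by omega
    rw [this, e1, e2]
  rw [Finset.sum_congr rfl hstep,
    Finset.sum_range_sub (fun r => P.ϑ (P.σ j 0) j (P.v (j + 1 + r))) N'', add_zero,
    P.ϑ_end (P.l_pos j), sub_zero]
  have hle : P.ϑ (P.σ j 0) j (P.v (j + 1 + N'')) ≤ Real.pi := by
    unfold ϑ
    have him : 0 ≤ (-I * ((P.v (j + 1 + N'') - P.σ j 0) / P.e j)).re := by
      have := P.im_w hd (P.v (j + 1 + N''))
      have h3 := P.v_mem (j + 1 + N'') (j + 1)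
      simp only [Complex.mul_re, Complex.neg_re, Complex.neg_im, Complex.I_re, Complex.I_im]
      rw [this]
      simpa using h3
    have := (Complex.abs_arg_le_pi_div_two_iff).2 him
    have h4 := (abs_le.1 this).2
    linarith
  have hpi := Real.pi_pos
  calc Real.pi⁻¹ * _ ≤ Real.pi⁻¹ * Real.pi :=
        mul_le_mul_of_nonneg_left hle (inv_nonneg.2 hpi.le)
    _ = 1 := inv_mul_cancel₀ hpi.ne'

theorem vis_one_le {p : ℂ} (hp : p ∈ frontier P.Om) : (P.Vis (fun _ => 1) p).re ≤ 1 := by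
  obtain ⟨j, _, s, h0, h1, rfl⟩ := P.frontier_subset hp
  rcases h0.lt_or_eq with h0' | h0'
  · rcases h1.lt_or_eq with h1' | h1'
    · rw [P.vis_one_side ⟨j, s, h0', h1', rfl⟩]
      simp
    · rw [h1', σ_l]
      exact P.vis_one_vertex (j + 1)
  · rw [← h0', σ_zero]
    exact P.vis_one_vertex j

lemma mass_le {j : ℕ} (hj : j < P.N) {z : ℂ} (hz : z ∈ P.Om) :
    ∫ s in (0 : ℝ)..P.l j, P.k j s z ≤ 2 * Real.pi := by
  have hzC := P.Om_subset_C hz
  have h1 := P.vis_one_Om hz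
  rw [ext_one, vis_real] at h1
  have h2 : Real.pi⁻¹ * ∑ i ∈ range P.N, ∫ s in (0 : ℝ)..P.l i, (1 : ℝ) * P.k i s z = 2 := by
    exact_mod_cast h1
  simp only [one_mul] at h2
  have h3 : ∑ i ∈ range P.N, ∫ s in (0 : ℝ)..P.l i, P.k i s z = 2 * Real.pi := by
    have hpi := Real.pi_pos.ne'
    field_simp at h2
    linarith
  rw [← h3]
  exact Finset.single_le_sum (f := fun i => ∫ s in (0 : ℝ)..P.l i, P.k i s z)
    (fun i _ => intervalIntegral.integral_nonneg (P.l_pos i).le fun s _ => P.k_nonneg hzC i s)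
    (Finset.mem_range.2 hj)

lemma BL_pos {ψ : ℂ → ℂ} (hψ : ContinuousOn ψ P.C) {p : ℂ} {j : ℕ} (hd : 0 < P.d (j + 1) p) :
    Tendsto (fun z => ∫ s in (0 : ℝ)..P.l j, ψ (P.σ j s) * (P.k j s z : ℂ)) (𝓝[P.Om] p)
      (𝓝 (∫ s in (0 : ℝ)..P.l j, ψ (P.σ j s) * (P.k j s p : ℂ))) := by
  obtain ⟨B, hB⟩ := P.isCompact_C.exists_bound_of_continuousOn hψ
  have hB0 : 0 ≤ B := (norm_nonneg _).trans (hB _ (P.v_mem 0))
  have hev : ∀ᶠ z in 𝓝[P.Om] p, P.d (j + 1) p / 2 < P.d (j + 1) z :=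
    nhdsWithin_le_nhds ((P.continuous_d (j + 1)).continuousAt.eventually_const_lt
      (by linarith))
  refine intervalIntegral.tendsto_integral_filter_of_dominated_convergence
    (fun _ => B * (2 / P.d (j + 1) p)) ?_ ?_ intervalIntegrable_const ?_
  · filter_upwards [self_mem_nhdsWithin] with z hz
    exact ((P.ci hψ (P.Om_subset_C hz) j).mono Set.uIoc_subset_uIcc).aestronglyMeasurable
      measurableSet_uIoc
  · filter_upwards [self_mem_nhdsWithin, hev] with z hz hz2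
    refine ae_of_all _ fun s hs => ?_
    rw [Set.uIoc_of_le (P.l_pos j).le] at hs
    have hzC := P.Om_subset_C hz
    rw [norm_mul, Complex.norm_real, Real.norm_of_nonneg (P.k_nonneg hzC j s)]
    refine mul_le_mul (hB _ (P.σ_mem_C hs.1.le hs.2)) ?_ (P.k_nonneg hzC j s) hB0
    refine (P.k_le hz j s).trans ?_
    rw [div_le_div_iff₀ (hz _) hd]
    linarith
  · refine ae_of_all _ fun s _ => ?_
    refine tendsto_const_nhds.mul (Complex.continuous_ofReal.continuousAt.tendsto.comp ?_)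
    unfold k
    have hne : Complex.normSq (P.σ j s - p) ≠ 0 := by
      intro h
      have h0 := Complex.normSq_eq_zero.1 h
      have h1 := P.d_σ_self j s
      rw [sub_eq_zero.1 h0] at h1
      linarith
    have hc : ContinuousAt (fun z => P.d (j + 1) z / Complex.normSq (P.σ j s - z)) p :=
      (P.continuous_d (j + 1)).continuousAt.div
        (Complex.continuous_normSq.comp (continuous_const.sub continuous_id)).continuousAt hne
    exact hc.tendsto.mono_left nhdsWithin_le_nhds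

lemma BL_zero {ψ : ℂ → ℂ} (hψ : ContinuousOn ψ P.C) {p : ℂ} (hpC : p ∈ P.C) (h0 : ψ p = 0) {j : ℕ}
    (hj : j < P.N) (hd : P.d (j + 1) p = 0) :
    Tendsto (fun z => ∫ s in (0 : ℝ)..P.l j, ψ (P.σ j s) * (P.k j s z : ℂ)) (𝓝[P.Om] p) (𝓝 0) := by
  obtain ⟨B, hB⟩ := P.isCompact_C.exists_bound_of_continuousOn hψ
  have hB0 : 0 ≤ B := (norm_nonneg _).trans (hB _ (P.v_mem 0))
  have hpi := Real.pi_pos
  have hl := P.l_pos j
  rw [Metric.tendsto_nhds]
  intro ε hε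
  obtain ⟨δ, hδ, hδψ⟩ := Metric.continuousOn_iff.1 hψ p hpC (ε / (8 * Real.pi)) (by positivity)
  set η := ε * δ ^ 2 / (16 * (B + 1) * (P.l j + 1)) with hη
  have hη0 : 0 < η := by positivity
  have hev : ∀ᶠ z in 𝓝[P.Om] p, P.d (j + 1) z < η :=
    nhdsWithin_le_nhds ((P.continuous_d (j + 1)).continuousAt.eventually_lt_const (by rw [hd]; exact hη0))
  filter_upwards [self_mem_nhdsWithin, hev,
    nhdsWithin_le_nhds (Metric.ball_mem_nhds p (half_pos hδ))] with z hz hz2 hz3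
  have hzC := P.Om_subset_C hz
  rw [dist_zero_right]
  have hpt : ∀ s ∈ Set.Icc 0 (P.l j), ‖ψ (P.σ j s) * (P.k j s z : ℂ)‖ ≤
      ε / (8 * Real.pi) * P.k j s z + B * (4 * η / δ ^ 2) := by
    intro s hs
    have hk0 := P.k_nonneg hzC j s
    rw [norm_mul, Complex.norm_real, Real.norm_of_nonneg hk0]
    have hσ := P.σ_mem_C hs.1 hs.2
    by_cases hnear : dist (P.σ j s) p < δ
    · have := hδψ _ hσ hnear
      rw [h0, dist_zero_right] at this
      have h3 := mul_le_mul_of_nonneg_right this.le hk0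
      have h4 : 0 ≤ B * (4 * η / δ ^ 2) := by positivity
      linarith
    · have hfar : δ / 2 ≤ ‖P.σ j s - z‖ := by
        have h5 := not_lt.1 hnear
        rw [dist_eq_norm] at h5
        have h6 : ‖z - p‖ < δ / 2 := by simpa [dist_eq_norm] using hz3
        have h7 : ‖P.σ j s - p‖ ≤ ‖P.σ j s - z‖ + ‖z - p‖ := by
          have := norm_add_le (P.σ j s - z) (z - p)
          simpa using this
        linarith
      have hnq : (δ / 2) ^ 2 ≤ Complex.normSq (P.σ j s - z) := by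
        rw [Complex.normSq_eq_norm_sq]
        exact pow_le_pow_left₀ (by positivity) hfar 2
      have hk : P.k j s z ≤ 4 * η / δ ^ 2 := by
        unfold k
        have hdz := (hz (j + 1)).le
        rw [div_le_div_iff₀ (lt_of_lt_of_le (by positivity) hnq) (by positivity)]
        have : P.d (j + 1) z * δ ^ 2 ≤ η * δ ^ 2 := by
          exact mul_le_mul_of_nonneg_right hz2.le (by positivity)
        have h9 : η * δ ^ 2 ≤ 4 * η * Complex.normSq (P.σ j s - z) := by nlinarith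
        linarith
      have h1 := hB _ hσ
      have h2 := mul_le_mul h1 hk hk0 hB0
      have h3 : 0 ≤ ε / (8 * Real.pi) * P.k j s z := by positivity
      linarith
  have hcont := P.ci hψ hzC j
  rw [Icc_l] at hcont
  have hkc : Continuous fun s => ε / (8 * Real.pi) * P.k j s z + B * (4 * η / δ ^ 2) :=
    ((P.k_continuous hzC j).const_mul _).add continuous_const
  have h1 : ‖∫ s in (0 : ℝ)..P.l j, ψ (P.σ j s) * (P.k j s z : ℂ)‖ ≤
      ∫ s in (0 : ℝ)..P.l j, (ε / (8 * Real.pi) * P.k j s z + B * (4 * η / δ ^ 2)) := by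
    refine (intervalIntegral.norm_integral_le_integral_norm hl.le).trans ?_
    refine intervalIntegral.integral_mono_on hl.le ?_ (hkc.intervalIntegrable _ _) hpt
    rw [← Icc_l] at hcont
    exact hcont.norm.intervalIntegrable
  refine lt_of_le_of_lt h1 ?_
  rw [intervalIntegral.integral_add (((P.k_continuous hzC j).const_mul _).intervalIntegrable _ _)
    intervalIntegrable_const, intervalIntegral.integral_const_mul, intervalIntegral.integral_const]
  have h2 := P.mass_le hj hz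
  have h3 : ε / (8 * Real.pi) * ∫ s in (0 : ℝ)..P.l j, P.k j s z ≤ ε / 4 := by
    calc _ ≤ ε / (8 * Real.pi) * (2 * Real.pi) := mul_le_mul_of_nonneg_left h2 (by positivity)
      _ = ε / 4 := by field_simp; norm_num
  have h4 : (P.l j - 0) • (B * (4 * η / δ ^ 2)) ≤ ε / 4 := by
    rw [smul_eq_mul, sub_zero, hη]
    have : P.l j * (B * (4 * (ε * δ ^ 2 / (16 * (B + 1) * (P.l j + 1))) / δ ^ 2))
        = (ε / 4) * ((P.l j / (P.l j + 1)) * (B / (B + 1))) := by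
      field_simp
      ring
    rw [this]
    have h5 : P.l j / (P.l j + 1) ≤ 1 := by rw [div_le_one (by positivity)]; linarith
    have h6 : B / (B + 1) ≤ 1 := by rw [div_le_one (by positivity)]; linarith
    have h7 : 0 ≤ P.l j / (P.l j + 1) := by positivity
    have h8 : 0 ≤ B / (B + 1) := by positivity
    have h9 : (P.l j / (P.l j + 1)) * (B / (B + 1)) ≤ 1 := mul_le_one₀ h5 h8 h6
    nlinarith
  linarith

lemma BL {ψ : ℂ → ℂ} (hψ : ContinuousOn ψ P.C) {p : ℂ} (hpC : p ∈ P.C) (h0 : ψ p = 0) :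
    Tendsto (P.Vis ψ) (𝓝[P.Om] p) (𝓝 (P.Vis ψ p)) := by
  unfold Vis
  refine Tendsto.const_mul _ (tendsto_finset_sum _ fun j hj => ?_)
  rcases (hpC (j + 1)).lt_or_eq with hd | hd
  · exact P.BL_pos hψ hd
  · have : ∫ s in (0 : ℝ)..P.l j, ψ (P.σ j s) * (P.k j s p : ℂ) = 0 := by
      simp [k, ← hd]
    rw [this]
    exact P.BL_zero hψ hpC h0 (Finset.mem_range.1 hj) hd.symm

lemma vis_split {g : ℂ → ℂ} (hg : ContinuousOn g P.C) (c : ℂ) {z : ℂ} (hz : z ∈ P.C) :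
    P.Vis g z = P.Vis (fun w => g w - c) z + c * P.Vis (fun _ => 1) z := by
  have h1 : ContinuousOn (fun w => g w - c) P.C := hg.sub continuousOn_const
  have h2 := P.vis_add h1 (continuousOn_const (c := c)) hz
  have h3 := P.vis_const_mul c (fun _ => 1) z
  simp only [mul_one, sub_add_cancel] at h2 h3
  rw [h2, h3]

theorem tendsto_vis {g : ℂ → ℂ} (hg : ContinuousOn g P.C) {p : ℂ} (hp : p ∈ frontier P.Om) :
    Tendsto (P.Vis g) (𝓝[P.Om] p) (𝓝 (P.Vis g p + g p * (2 - P.Vis (fun _ => 1) p))) := by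
  have hpC : p ∈ P.C := by
    rw [← P.closure_Om]
    exact frontier_subset_closure hp
  have h1 : ContinuousOn (fun w => g w - g p) P.C := hg.sub continuousOn_const
  have h2 := P.BL h1 hpC (sub_self _)
  have h3 : Tendsto (P.Vis g) (𝓝[P.Om] p) (𝓝 (P.Vis (fun w => g w - g p) p + g p * 2)) := by
    refine (h2.add_const (g p * 2)).congr' ?_
    filter_upwards [self_mem_nhdsWithin] with z hz
    rw [P.vis_split hg (g p) (P.Om_subset_C hz), P.vis_one_Om hz]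
  have h4 : P.Vis g p + g p * (2 - P.Vis (fun _ => 1) p) =
      P.Vis (fun w => g w - g p) p + g p * 2 := by
    rw [P.vis_split hg (g p) hpC]
    ring
  rw [h4]
  exact h3

end Poly
end P123U
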