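import Vale.Agent.Lib.P123.U.Geom

/-! The kernels and Cauchy's formula on the polygon (module M2). -/

open Complex Finset Filter Topology MeasureTheory
open scoped ComplexConjugate Interval

noncomputable section

namespace P123U

namespace Poly

variable (P : Poly)

private lemma d_eq_re (j : ℕ) (s : ℝ) (z : ℂ) :
    P.d (j + 1) z = (conj (P.n (j + 1)) * (P.σ j s - z)).re := by
  have h := P.d_sub (j + 1) z (P.σ j s)
  rw [P.d_σ_self, sub_zero] at h
  exact h

private lemma d_le_norm (j : ℕ) (s : ℝ) (z : ℂ) : P.d (j + 1) z ≤ ‖P.σ j s - z‖ := by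
  rw [d_eq_re P j s z]
  calc _ ≤ ‖conj (P.n (j + 1)) * (P.σ j s - z)‖ := Complex.re_le_norm _
    _ = _ := by rw [norm_mul, RCLike.norm_conj, norm_n, one_mul]

private lemma σ_ne {j : ℕ} {z : ℂ} (s : ℝ) (h : 0 < P.d (j + 1) z) : P.σ j s - z ≠ 0 := by
  intro h0
  have := P.d_le_norm j s z
  rw [h0, norm_zero] at this
  linarith

theorem k_nonneg {z : ℂ} (hz : z ∈ P.C) (j : ℕ) (s : ℝ) : 0 ≤ P.k j s z :=
  div_nonneg (hz (j + 1)) (normSq_nonneg _)

theorem k_continuous {z : ℂ} (hz : z ∈ P.C) (j : ℕ) : Continuous fun s => P.k j s z := by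
  rcases (hz (j + 1)).eq_or_lt with h | h
  · have : (fun s => P.k j s z) = fun _ => 0 := by
      funext s
      unfold k
      rw [← h, zero_div]
    rw [this]
    exact continuous_const
  · unfold k
    refine continuous_const.div ?_ ?_
    · exact Complex.continuous_normSq.comp ((P.continuous_σ j).sub continuous_const)
    · intro s
      exact (normSq_pos.2 (P.σ_ne s h)).ne'

theorem k_le {z : ℂ} (hz : z ∈ P.Om) (j : ℕ) (s : ℝ) : P.k j s z ≤ 1 / P.d (j + 1) z := by
  have hd := hz (j + 1)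
  have hn := P.d_le_norm j s z
  unfold k
  rw [Complex.normSq_eq_norm_sq]
  have hw : 0 < ‖P.σ j s - z‖ := by linarith
  rw [div_le_div_iff₀ (by positivity) hd]
  nlinarith

theorem im_kernel (j : ℕ) (s : ℝ) (z : ℂ) : (P.e j / (P.σ j s - z)).im = P.k j s z := by
  unfold k
  rw [P.d_eq_re j s z, Complex.div_im]
  generalize P.σ j s - z = w
  simp only [e, Complex.mul_re, Complex.mul_im, Complex.I_re, Complex.I_im, Complex.conj_re,
    Complex.conj_im]
  ring

/-- The logarithm along a side. -/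
private def A (z : ℂ) (j : ℕ) : ℂ := Complex.log (conj (P.n (j + 1)) * (P.v j - z))

private lemma A_per (z : ℂ) (j : ℕ) : P.A z (j + P.N) = P.A z j := by
  unfold A
  have : j + P.N + 1 = j + 1 + P.N := by omega
  rw [this, n_per, v_per]

private lemma n_conj_ne (j : ℕ) : conj (P.n j) ≠ 0 := by
  intro h
  have := P.n_mul_conj j
  rw [h, zero_mul] at this
  exact zero_ne_one this

private lemma σ_zero (j : ℕ) : P.σ j 0 = P.v j := by
  simp [σ]

private lemma σ_l (j : ℕ) : P.σ j (P.l j) = P.v (j + 1) := by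
  rw [v_succ]
  rfl

private lemma hasDerivAt_σ (j : ℕ) (s : ℝ) : HasDerivAt (P.σ j) (P.e j) s := by
  unfold σ
  have h : HasDerivAt (fun s : ℝ => (s : ℂ) * P.e j) (1 * P.e j) s :=
    (Complex.ofRealCLM.hasDerivAt (x := s)).mul_const _
  simpa using h.const_add (P.v j)

private lemma log_rot {ξ : ℂ} (h : 0 < ξ.re) :
    Complex.log (P.n 1 * ξ) = Complex.log ξ + ((P.φ : ℝ) : ℂ) * I := by
  have hφ := P.φ_pos
  have hφ' := P.φ_le
  have hpi := Real.pi_pos
  have hn1 : P.n 1 = Complex.exp (((P.φ : ℝ) : ℂ) * I) := P.n_one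
  have hlog : Complex.log (P.n 1) = ((P.φ : ℝ) : ℂ) * I := by
    rw [hn1]
    apply Complex.log_exp <;> simp <;> linarith
  have harg : Complex.arg (P.n 1) = P.φ := by
    rw [← Complex.log_im, hlog]
    simp
  have hξ : ξ ≠ 0 := by
    intro h0
    rw [h0] at h
    simp at h
  have hn0 : P.n 1 ≠ 0 := by
    intro h0
    have := P.norm_n 1
    rw [h0, norm_zero] at this
    exact zero_ne_one this
  have ha := Complex.abs_arg_lt_pi_div_two_iff.2 (Or.inl h)
  have ha' := abs_lt.1 ha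
  have := (Complex.log_mul_eq_add_log_iff hn0 hξ).2 (by
    rw [harg]
    constructor <;> linarith [ha'.1, ha'.2])
  rw [this, hlog, add_comm]

private lemma re_pos {z : ℂ} (hz : z ∈ P.Om) (j : ℕ) (s : ℝ) :
    0 < (conj (P.n (j + 1)) * (P.σ j s - z)).re := by
  rw [← P.d_eq_re]
  exact hz _

private lemma kernel_int {z : ℂ} (hz : z ∈ P.Om) (j : ℕ) :
    ∫ s in (0 : ℝ)..P.l j, P.e j / (P.σ j s - z) = P.A z (j + 1) - P.A z j
      + ((P.φ : ℝ) : ℂ) * I := by
  have hd := hz (j + 1)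
  have hder : ∀ s ∈ Set.uIcc (0 : ℝ) (P.l j),
      HasDerivAt (fun s : ℝ => Complex.log (conj (P.n (j + 1)) * (P.σ j s - z)))
        (P.e j / (P.σ j s - z)) s := by
    intro s _
    have h1 : HasDerivAt (fun s : ℝ => conj (P.n (j + 1)) * (P.σ j s - z))
        (conj (P.n (j + 1)) * P.e j) s := ((P.hasDerivAt_σ j s).sub_const z).const_mul _
    have h2 := h1.clog_real (Or.inl (P.re_pos hz j s))
    rwa [mul_div_mul_left _ _ (P.n_conj_ne _)] at h2
  have hcont : Continuous fun s => P.e j / (P.σ j s - z) :=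
    continuous_const.div ((P.continuous_σ j).sub continuous_const) (fun s => P.σ_ne s hd)
  rw [intervalIntegral.integral_eq_sub_of_hasDerivAt hder (hcont.intervalIntegrable _ _), σ_zero,
    σ_l]
  have hn : conj (P.n (j + 1)) = P.n 1 * conj (P.n (j + 1 + 1)) := by
    rw [P.n_add (j + 1) 1, map_mul]
    calc conj (P.n (j + 1)) = conj (P.n (j + 1)) * (P.n 1 * conj (P.n 1)) := by
          rw [P.mul_conj_n, mul_one]
      _ = _ := by ring
  have hre : 0 < (conj (P.n (j + 1 + 1)) * (P.v (j + 1) - z)).re := by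
    have := P.re_pos hz (j + 1) 0
    rwa [σ_zero] at this
  have hl : Complex.log (conj (P.n (j + 1)) * (P.v (j + 1) - z)) = P.A z (j + 1)
      + ((P.φ : ℝ) : ℂ) * I := by
    rw [hn, mul_assoc, P.log_rot hre]
    rfl
  rw [hl]
  unfold A
  ring

/-- The winding number of the polygon around a point of the interior. -/
private lemma winding {z : ℂ} (hz : z ∈ P.Om) :
    ∑ j ∈ Finset.range P.N, ∫ s in (0 : ℝ)..P.l j, P.e j / (P.σ j s - z)
      = 2 * (Real.pi : ℂ) * I := by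
  simp_rw [P.kernel_int hz]
  rw [Finset.sum_add_distrib, Finset.sum_range_sub, Finset.sum_const, Finset.card_range]
  have h := P.A_per z 0
  rw [zero_add] at h
  rw [h, sub_self, zero_add, nsmul_eq_mul]
  have h2 : ((P.N : ℝ) : ℂ) * ((P.φ : ℝ) : ℂ) = 2 * (Real.pi : ℂ) := by
    have := P.N_mul_φ
    exact_mod_cast this
  have h3 : ((P.N : ℕ) : ℂ) = ((P.N : ℝ) : ℂ) := by push_cast; rfl
  rw [h3, ← mul_assoc, h2]

private lemma mem_C_of_uIcc {j : ℕ} {s : ℝ} (hs : s ∈ Set.uIcc (0 : ℝ) (P.l j)) :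
    P.σ j s ∈ P.C := by
  rw [Set.uIcc_of_le (P.l_pos j).le] at hs
  exact P.σ_mem_C hs.1 hs.2

private lemma cont_gσ {g : ℂ → ℂ} (hg : ContinuousOn g P.C) (j : ℕ) :
    ContinuousOn (fun s => g (P.σ j s)) (Set.uIcc 0 (P.l j)) :=
  hg.comp (P.continuous_σ j).continuousOn fun _ hs => P.mem_C_of_uIcc hs

private lemma cont_K {j : ℕ} {z : ℂ} (hd : 0 < P.d (j + 1) z) (p : ℕ) :
    Continuous fun s => P.e j / (P.σ j s - z) ^ p :=
  continuous_const.div (((P.continuous_σ j).sub continuous_const).pow p)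
    (fun s => pow_ne_zero p (P.σ_ne s hd))

private lemma CT_term_diff {g : ℂ → ℂ} (hg : ContinuousOn g P.C) (j : ℕ) {z₀ : ℂ}
    (hz : z₀ ∈ P.Om) : DifferentiableAt ℂ
      (fun z => ∫ s in (0 : ℝ)..P.l j, g (P.σ j s) * (P.e j / (P.σ j s - z))) z₀ := by
  obtain ⟨M, hM⟩ := P.isCompact_C.exists_bound_of_continuousOn hg
  have hd₀ : 0 < P.d (j + 1) z₀ := hz _
  set d₀ := P.d (j + 1) z₀ with hd₀def
  have hlow : ∀ z ∈ Metric.ball z₀ (d₀ / 2), d₀ / 2 < P.d (j + 1) z := by
    intro z hz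
    have h2 := P.abs_d_sub_le (j + 1) z z₀
    rw [Metric.mem_ball, dist_eq_norm] at hz
    have := abs_le.1 h2
    linarith [this.1]
  have hball : Metric.ball z₀ (d₀ / 2) ∈ 𝓝 z₀ := Metric.ball_mem_nhds z₀ (half_pos hd₀)
  have hF : ∀ z, 0 < P.d (j + 1) z → ∀ p : ℕ, ContinuousOn
      (fun s => g (P.σ j s) * (P.e j / (P.σ j s - z) ^ p)) (Set.uIcc 0 (P.l j)) := fun z hz p =>
    (P.cont_gσ hg j).mul (P.cont_K hz p).continuousOn
  have hF1 : ∀ z, 0 < P.d (j + 1) z → ContinuousOn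
      (fun s => g (P.σ j s) * (P.e j / (P.σ j s - z))) (Set.uIcc 0 (P.l j)) := fun z hz => by
    simpa using hF z hz 1
  have key := intervalIntegral.hasDerivAt_integral_of_dominated_loc_of_deriv_le
    (μ := volume) (a := 0) (b := P.l j) (𝕜 := ℂ)
    (F := fun z s => g (P.σ j s) * (P.e j / (P.σ j s - z)))
    (F' := fun z s => g (P.σ j s) * (P.e j / (P.σ j s - z) ^ 2))
    (x₀ := z₀) (s := Metric.ball z₀ (d₀ / 2)) (bound := fun _ => M * (‖P.e j‖ / (d₀ / 2) ^ 2))
    hball ?_ (hF1 z₀ hd₀).intervalIntegrable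
    ((hF z₀ hd₀ 2).mono Set.uIoc_subset_uIcc |>.aestronglyMeasurable measurableSet_uIoc)
    ?_ intervalIntegrable_const ?_
  · exact key.2.differentiableAt
  · filter_upwards [hball] with z hz
    exact (hF1 z (lt_trans (half_pos hd₀) (hlow z hz))).mono Set.uIoc_subset_uIcc
      |>.aestronglyMeasurable measurableSet_uIoc
  · refine Eventually.of_forall fun s hs z hz => ?_
    have hsC : P.σ j s ∈ P.C := P.mem_C_of_uIcc (Set.uIoc_subset_uIcc hs)
    have h1 := hM _ hsC
    have h2 : d₀ / 2 ≤ ‖P.σ j s - z‖ := (hlow z hz).le.trans (P.d_le_norm j s z)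
    have hd2 : 0 < d₀ / 2 := half_pos hd₀
    rw [norm_mul, norm_div, norm_pow]
    have h3 : ‖P.e j‖ / ‖P.σ j s - z‖ ^ 2 ≤ ‖P.e j‖ / (d₀ / 2) ^ 2 := by
      apply div_le_div_of_nonneg_left (norm_nonneg _) (by positivity)
      exact pow_le_pow_left₀ hd2.le h2 2
    exact mul_le_mul h1 h3 (by positivity) ((norm_nonneg _).trans h1)
  · refine Eventually.of_forall fun s _ z hz => ?_
    have hne : P.σ j s - z ≠ 0 := P.σ_ne s (lt_trans (half_pos hd₀) (hlow z hz))
    have h1 : HasDerivAt (fun z => (P.σ j s - z)⁻¹) (-(-1) / (P.σ j s - z) ^ 2) z :=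
      HasDerivAt.fun_inv ((hasDerivAt_id z).const_sub (P.σ j s)) hne
    have h2 := (h1.const_mul (P.e j)).const_mul (g (P.σ j s))
    refine (h2.congr_deriv ?_)
    field_simp

theorem CT_differentiableOn {g : ℂ → ℂ} (hg : ContinuousOn g P.C) :
    DifferentiableOn ℂ (P.CT g) P.Om := by
  intro z hz
  apply DifferentiableAt.differentiableWithinAt
  unfold CT
  apply DifferentiableAt.const_mul
  apply DifferentiableAt.fun_sum
  intro j _
  exact P.CT_term_diff hg j hz

/-- The dilation towards the marked point. -/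
private def τ (r : ℝ) (w : ℂ) : ℂ := ((1 - r : ℝ) : ℂ) * P.c + ((r : ℝ) : ℂ) * w

private lemma τ_mem {w : ℂ} (hw : w ∈ P.C) {r : ℝ} (h0 : 0 ≤ r) (h1 : r < 1) :
    P.τ r w ∈ P.Om := by
  intro j
  unfold τ
  rw [P.d_comb]
  have h := P.c_mem_Om j
  have h' := hw j
  nlinarith [mul_nonneg h0 h', mul_pos (sub_pos.2 h1) h]

private lemma dil_int {g G : ℂ → ℂ} (hG : ∀ a ∈ P.Om, HasDerivAt G (g a) a)
    (hg : ContinuousOn g P.Om) (j : ℕ) {r : ℝ} (h0 : 0 ≤ r) (h1 : r < 1) :
    ∫ s in (0 : ℝ)..P.l j, g (P.τ r (P.σ j s)) * ((r : ℂ) * P.e j)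
      = G (P.τ r (P.v (j + 1))) - G (P.τ r (P.v j)) := by
  have hin : ∀ s ∈ Set.uIcc (0 : ℝ) (P.l j), P.τ r (P.σ j s) ∈ P.Om := fun s hs =>
    P.τ_mem (P.mem_C_of_uIcc hs) h0 h1
  have hder : ∀ s ∈ Set.uIcc (0 : ℝ) (P.l j), HasDerivAt (fun s => G (P.τ r (P.σ j s)))
      (g (P.τ r (P.σ j s)) * ((r : ℂ) * P.e j)) s := by
    intro s hs
    have h2 : HasDerivAt (fun s => P.τ r (P.σ j s)) ((r : ℂ) * P.e j) s :=
      ((P.hasDerivAt_σ j s).const_mul (r : ℂ)).const_add _
    have h3 := HasDerivAt.scomp s (hG _ (hin s hs)) h2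
    refine h3.congr_deriv ?_
    rw [smul_eq_mul, mul_comm]
  have hcτ : Continuous fun s => P.τ r (P.σ j s) := by
    unfold τ
    exact continuous_const.add (continuous_const.mul (P.continuous_σ j))
  have hc : ContinuousOn (fun s => g (P.τ r (P.σ j s)) * ((r : ℂ) * P.e j))
      (Set.uIcc 0 (P.l j)) :=
    (hg.comp hcτ.continuousOn hin).mul continuousOn_const
  rw [intervalIntegral.integral_eq_sub_of_hasDerivAt hder hc.intervalIntegrable, σ_zero, σ_l]

private lemma dil_lim {g : ℂ → ℂ} (hg : ContinuousOn g P.C) (j : ℕ) :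
    Tendsto (fun r : ℝ => ∫ s in (0 : ℝ)..P.l j, g (P.τ r (P.σ j s)) * ((r : ℂ) * P.e j))
      (𝓝[<] 1) (𝓝 (∫ s in (0 : ℝ)..P.l j, g (P.σ j s) * P.e j)) := by
  obtain ⟨M, hM⟩ := P.isCompact_C.exists_bound_of_continuousOn hg
  have hev : ∀ᶠ r : ℝ in 𝓝[<] 1, r ∈ Set.Ioo (0 : ℝ) 1 := Ioo_mem_nhdsLT (by norm_num)
  have hcτ : ∀ r, Continuous fun s => P.τ r (P.σ j s) := fun r => by
    unfold τ
    exact continuous_const.add (continuous_const.mul (P.continuous_σ j))
  have hin : ∀ r ∈ Set.Ioo (0 : ℝ) 1, ∀ s ∈ Set.uIcc (0 : ℝ) (P.l j),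
      P.τ r (P.σ j s) ∈ P.C := fun r hr s hs =>
    P.Om_subset_C (P.τ_mem (P.mem_C_of_uIcc hs) hr.1.le hr.2)
  refine intervalIntegral.tendsto_integral_filter_of_dominated_convergence
    (fun _ => M * ‖P.e j‖) ?_ ?_ intervalIntegrable_const ?_
  · filter_upwards [hev] with r hr
    have hc : ContinuousOn (fun s => g (P.τ r (P.σ j s)) * ((r : ℂ) * P.e j))
        (Set.uIcc 0 (P.l j)) :=
      (hg.comp (hcτ r).continuousOn (hin r hr)).mul continuousOn_const
    exact (hc.mono Set.uIoc_subset_uIcc).aestronglyMeasurable measurableSet_uIoc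
  · filter_upwards [hev] with r hr
    refine Eventually.of_forall fun s hs => ?_
    have h1 := hM _ (hin r hr s (Set.uIoc_subset_uIcc hs))
    rw [norm_mul, norm_mul, Complex.norm_real, Real.norm_eq_abs, abs_of_pos hr.1]
    have h2 : r * ‖P.e j‖ ≤ ‖P.e j‖ := by
      nlinarith [hr.2, norm_nonneg (P.e j)]
    exact mul_le_mul h1 h2 (by have := hr.1; positivity) ((norm_nonneg _).trans h1)
  · refine Eventually.of_forall fun s hs => ?_
    have hw : P.σ j s ∈ P.C := P.mem_C_of_uIcc (Set.uIoc_subset_uIcc hs)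
    have h1 : Tendsto (fun r : ℝ => P.τ r (P.σ j s)) (𝓝[<] 1) (𝓝[P.C] (P.σ j s)) := by
      refine tendsto_nhdsWithin_iff.2 ⟨?_, ?_⟩
      · have hc : Continuous fun r : ℝ => P.τ r (P.σ j s) := by
          unfold τ
          fun_prop
        have h1 : P.τ 1 (P.σ j s) = P.σ j s := by
          simp [τ]
        exact (hc.tendsto' 1 _ h1).mono_left nhdsWithin_le_nhds
      · filter_upwards [hev] with r hr
        exact hin r hr s (Set.uIoc_subset_uIcc hs)
    have h2 : Tendsto (fun r : ℝ => (r : ℂ) * P.e j) (𝓝[<] 1) (𝓝 (P.e j)) := by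
      have hc : Continuous fun r : ℝ => (r : ℂ) * P.e j := by fun_prop
      exact (hc.tendsto' 1 _ (by simp)).mono_left nhdsWithin_le_nhds
    exact ((hg _ hw).tendsto.comp h1).mul h2

/-- Cauchy's theorem on the polygon. -/
private lemma poly_zero {g : ℂ → ℂ} (hg : DiffContOnCl ℂ g P.Om) :
    ∑ j ∈ Finset.range P.N, ∫ s in (0 : ℝ)..P.l j, g (P.σ j s) * P.e j = 0 := by
  obtain ⟨G, hG⟩ := P.convex_Om.exists_forall_hasDerivWithinAt (𝕜 := ℂ) hg.differentiableOn
  have hG' : ∀ a ∈ P.Om, HasDerivAt G (g a) a := fun a ha =>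
    (hG a ha).hasDerivAt (P.isOpen_Om.mem_nhds ha)
  have hgC : ContinuousOn g P.C := by
    have := hg.continuousOn
    rwa [P.closure_Om] at this
  have hlim := tendsto_finsetSum (Finset.range P.N) fun j _ => P.dil_lim hgC j
  have hzero : ∀ᶠ r : ℝ in 𝓝[<] 1, (∑ j ∈ Finset.range P.N,
      ∫ s in (0 : ℝ)..P.l j, g (P.τ r (P.σ j s)) * ((r : ℂ) * P.e j)) = 0 := by
    filter_upwards [Ioo_mem_nhdsLT (show (0 : ℝ) < 1 by norm_num)] with r hr
    have h1 : ∀ j ∈ Finset.range P.N, ∫ s in (0 : ℝ)..P.l j,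
        g (P.τ r (P.σ j s)) * ((r : ℂ) * P.e j) = G (P.τ r (P.v (j + 1))) - G (P.τ r (P.v j)) :=
      fun j _ => P.dil_int hG' (hgC.mono P.Om_subset_C) j hr.1.le hr.2
    rw [Finset.sum_congr rfl h1, Finset.sum_range_sub (fun j => G (P.τ r (P.v j)))]
    have h2 := P.v_per 0
    rw [zero_add] at h2
    rw [h2, sub_self]
  exact tendsto_nhds_unique hlim (tendsto_const_nhds.congr' (hzero.mono fun _ h => h.symm))

private lemma dslope_diff {f : ℂ → ℂ} (hf : DiffContOnCl ℂ f P.Om) {z : ℂ} (hz : z ∈ P.Om) :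
    DiffContOnCl ℂ (dslope f z) P.Om := by
  have hn := P.isOpen_Om.mem_nhds hz
  refine ⟨(Complex.differentiableOn_dslope hn).2 hf.differentiableOn, ?_⟩
  intro w hw
  by_cases h : w = z
  · subst h
    exact (continuousAt_dslope_same.2 (hf.differentiableOn.differentiableAt hn)).continuousWithinAt
  · exact (continuousWithinAt_dslope_of_ne h).2 (hf.continuousOn w hw)

theorem cauchy {f : ℂ → ℂ} (hf : DiffContOnCl ℂ f P.Om) {z : ℂ} (hz : z ∈ P.Om) :
    P.CT f z = f z := by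
  have hg := P.dslope_diff hf hz
  have h0 := P.poly_zero hg
  have hgC : ContinuousOn (dslope f z) P.C := by
    have := hg.continuousOn
    rwa [P.closure_Om] at this
  have hsplit : ∀ j, ∫ s in (0 : ℝ)..P.l j, f (P.σ j s) * (P.e j / (P.σ j s - z))
      = (∫ s in (0 : ℝ)..P.l j, dslope f z (P.σ j s) * P.e j)
        + f z * ∫ s in (0 : ℝ)..P.l j, P.e j / (P.σ j s - z) := by
    intro j
    have hd := hz (j + 1)
    have hc1 : ContinuousOn (fun s => dslope f z (P.σ j s) * P.e j) (Set.uIcc 0 (P.l j)) :=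
      (P.cont_gσ hgC j).mul continuousOn_const
    have hc2 : Continuous fun s => f z * (P.e j / (P.σ j s - z)) := by
      have := P.cont_K hd 1
      simp only [pow_one] at this
      exact continuous_const.mul this
    rw [← intervalIntegral.integral_const_mul,
      ← intervalIntegral.integral_add hc1.intervalIntegrable (hc2.intervalIntegrable _ _)]
    refine intervalIntegral.integral_congr fun s _ => ?_
    have hne := P.σ_ne s hd
    have hne' : P.σ j s ≠ z := sub_ne_zero.1 hne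
    simp only [dslope_of_ne _ hne', slope_def_field]
    field_simp
    ring
  unfold CT
  simp_rw [hsplit]
  rw [Finset.sum_add_distrib, h0, zero_add, ← Finset.mul_sum, P.winding hz]
  have hpi : (Real.pi : ℂ) ≠ 0 := by exact_mod_cast Real.pi_ne_zero
  field_simp [Complex.I_ne_zero]

/-- The double layer potential in terms of Cauchy transforms. -/
private lemma vis_eq_CT {g : ℂ → ℂ} (hg : ContinuousOn g P.C) {z : ℂ} (hz : z ∈ P.Om) :
    P.Vis g z = P.CT g z + conj (P.CT (fun w => conj (g w)) z) := by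
  have hB : ∀ j, conj (∫ s in (0 : ℝ)..P.l j, conj (g (P.σ j s)) * (P.e j / (P.σ j s - z)))
      = ∫ s in (0 : ℝ)..P.l j, g (P.σ j s) * conj (P.e j / (P.σ j s - z)) := by
    intro j
    rw [← intervalIntegral.intervalIntegral_conj]
    refine intervalIntegral.integral_congr fun s _ => ?_
    simp only [map_mul, Complex.conj_conj]
  have hk : ∀ j, ∫ s in (0 : ℝ)..P.l j, g (P.σ j s) * (P.k j s z : ℂ)
      = (2 * I)⁻¹ * ((∫ s in (0 : ℝ)..P.l j, g (P.σ j s) * (P.e j / (P.σ j s - z)))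
        - ∫ s in (0 : ℝ)..P.l j, g (P.σ j s) * conj (P.e j / (P.σ j s - z))) := by
    intro j
    have hd := hz (j + 1)
    have hK : Continuous fun s => P.e j / (P.σ j s - z) := by
      simpa using P.cont_K hd 1
    have hc1 : ContinuousOn (fun s => g (P.σ j s) * (P.e j / (P.σ j s - z)))
        (Set.uIcc 0 (P.l j)) := (P.cont_gσ hg j).mul hK.continuousOn
    have hc2 : ContinuousOn (fun s => g (P.σ j s) * conj (P.e j / (P.σ j s - z)))
        (Set.uIcc 0 (P.l j)) :=
      (P.cont_gσ hg j).mul (Complex.continuous_conj.comp hK).continuousOn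
    rw [← intervalIntegral.integral_sub hc1.intervalIntegrable hc2.intervalIntegrable,
      ← intervalIntegral.integral_const_mul]
    refine intervalIntegral.integral_congr fun s _ => ?_
    have h3 := Complex.sub_conj (P.e j / (P.σ j s - z))
    rw [P.im_kernel j s z] at h3
    rw [← mul_sub, h3]
    push_cast
    field_simp
  unfold Vis CT
  rw [map_mul, map_sum]
  simp_rw [hB, hk]
  rw [← Finset.mul_sum, Finset.sum_sub_distrib]
  have h4 : conj ((2 * (Real.pi : ℂ) * I)⁻¹) = -(2 * (Real.pi : ℂ) * I)⁻¹ := by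
    rw [map_inv₀, map_mul, map_mul, Complex.conj_I, Complex.conj_ofReal]
    simp only [map_ofNat, mul_neg, inv_neg]
  rw [h4]
  have hpi : (Real.pi : ℂ) ≠ 0 := by exact_mod_cast Real.pi_ne_zero
  push_cast
  field_simp [Complex.I_ne_zero]
  ring

theorem re_CT_real (g : ℂ → ℝ) (hg : ContinuousOn g P.C) {z : ℂ} (hz : z ∈ P.Om) :
    (2 * P.CT (fun w => (g w : ℂ)) z).re = (P.Vis (fun w => (g w : ℂ)) z).re := by
  have hG : ContinuousOn (fun w => (g w : ℂ)) P.C := Complex.continuous_ofReal.comp_continuousOn hg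
  rw [P.vis_eq_CT hG hz]
  simp only [Complex.conj_ofReal, Complex.add_re, Complex.conj_re, Complex.mul_re, Complex.re_ofNat,
    Complex.im_ofNat, zero_mul, sub_zero]
  ring

theorem vis_eq_add {f : ℂ → ℂ} (hf : DiffContOnCl ℂ f P.Om) {z : ℂ} (hz : z ∈ P.Om) :
    P.Vis f z = f z + conj (P.CT (fun w => conj (f w)) z) := by
  have hfC : ContinuousOn f P.C := by
    have := hf.continuousOn
    rwa [P.closure_Om] at this
  rw [P.vis_eq_CT hfC hz, P.cauchy hf hz]

theorem vis_one_Om {z : ℂ} (hz : z ∈ P.Om) : P.Vis (fun _ => 1) z = 2 := by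
  have hc : DiffContOnCl ℂ (fun _ : ℂ => (1 : ℂ)) P.Om := diffContOnCl_const
  rw [P.vis_eq_add hc hz]
  simp only [map_one]
  rw [P.cauchy hc hz, map_one]
  norm_num

end Poly

end P123U
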