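import Vale.Agent.Lib.P123.U.Poly

/-! Kernels, double layer potentials and the Cauchy type transforms on a polygon. -/

open Complex Finset
open scoped ComplexConjugate

noncomputable section

namespace P123U

namespace Poly

variable (P : Poly)

/-- Poisson type kernel at the point `σ j s` of side `j`, seen from `z`.  Note that side `j`
lies on the line number `j + 1`, so `d (j + 1) z` is the distance from `z` to the side's line. -/
def k (j : ℕ) (s : ℝ) (z : ℂ) : ℝ := P.d (j + 1) z / Complex.normSq (P.σ j s - z)

/-- The double layer potential (the total mass is `2` at interior points, `1` at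
interior points of sides). -/
def Vis (g : ℂ → ℂ) (z : ℂ) : ℂ :=
  ((Real.pi⁻¹ : ℝ) : ℂ) *
    ∑ j ∈ Finset.range P.N, ∫ s in (0 : ℝ)..P.l j, g (P.σ j s) * (P.k j s z : ℂ)

/-- `p` is an interior point of a side. -/
def SideInt (p : ℂ) : Prop := ∃ j s, 0 < s ∧ s < P.l j ∧ p = P.σ j s

/-- The Cauchy transform of a function on the boundary. -/
def CT (g : ℂ → ℂ) (z : ℂ) : ℂ :=
  (2 * (Real.pi : ℂ) * I)⁻¹ *
    ∑ j ∈ Finset.range P.N, ∫ s in (0 : ℝ)..P.l j, g (P.σ j s) * (P.e j / (P.σ j s - z))

/-- The Cauchy transform of the conjugate, extended to the frontier by its boundary values. -/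
def hat (f : ℂ → ℂ) (z : ℂ) : ℂ := by
  classical
  exact if z ∈ P.Om then P.CT (fun w => conj (f w)) z
    else conj (P.Vis f z + f z * (1 - P.Vis (fun _ => 1) z))

/-- `1 + hat f * f`, whose real part is nonnegative on the polygon when `|f| ≤ 1`. -/
def w0 (f : ℂ → ℂ) (z : ℂ) : ℂ := 1 + P.hat f z * f z

end Poly

end P123U
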