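import Vale.Agent.Lib.P123.U.Defs

/-! Elementary geometry of the polygon. -/

open Complex Finset Filter Topology
open scoped ComplexConjugate

noncomputable section

namespace P123U

namespace Poly

variable (P : Poly)

lemma re_conj_n_e (i r : ℕ) : (conj (P.n i) * P.e (i + r)).re = -Real.sin (((r + 1 : ℕ) : ℝ) * P.φ) := by
  unfold e
  have : conj (P.n i) * (I * P.n (i + r + 1)) = I * (conj (P.n i) * P.n (i + (r + 1))) := by
    rw [add_assoc]; ring
  rw [this, conj_n_mul_n_add]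
  simp [P.n_im]

lemma d_v_step (i r : ℕ) : P.d i (P.v (i + r + 1)) =
    P.d i (P.v (i + r)) + P.l (i + r) * Real.sin (((r + 1 : ℕ) : ℝ) * P.φ) := by
  rw [v_succ, d_lin, re_conj_n_e]
  ring

lemma sin_mul_nonneg {k : ℕ} (h : k ≤ 2 * P.m) : 0 ≤ Real.sin ((k : ℝ) * P.φ) := by
  apply Real.sin_nonneg_of_nonneg_of_le_pi (by have := P.φ_pos; positivity)
  have h1 : (k : ℝ) ≤ 2 * P.m := by exact_mod_cast h
  have h2 : ((2 : ℝ) * P.m) * P.φ = Real.pi := by
    unfold φ
    have := P.m_pos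
    field_simp
  calc (k : ℝ) * P.φ ≤ (2 * P.m) * P.φ := by
        exact mul_le_mul_of_nonneg_right h1 P.φ_pos.le
    _ = Real.pi := h2

lemma sin_mul_neg {k : ℕ} (h : 2 * P.m < k) (h' : k < 4 * P.m) : Real.sin ((k : ℝ) * P.φ) < 0 := by
  have h1 : (2 * (P.m : ℝ)) < k := by exact_mod_cast h
  have h1' : (k : ℝ) < 4 * P.m := by exact_mod_cast h'
  have h2 : ((2 : ℝ) * P.m) * P.φ = Real.pi := by
    unfold φ
    have := P.m_pos
    field_simp
  have hφ := P.φ_pos
  have h3 : (k : ℝ) * P.φ - 2 * Real.pi < 0 := by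
    have : (k : ℝ) * P.φ < (4 * P.m) * P.φ := mul_lt_mul_of_pos_right h1' hφ
    nlinarith
  have h4 : -Real.pi < (k : ℝ) * P.φ - 2 * Real.pi := by
    have : ((2 : ℝ) * P.m) * P.φ < (k : ℝ) * P.φ := mul_lt_mul_of_pos_right h1 hφ
    nlinarith
  have := Real.sin_neg_of_neg_of_neg_pi_lt h3 h4
  rwa [Real.sin_sub_two_pi] at this

lemma D_last (i : ℕ) : P.d i (P.v (i + (P.N - 1))) = 0 := by
  have hN := P.N_pos
  have := P.d_v_succ (i + (P.N - 1))
  have h2 : i + (P.N - 1) + 1 = i + P.N := by omega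
  rw [h2, d_per] at this
  exact this

lemma D_up (i : ℕ) : ∀ r, r + 1 ≤ 2 * P.m → 0 < P.d i (P.v (i + (r + 1))) := by
  intro r
  induction r with
  | zero =>
    intro _
    have := P.d_v_step i 0
    simp only [add_zero] at this
    rw [show i + (0 + 1) = i + 1 from rfl, this, d_v_self, zero_add]
    have hs : Real.sin (((0 + 1 : ℕ) : ℝ) * P.φ) = Real.sin P.φ := by simp
    rw [hs]
    exact mul_pos (P.l_pos _) P.sin_φ_pos
  | succ r ih =>
    intro h
    have h1 := ih (by omega)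
    have h2 := P.d_v_step i (r + 1)
    rw [show i + (r + 1 + 1) = i + (r + 1) + 1 by ring, h2]
    have h3 := P.sin_mul_nonneg (k := r + 1 + 1) h
    have h4 := P.l_pos (i + (r + 1))
    positivity

lemma D_down (i : ℕ) (t : ℕ) : 2 * P.m ≤ P.N - 2 - t → t ≤ P.N - 2 →
    0 < P.d i (P.v (i + (P.N - 2 - t))) := by
  induction t with
  | zero =>
    intro h _
    have hN := P.N_ge
    have h2 := P.d_v_step i (P.N - 2)
    have h3 : i + (P.N - 2) + 1 = i + (P.N - 1) := by omega
    rw [h3, D_last] at h2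
    have h4 : Real.sin (((P.N - 2 + 1 : ℕ) : ℝ) * P.φ) < 0 := by
      apply P.sin_mul_neg
      · omega
      · have : P.N = 4 * P.m := rfl
        omega
    have h5 := P.l_pos (i + (P.N - 2))
    have h6 := mul_neg_of_pos_of_neg h5 h4
    simp only [Nat.sub_zero]
    linarith
  | succ t ih =>
    intro h h'
    have hN := P.N_ge
    have hNm : P.N = 4 * P.m := rfl
    have h1 := ih (by omega) (by omega)
    have h2 := P.d_v_step i (P.N - 2 - (t + 1))
    have h3 : i + (P.N - 2 - (t + 1)) + 1 = i + (P.N - 2 - t) := by omega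
    rw [h3] at h2
    have h4 : Real.sin (((P.N - 2 - (t + 1) + 1 : ℕ) : ℝ) * P.φ) ≤ 0 := by
      by_cases hk : 2 * P.m < P.N - 2 - (t + 1) + 1
      · exact (P.sin_mul_neg hk (by omega)).le
      · have : P.N - 2 - (t + 1) + 1 ≤ 2 * P.m := by omega
        omega
    have h5 := P.l_pos (i + (P.N - 2 - (t + 1)))
    have h6 := mul_nonpos_of_nonneg_of_nonpos h5.le h4
    linarith

/-- the heights of the vertices above a line. -/
lemma D_pos (i r : ℕ) (h1 : 1 ≤ r) (h2 : r + 2 ≤ P.N) : 0 < P.d i (P.v (i + r)) := by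
  have hNm : P.N = 4 * P.m := rfl
  by_cases h : r ≤ 2 * P.m
  · obtain ⟨q, rfl⟩ : ∃ q, r = q + 1 := ⟨r - 1, by omega⟩
    exact P.D_up i q h
  · have := P.D_down i (P.N - 2 - r) (by omega) (by omega)
    have h3 : P.N - 2 - (P.N - 2 - r) = r := by omega
    rwa [h3] at this

lemma d_shift (i j : ℕ) : ∃ r < P.N, ∀ z, P.d i z = P.d (j + r) z := by
  have hN := P.N_pos
  refine ⟨(i + j * (P.N - 1)) % P.N, Nat.mod_lt _ hN, fun z => ?_⟩
  have h1 := P.per_mod (fun x => P.d x z) (fun x => P.d_per x z)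
  have h2 : (j + (i + j * (P.N - 1)) % P.N) % P.N = i % P.N := by
    have h3 : j + (i + j * (P.N - 1)) = i + j * P.N := by
      obtain ⟨q, hq⟩ : ∃ q, P.N = q + 1 := ⟨P.N - 1, by omega⟩
      rw [hq]; simp only [Nat.add_sub_cancel]; ring
    rw [Nat.add_mod_mod, h3, Nat.add_mul_mod_self_right]
  calc P.d i z = P.d (i % P.N) z := (h1 i).symm
    _ = P.d ((j + (i + j * (P.N - 1)) % P.N) % P.N) z := by rw [h2]
    _ = _ := h1 _

lemma d_v_nonneg (i j : ℕ) : 0 ≤ P.d i (P.v j) := by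
  obtain ⟨r, hr, h⟩ := P.d_shift j i
  -- `d j' ` with `j' = i + r'`
  obtain ⟨r', hr', h'⟩ : ∃ r' < P.N, P.v j = P.v (i + r') := by
    have hN := P.N_pos
    refine ⟨(j + i * (P.N - 1)) % P.N, Nat.mod_lt _ hN, ?_⟩
    have h1 := P.per_mod (fun x => P.v x) (fun x => P.v_per x)
    have h2 : (i + (j + i * (P.N - 1)) % P.N) % P.N = j % P.N := by
      have h3 : i + (j + i * (P.N - 1)) = j + i * P.N := by
        obtain ⟨q, hq⟩ : ∃ q, P.N = q + 1 := ⟨P.N - 1, by omega⟩
        rw [hq]; simp only [Nat.add_sub_cancel]; ring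
      rw [Nat.add_mod_mod, h3, Nat.add_mul_mod_self_right]
    calc P.v j = P.v (j % P.N) := (h1 j).symm
      _ = P.v ((i + (j + i * (P.N - 1)) % P.N) % P.N) := by rw [h2]
      _ = _ := h1 _
  rw [h']
  by_cases h0 : r' = 0
  · subst h0
    rw [add_zero, d_v_self]
  · by_cases h1 : r' + 2 ≤ P.N
    · exact (P.D_pos i r' (by omega) h1).le
    · have : r' = P.N - 1 := by omega
      rw [this, D_last]

lemma d_σ_comb (i j : ℕ) (s : ℝ) : P.d i (P.σ j s) =
    (1 - s / P.l j) * P.d i (P.v j) + (s / P.l j) * P.d i (P.v (j + 1)) := by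
  have hl := (P.l_pos j).ne'
  rw [v_succ]
  unfold σ
  rw [d_lin, d_lin]
  field_simp
  ring

theorem d_σ_self (j : ℕ) (s : ℝ) : P.d (j + 1) (P.σ j s) = 0 := by
  unfold σ
  rw [d_lin, d_v_succ]
  have := P.re_conj_n_e (j + 1) 0
  have h2 : (conj (P.n (j + 1)) * P.e j).re = 0 := by
    unfold e
    have : conj (P.n (j + 1)) * (I * P.n (j + 1)) = I * (conj (P.n (j + 1)) * P.n (j + 1)) := by ring
    rw [this, n_mul_conj]
    simp
  rw [h2]
  ring

theorem σ_mem_C {j : ℕ} {s : ℝ} (h0 : 0 ≤ s) (h1 : s ≤ P.l j) : P.σ j s ∈ P.C := by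
  intro i
  rw [d_σ_comb]
  have hl := P.l_pos j
  have h2 : 0 ≤ s / P.l j := by positivity
  have h3 : 0 ≤ 1 - s / P.l j := by
    rw [sub_nonneg, div_le_one hl]
    exact h1
  have := P.d_v_nonneg i j
  have := P.d_v_nonneg i (j + 1)
  positivity

theorem d_σ_pos {j r : ℕ} {s : ℝ} (h0 : 0 < s) (h1 : s < P.l j) (hr1 : 1 ≤ r) (hr : r < P.N) :
    0 < P.d (j + 1 + r) (P.σ j s) := by
  rw [d_σ_comb]
  have hl := P.l_pos j
  have h2 : 0 < s / P.l j := by positivity
  have h3 : 0 < 1 - s / P.l j := by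
    rw [sub_pos, div_lt_one hl]
    exact h1
  have hv0 : P.v j = P.v (j + 1 + r + (P.N - 1 - r)) := by
    have : j + 1 + r + (P.N - 1 - r) = j + P.N := by omega
    rw [this, v_per]
  have hv1 : P.v (j + 1) = P.v (j + 1 + r + (P.N - r)) := by
    have : j + 1 + r + (P.N - r) = j + 1 + P.N := by omega
    rw [this, v_per]
  have a0 := P.d_v_nonneg (j + 1 + r) j
  have a1 := P.d_v_nonneg (j + 1 + r) (j + 1)
  by_cases hc : r = P.N - 1
  · have hpos : 0 < P.d (j + 1 + r) (P.v (j + 1)) := by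
      rw [hv1]
      exact P.D_pos _ _ (by omega) (by have := P.N_ge; omega)
    have := mul_pos h2 hpos
    have := mul_nonneg h3.le a0
    linarith
  · have hpos : 0 < P.d (j + 1 + r) (P.v j) := by
      rw [hv0]
      exact P.D_pos _ _ (by omega) (by omega)
    have := mul_pos h3 hpos
    have := mul_nonneg h2.le a1
    linarith

lemma d_affine (j : ℕ) (x y : ℂ) {a b : ℝ} (hab : a + b = 1) :
    P.d j (a • x + b • y) = a * P.d j x + b * P.d j y := by
  unfold d
  have : conj (P.n j) * (a • x + b • y) = (a : ℂ) * (conj (P.n j) * x) + (b : ℂ) * (conj (P.n j) * y) := by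
    simp only [Complex.real_smul]
    ring
  rw [this, Complex.add_re, Complex.re_ofReal_mul, Complex.re_ofReal_mul]
  have : P.H j = (a + b) * P.H j := by rw [hab, one_mul]
  nlinarith

theorem convex_Om : Convex ℝ P.Om := by
  intro x hx y hy a b ha hb hab j
  rw [d_affine _ _ _ _ hab]
  have h1 := hx j
  have h2 := hy j
  rcases ha.eq_or_lt with h | h
  · subst h
    have hb1 : b = 1 := by linarith
    subst hb1
    simpa using h2
  · have := mul_pos h h1
    have := mul_nonneg hb h2.le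
    linarith

theorem convex_C : Convex ℝ P.C := by
  intro x hx y hy a b ha hb hab j
  rw [d_affine _ _ _ _ hab]
  have h1 := hx j
  have h2 := hy j
  positivity

theorem isOpen_Om : IsOpen P.Om := by
  have h : P.Om = ⋂ j ∈ Finset.range P.N, {z | 0 < P.d j z} := by
    ext z
    simp only [Om, Set.mem_ofPred_eq, Set.mem_iInter, Finset.mem_range]
    constructor
    · exact fun h j _ => h j
    · intro h j
      have h1 := P.per_mod (fun x => P.d x z) (fun x => P.d_per x z) j
      have h2 := h (j % P.N) (Nat.mod_lt _ P.N_pos)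
      simpa [h1] using h2
  rw [h]
  apply isOpen_biInter_finset
  intro j _
  exact isOpen_lt continuous_const (P.continuous_d j)

theorem c_mem_Om : P.c ∈ P.Om := by
  intro j
  exact P.hc j

theorem isClosed_C : IsClosed P.C := by
  have h : P.C = ⋂ j, {z | 0 ≤ P.d j z} := by
    ext z
    simp [C]
  rw [h]
  exact isClosed_iInter fun j => isClosed_le continuous_const (P.continuous_d j)

theorem Om_subset_C : P.Om ⊆ P.C := fun _ hz j => (hz j).le

theorem closure_Om : closure P.Om = P.C := by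
  apply subset_antisymm (closure_minimal P.Om_subset_C P.isClosed_C)
  intro z hz
  have hlim : Tendsto (fun t : ℝ => ((1 - t : ℝ) : ℂ) * z + (t : ℝ) * P.c) (𝓝[>] 0) (𝓝 z) := by
    have hc : Continuous (fun t : ℝ => ((1 - t : ℝ) : ℂ) * z + (t : ℝ) * P.c) := by fun_prop
    have := hc.tendsto 0
    simp only [sub_zero, Complex.ofReal_one, one_mul, Complex.ofReal_zero, zero_mul, add_zero] at this
    exact this.mono_left nhdsWithin_le_nhds
  apply mem_closure_of_tendsto hlim
  have : ∀ᶠ t : ℝ in 𝓝[>] 0, t < 1 := by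
    have : Set.Iio (1 : ℝ) ∈ 𝓝 (0 : ℝ) := Iio_mem_nhds (by norm_num)
    exact mem_nhdsWithin_of_mem_nhds this
  filter_upwards [self_mem_nhdsWithin, this] with t ht0 ht1 j
  rw [d_comb]
  have h1 := hz j
  have h2 := P.c_mem_Om j
  have h3 : (0 : ℝ) < t := ht0
  have h4 : 0 ≤ 1 - t := by linarith
  have := mul_pos h3 h2
  have := mul_nonneg h4 h1
  linarith

lemma n_m : P.n P.m = I := by
  unfold n
  have hm := P.m_pos
  have : ((P.m : ℝ) * P.φ) = Real.pi / 2 := by
    unfold φ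
    field_simp
  rw [this]
  push_cast
  exact Complex.exp_pi_div_two_mul_I

lemma n_2m : P.n (2 * P.m) = -1 := by
  rw [two_mul, n_add, n_m]
  simp

lemma n_3m : P.n (3 * P.m) = -I := by
  rw [show 3 * P.m = 2 * P.m + P.m by ring, n_add, n_m, n_2m]
  simp

lemma n_zero' : P.n 0 = 1 := by
  unfold n
  simp

theorem isCompact_C : IsCompact P.C := by
  apply Metric.isCompact_of_isClosed_isBounded P.isClosed_C
  have key : ∀ z ∈ P.C, ‖z‖ ≤ |P.H 0| + |P.H (2 * P.m)| + |P.H P.m| + |P.H (3 * P.m)| := by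
    intro z hz
    have h0 := hz 0
    have h1 := hz P.m
    have h2 := hz (2 * P.m)
    have h3 := hz (3 * P.m)
    unfold d at h0 h1 h2 h3
    rw [n_zero'] at h0
    rw [n_m] at h1
    rw [n_2m] at h2
    rw [n_3m] at h3
    simp at h0 h1 h2 h3
    have a0 := le_abs_self (P.H 0)
    have a1 := le_abs_self (P.H P.m)
    have a2 := le_abs_self (P.H (2 * P.m))
    have a3 := le_abs_self (P.H (3 * P.m))
    have hr : |z.re| ≤ |P.H 0| + |P.H (2 * P.m)| := by
      rw [abs_le]
      constructor <;> linarith [abs_nonneg (P.H 0), abs_nonneg (P.H (2 * P.m))]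
    have hi : |z.im| ≤ |P.H P.m| + |P.H (3 * P.m)| := by
      rw [abs_le]
      constructor <;> linarith [abs_nonneg (P.H P.m), abs_nonneg (P.H (3 * P.m))]
    have := Complex.norm_le_abs_re_add_abs_im z
    linarith
  exact (Metric.isBounded_iff_subset_closedBall 0).2 ⟨_, fun z hz => by
    simpa using key z hz⟩

lemma re_conj_n_self_e (j : ℕ) : (conj (P.n j) * P.e j).re = -Real.sin P.φ := by
  have := P.re_conj_n_e j 0
  simpa using this

lemma re_conj_n_succ2_e (j : ℕ) : (conj (P.n (j + 2)) * P.e j).re = Real.sin P.φ := by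
  unfold e
  have h1 : P.n (j + 2) = P.n (j + 1) * P.n 1 := P.n_add (j + 1) 1
  have : conj (P.n (j + 2)) * (I * P.n (j + 1))
      = I * conj (P.n 1) * (conj (P.n (j + 1)) * P.n (j + 1)) := by
    rw [h1, map_mul]; ring
  rw [this, n_mul_conj, mul_one]
  have h2 := P.n_im 1
  simp only [Nat.cast_one, one_mul] at h2
  simp [h2]

/-- a point of `C` on a line lies on the corresponding side -/
lemma exists_s_of_d_zero {z : ℂ} (hz : z ∈ P.C) {j : ℕ} (h : P.d (j + 1) z = 0) :
    ∃ s, 0 ≤ s ∧ s ≤ P.l j ∧ z = P.σ j s := by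
  have hs := P.sin_φ_pos
  have hl := P.l_pos j
  set w : ℂ := conj (P.n (j + 1)) * (z - P.v j) with hw
  have hwre : w.re = 0 := by
    have := P.d_sub (j + 1) (P.v j) z
    rw [P.d_v_succ, h] at this
    rw [hw]
    linarith
  have hz2 : z = P.σ j w.im := by
    have h1 : w = (w.im : ℂ) * I := by
      apply Complex.ext <;> simp [hwre]
    have h2 : z - P.v j = P.n (j + 1) * w := by
      rw [hw, ← mul_assoc, mul_conj_n, one_mul]
    have h3 : z = P.v j + P.n (j + 1) * w := by rw [← h2]; ring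
    unfold σ e
    rw [h1] at h3
    rw [h3]
    ring
  refine ⟨w.im, ?_, ?_, hz2⟩
  · have h1 := hz j
    rw [hz2] at h1
    unfold σ at h1
    rw [d_lin, d_v_self, re_conj_n_self_e] at h1
    nlinarith
  · have h1 := hz (j + 2)
    rw [hz2] at h1
    have h2 : P.σ j w.im = P.v (j + 1) + ((w.im - P.l j : ℝ) : ℂ) * P.e j := by
      unfold σ
      rw [v_succ]
      push_cast
      ring
    rw [h2, d_lin, P.d_v_succ (j + 1), re_conj_n_succ2_e] at h1
    nlinarith

lemma not_mem_Om_exists {z : ℂ} (hz : z ∉ P.Om) (hC : z ∈ P.C) : ∃ i, P.d i z = 0 := by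
  unfold Om at hz
  simp only [Set.mem_ofPred_eq, not_forall, not_lt] at hz
  obtain ⟨i, hi⟩ := hz
  exact ⟨i, le_antisymm hi (hC i)⟩

theorem frontier_subset {z : ℂ} (hz : z ∈ frontier P.Om) :
    ∃ j < P.N, ∃ s, 0 ≤ s ∧ s ≤ P.l j ∧ z = P.σ j s := by
  rw [P.isOpen_Om.frontier_eq, closure_Om] at hz
  obtain ⟨i, hi⟩ := P.not_mem_Om_exists hz.2 hz.1
  have hN := P.N_pos
  have h1 : P.d (i + (P.N - 1) + 1) z = 0 := by
    have : i + (P.N - 1) + 1 = i + P.N := by omega
    rw [this, d_per, hi]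
  obtain ⟨s, h0, hs, h⟩ := P.exists_s_of_d_zero hz.1 h1
  refine ⟨(i + (P.N - 1)) % P.N, Nat.mod_lt _ hN, s, h0, ?_, ?_⟩
  · rw [P.per_mod P.l P.l_per]
    exact hs
  · have := P.per_mod (fun j => P.σ j s) (fun j => P.σ_per j s) (i + (P.N - 1))
    rw [this]
    exact h

theorem sideInt_mem_frontier {p : ℂ} (hp : P.SideInt p) : p ∈ frontier P.Om := by
  obtain ⟨j, s, h0, h1, rfl⟩ := hp
  rw [P.isOpen_Om.frontier_eq, closure_Om]
  refine ⟨P.σ_mem_C h0.le h1.le, fun h => ?_⟩
  have := h (j + 1)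
  rw [d_σ_self] at this
  exact lt_irrefl _ this

lemma continuous_σ (j : ℕ) : Continuous (P.σ j) := by
  unfold σ
  fun_prop

theorem frontier_subset_closure_sideInt : frontier P.Om ⊆ closure {p | P.SideInt p} := by
  intro z hz
  obtain ⟨j, _, s, h0, h1, rfl⟩ := P.frontier_subset hz
  have hl := P.l_pos j
  have hs : s ∈ closure (Set.Ioo 0 (P.l j)) := by
    rw [closure_Ioo hl.ne]
    exact ⟨h0, h1⟩
  have := image_closure_subset_closure_image (P.continuous_σ j) (Set.mem_image_of_mem _ hs)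
  refine closure_mono ?_ this
  rintro _ ⟨t, ⟨h2, h3⟩, rfl⟩
  exact ⟨j, t, h2, h3, rfl⟩

end Poly

end P123U
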