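import Vale.Agent.Lib.P123.U.Bdry

/-! The transform `hat` (module M4). -/

open Complex Finset Filter Topology
open scoped ComplexConjugate

noncomputable section

namespace P123U

namespace Poly

variable (P : Poly)

theorem hat_apply_Om (f : ℂ → ℂ) {z : ℂ} (hz : z ∈ P.Om) :
    P.hat f z = P.CT (fun w => conj (f w)) z := by
  unfold hat
  exact if_pos hz

private lemma hat_fr (f : ℂ → ℂ) {p : ℂ} (hp : p ∈ frontier P.Om) :
    P.hat f p = conj (P.Vis f p + f p * (1 - P.Vis (fun _ => 1) p)) := by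
  unfold hat
  rw [P.isOpen_Om.frontier_eq] at hp
  exact if_neg hp.2

private lemma contC {f : ℂ → ℂ} (hf : DiffContOnCl ℂ f P.Om) : ContinuousOn f P.C := by
  have := hf.continuousOn
  rwa [P.closure_Om] at this

private lemma side_C {p : ℂ} (hp : P.SideInt p) : p ∈ P.C := by
  obtain ⟨j, s, h0, h1, rfl⟩ := hp
  exact P.σ_mem_C h0.le h1.le

theorem hat_side {f : ℂ → ℂ} (_hf : DiffContOnCl ℂ f P.Om) {p : ℂ} (hp : P.SideInt p) :
    P.hat f p = conj (P.Vis f p) := by
  rw [P.hat_fr f (P.sideInt_mem_frontier hp), P.vis_one_side hp, sub_self, mul_zero, add_zero]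

theorem hat_diffContOnCl {f : ℂ → ℂ} (hf : DiffContOnCl ℂ f P.Om) :
    DiffContOnCl ℂ (P.hat f) P.Om := by
  have hfC := P.contC hf
  have hCT := P.CT_differentiableOn (Complex.continuous_conj.comp_continuousOn hfC)
  have hd : DifferentiableOn ℂ (P.hat f) P.Om :=
    DifferentiableOn.congr hCT fun z hz => P.hat_apply_Om f hz
  refine ⟨hd, ?_⟩
  have hlim : ∀ x ∈ closure P.Om, Tendsto (P.hat f) (𝓝[P.Om] x) (𝓝 (P.hat f x)) := by
    intro x hx
    by_cases hxO : x ∈ P.Om
    · exact ((hd.differentiableAt (P.isOpen_Om.mem_nhds hxO)).continuousAt.tendsto).mono_left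
        nhdsWithin_le_nhds
    · have hfr : x ∈ frontier P.Om := by
        rw [P.isOpen_Om.frontier_eq]
        exact ⟨hx, hxO⟩
      have h1 := P.tendsto_vis hfC hfr
      have h2 : Tendsto f (𝓝[P.Om] x) (𝓝 (f x)) :=
        ((hf.continuousOn x hx).mono subset_closure).tendsto
      have h3 := (Complex.continuous_conj.tendsto _).comp (h1.sub h2)
      have hval : P.hat f x = conj (P.Vis f x + f x * (2 - P.Vis (fun _ => 1) x) - f x) := by
        rw [P.hat_fr f hfr]
        congr 1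
        ring
      rw [hval]
      refine h3.congr' ?_
      filter_upwards [self_mem_nhdsWithin] with z hz
      simp only [Function.comp]
      rw [P.hat_apply_Om f hz, P.vis_eq_add hf hz, add_sub_cancel_left, Complex.conj_conj]
  have hext : ContinuousOn (extendFrom P.Om (P.hat f)) (closure P.Om) :=
    continuousOn_extendFrom (fun _ hx => hx) (fun x hx => ⟨_, hlim x hx⟩)
  exact hext.congr fun x hx => (extendFrom_eq hx (hlim x hx)).symm

private lemma fr_le {F : ℂ → ℝ} (hF : ContinuousOn F P.C) {M : ℝ} (h : ∀ p, P.SideInt p → F p ≤ M)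
    {z : ℂ} (hz : z ∈ frontier P.Om) : F z ≤ M := by
  have hcl : IsClosed (P.C ∩ F ⁻¹' Set.Iic M) :=
    hF.preimage_isClosed_of_isClosed P.isClosed_C isClosed_Iic
  have hsub : {p | P.SideInt p} ⊆ P.C ∩ F ⁻¹' Set.Iic M := fun p hp => ⟨P.side_C hp, h p hp⟩
  exact (closure_minimal hsub hcl (P.frontier_subset_closure_sideInt hz)).2

private lemma bdd : Bornology.IsBounded P.Om := P.isCompact_C.isBounded.subset P.Om_subset_C

private lemma vis_const_side (M : ℝ) {p : ℂ} (hp : P.SideInt p) :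
    P.Vis (fun _ => (M : ℂ)) p = M := by
  have h := P.vis_const_mul (M : ℂ) (fun _ => 1) p
  simp only [mul_one] at h
  rw [h, P.vis_one_side hp, mul_one]

theorem hat_bound {f : ℂ → ℂ} (hf : DiffContOnCl ℂ f P.Om) {M : ℝ}
    (hM : ∀ z ∈ P.C, ‖f z‖ ≤ M) : ∀ z ∈ P.C, ‖P.hat f z‖ ≤ M := by
  have hH := P.hat_diffContOnCl hf
  have hfC := P.contC hf
  have hside : ∀ p, P.SideInt p → ‖P.hat f p‖ ≤ M := by
    intro p hp
    have hpC := P.side_C hp
    rw [P.hat_side hf hp, RCLike.norm_conj]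
    have h1 := P.norm_vis_le hfC hpC
    have h2 := P.vis_re_mono (g := fun w => ‖f w‖) (h := fun _ => M) hfC.norm continuousOn_const
      hM hpC
    rw [P.vis_const_side M hp, Complex.ofReal_re] at h2
    exact h1.trans h2
  intro z hz
  rw [← P.closure_Om] at hz
  refine Complex.norm_le_of_forall_mem_frontier_norm_le P.bdd hH (fun w hw => ?_) hz
  have hHC := P.contC hH
  exact P.fr_le (F := fun z => ‖P.hat f z‖) hHC.norm hside hw

theorem re_nonneg_of_side {u : ℂ → ℂ} (hu : DiffContOnCl ℂ u P.Om)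
    (h : ∀ p, P.SideInt p → 0 ≤ (u p).re) : ∀ z ∈ P.C, 0 ≤ (u z).re := by
  have hE : DiffContOnCl ℂ (fun z => Complex.exp (-u z)) P.Om :=
    ⟨hu.differentiableOn.neg.cexp, hu.continuousOn.neg.cexp⟩
  have huC := P.contC hu
  intro z hz
  rw [← P.closure_Om] at hz
  have h1 : ‖Complex.exp (-u z)‖ ≤ 1 := by
    refine Complex.norm_le_of_forall_mem_frontier_norm_le P.bdd hE (fun w hw => ?_) hz
    have h2 := P.fr_le (F := fun z => -(u z).re) (M := 0)
      (Complex.continuous_re.comp_continuousOn huC).neg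
      (fun p hp => by have := h p hp; simpa using this) hw
    rw [Complex.norm_exp, Complex.neg_re]
    exact Real.exp_le_one_iff.2 h2
  rw [Complex.norm_exp, Complex.neg_re, Real.exp_le_one_iff] at h1
  linarith

/-- Cauchy-Schwarz for the probability measure `Vis · p`. -/
private lemma vis_sq_le {a : ℂ → ℝ} (ha : ContinuousOn a P.C) {p : ℂ} (hp : P.SideInt p) :
    (P.Vis (fun w => (a w : ℂ)) p).re ^ 2 ≤ (P.Vis (fun w => ((a w ^ 2 : ℝ) : ℂ)) p).re := by
  have hpC := P.side_C hp
  set c := (P.Vis (fun w => (a w : ℂ)) p).re with hc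
  have hA : ContinuousOn (fun w => (a w : ℂ)) P.C := Complex.continuous_ofReal.comp_continuousOn ha
  have hA2 : ContinuousOn (fun w => ((a w ^ 2 : ℝ) : ℂ)) P.C :=
    Complex.continuous_ofReal.comp_continuousOn (ha.pow 2)
  have h0 := P.vis_re_mono (g := fun _ => 0) (h := fun w => (a w - c) ^ 2) continuousOn_const
    ((ha.sub continuousOn_const).pow 2) (fun w _ => sq_nonneg _) hpC
  have h1 : P.Vis (fun _ => ((0 : ℝ) : ℂ)) p = 0 := by
    have := P.vis_const_side 0 hp
    simpa using this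
  rw [h1, Complex.zero_re] at h0
  have hfun : (fun w => (((a w - c) ^ 2 : ℝ) : ℂ)) = fun w => ((a w ^ 2 : ℝ) : ℂ)
      + (((-2 * c : ℝ) : ℂ) * (a w : ℂ) + ((c ^ 2 : ℝ) : ℂ)) := by
    funext w
    push_cast
    ring
  have hc1 : ContinuousOn (fun w => ((-2 * c : ℝ) : ℂ) * (a w : ℂ)) P.C :=
    continuousOn_const.mul hA
  have hc2 : ContinuousOn (fun _ : ℂ => ((c ^ 2 : ℝ) : ℂ)) P.C := continuousOn_const
  have e1 := P.vis_add (g := fun w => ((a w ^ 2 : ℝ) : ℂ))
    (h := fun w => ((-2 * c : ℝ) : ℂ) * (a w : ℂ) + ((c ^ 2 : ℝ) : ℂ)) hA2 (hc1.add hc2) hpC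
  have e2 := P.vis_add (g := fun w => ((-2 * c : ℝ) : ℂ) * (a w : ℂ))
    (h := fun _ => ((c ^ 2 : ℝ) : ℂ)) hc1 hc2 hpC
  rw [hfun, e1, e2, P.vis_const_mul, P.vis_const_side _ hp] at h0
  simp only [Complex.add_re, Complex.re_ofReal_mul, Complex.ofReal_re] at h0
  rw [← hc] at h0
  nlinarith

theorem h1_bound {k f : ℂ → ℂ} (hk : DiffContOnCl ℂ k P.Om) (hf : DiffContOnCl ℂ f P.Om)
    (hk1 : ∀ z ∈ P.C, ‖k z‖ ≤ 1) (hf1 : ∀ z ∈ P.C, ‖f z‖ ≤ 1) {p : ℂ} (hp : P.SideInt p) :
    ‖P.hat (fun z => k z * f z) p * f p + P.hat k p‖ ^ 2 ≤ 2 * (P.w0 f p).re := by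
  have hpC := P.side_C hp
  have hkC := P.contC hk
  have hfC := P.contC hf
  have hkf : DiffContOnCl ℂ (fun z => k z * f z) P.Om :=
    ⟨hk.differentiableOn.mul hf.differentiableOn, hk.continuousOn.mul hf.continuousOn⟩
  have hkfC := P.contC hkf
  set a := conj (f p) with ha
  set u : ℂ → ℂ := fun w => 1 + f w * a with hu
  have huC : ContinuousOn u P.C := continuousOn_const.add (hfC.mul continuousOn_const)
  -- the identity
  have hid : P.hat (fun z => k z * f z) p * f p + P.hat k p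
      = conj (P.Vis (fun w => k w * u w) p) := by
    have hfun : (fun w => k w * u w) = fun w => a * (k w * f w) + k w := by
      funext w
      simp only [hu]
      ring
    have hkfa : ContinuousOn (fun w => a * (k w * f w)) P.C := continuousOn_const.mul hkfC
    rw [hfun, P.vis_add (g := fun w => a * (k w * f w)) (h := k) hkfa hkC hpC, P.vis_const_mul,
      map_add, map_mul, P.hat_side hkf hp, P.hat_side hk hp, ha, Complex.conj_conj]
    ring
  rw [hid, RCLike.norm_conj]
  have hkuC : ContinuousOn (fun w => k w * u w) P.C := hkC.mul huC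
  have h1 := P.norm_vis_le hkuC hpC
  have h2 := P.vis_re_mono (g := fun w => ‖k w * u w‖) (h := fun w => ‖u w‖)
    hkuC.norm huC.norm (fun w hw => by
      rw [norm_mul]
      exact mul_le_of_le_one_left (norm_nonneg _) (hk1 w hw)) hpC
  have h3 := P.vis_sq_le (a := fun w => ‖u w‖) huC.norm hp
  have h4 := P.vis_re_mono (g := fun w => ‖u w‖ ^ 2) (h := fun w => 2 * (u w).re)
    (huC.norm.pow 2) (continuousOn_const.mul (Complex.continuous_re.comp_continuousOn huC))
    (fun w hw => by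
      have hfa : ‖f w * a‖ ≤ 1 := by
        rw [norm_mul, ha, RCLike.norm_conj]
        exact mul_le_one₀ (hf1 w hw) (norm_nonneg _) (hf1 p hpC)
      have hs : ‖1 + f w * a‖ ^ 2 = 1 + 2 * (f w * a).re + ‖f w * a‖ ^ 2 := by
        rw [← Complex.normSq_eq_norm_sq, ← Complex.normSq_eq_norm_sq, Complex.normSq_add]
        simp
        ring
      simp only [hu]
      rw [hs, Complex.add_re, Complex.one_re]
      nlinarith [norm_nonneg (f w * a)]) hpC
  have h5 : (P.Vis (fun w => ((2 * (u w).re : ℝ) : ℂ)) p).re = 2 * (P.Vis u p).re := by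
    have hfun : (fun w => ((2 * (u w).re : ℝ) : ℂ)) = fun w => (2 : ℂ) * (((u w).re : ℝ) : ℂ) := by
      funext w
      push_cast
      ring
    rw [hfun, P.vis_const_mul, P.vis_re u huC hpC]
    simp [Complex.mul_re]
  have h6 : P.Vis u p = 1 + a * P.Vis f p := by
    have hfun : u = fun w => (1 : ℂ) + a * f w := by
      funext w
      simp only [hu]
      ring
    have hfa : ContinuousOn (fun w => a * f w) P.C := continuousOn_const.mul hfC
    rw [hfun, P.vis_add (g := fun _ => 1) (h := fun w => a * f w) continuousOn_const hfa hpC,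
      P.vis_const_mul, P.vis_one_side hp]
  have h7 : (P.w0 f p).re = (P.Vis u p).re := by
    unfold w0
    rw [h6, P.hat_side hf hp, Complex.add_re, Complex.add_re]
    congr 1
    have : conj (P.Vis f p) * f p = conj (a * P.Vis f p) := by
      rw [map_mul, ha, Complex.conj_conj]
      ring
    rw [this, Complex.conj_re]
  rw [h7]
  have h8 := norm_nonneg (P.Vis (fun w => k w * u w) p)
  have h9 : ‖P.Vis (fun w => k w * u w) p‖ ≤ (P.Vis (fun w => ((‖u w‖ : ℝ) : ℂ)) p).re :=
    h1.trans h2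
  calc ‖P.Vis (fun w => k w * u w) p‖ ^ 2 ≤ (P.Vis (fun w => ((‖u w‖ : ℝ) : ℂ)) p).re ^ 2 :=
        pow_le_pow_left₀ h8 h9 2
    _ ≤ _ := h3
    _ ≤ _ := h4
    _ = _ := h5

end Poly

end P123U
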