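import Vale.Agent.Lib.P123.U.Hat

/-! The local lemma (module M5). -/

open Complex Finset Filter Topology MeasureTheory
open scoped ComplexConjugate Interval

noncomputable section

namespace P123U

namespace Poly

variable (P : Poly)

private lemma LL_frontier_mem {σ₀ : ℂ} (h : σ₀ ∈ frontier P.Om) : σ₀ ∈ P.C ∧ σ₀ ∉ P.Om := by
  have h1 := h.1
  rw [P.closure_Om] at h1
  refine ⟨h1, ?_⟩
  have h2 := h.2
  rwa [P.isOpen_Om.interior_eq] at h2

private lemma LL_max {Φ : ℂ → ℂ} (hd : DifferentiableOn ℂ Φ P.Om)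
    (hlim : ∀ σ ∈ frontier P.Om, ∃ a : ℝ, a ≤ 1 ∧ Tendsto (fun z => ‖Φ z‖) (𝓝[P.Om] σ) (𝓝 a)) :
    ∀ z ∈ P.Om, ‖Φ z‖ ≤ 1 := by
  by_contra hcon
  push Not at hcon
  obtain ⟨z₀, hz₀, h1⟩ := hcon
  have hcont : ContinuousOn (fun z => ‖Φ z‖) P.Om := hd.continuousOn.norm
  set K : Set ℂ := P.Om ∩ {z | ‖Φ z₀‖ ≤ ‖Φ z‖} with hK
  have hKc : IsClosed K := by
    apply isClosed_of_closure_subset
    intro z hz
    have hne : (𝓝[K] z).NeBot := mem_closure_iff_nhdsWithin_neBot.1 hz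
    have hKO : K ⊆ P.Om := Set.inter_subset_left
    have hzC : z ∈ closure P.Om := closure_mono hKO hz
    have hev : ∀ᶠ y in 𝓝[K] z, ‖Φ z₀‖ ≤ ‖Φ y‖ := by
      filter_upwards [self_mem_nhdsWithin] with y hy using hy.2
    by_cases hzO : z ∈ P.Om
    · have ht : Tendsto (fun y => ‖Φ y‖) (𝓝[K] z) (𝓝 ‖Φ z‖) :=
        ((hcont.continuousAt (P.isOpen_Om.mem_nhds hzO)).tendsto).mono_left nhdsWithin_le_nhds
      exact ⟨hzO, ge_of_tendsto ht hev⟩
    · exfalso
      have hf : z ∈ frontier P.Om := by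
        refine ⟨hzC, ?_⟩
        rwa [P.isOpen_Om.interior_eq]
      obtain ⟨a, ha, ht⟩ := hlim z hf
      have := ge_of_tendsto (ht.mono_left (nhdsWithin_mono z hKO)) hev
      linarith
  have hKcomp : IsCompact K :=
    P.isCompact_C.of_isClosed_subset hKc (fun z hz => P.Om_subset_C hz.1)
  have hz₀K : z₀ ∈ K := ⟨hz₀, (le_refl _ : ‖Φ z₀‖ ≤ ‖Φ z₀‖)⟩
  obtain ⟨z₁, hz₁, hmax⟩ := hKcomp.exists_isMaxOn ⟨z₀, hz₀K⟩ (hcont.mono Set.inter_subset_left)
  have h2 : ‖Φ z₀‖ ≤ ‖Φ z₁‖ := hz₁.2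
  have hmax' : IsMaxOn (norm ∘ Φ) P.Om z₁ := by
    intro z hz
    by_cases hzK : z ∈ K
    · exact hmax hzK
    · have : ‖Φ z‖ < ‖Φ z₀‖ := by
        by_contra h
        exact hzK ⟨hz, not_lt.1 h⟩
      show ‖Φ z‖ ≤ ‖Φ z₁‖
      linarith
  have heq := Complex.norm_eqOn_of_isPreconnected_of_isMaxOn P.convex_Om.isPreconnected
    P.isOpen_Om hd hz₁.1 hmax'
  -- a frontier point
  have hl := P.l_pos 0
  have hσ : P.σ 0 (P.l 0 / 2) ∈ frontier P.Om :=
    P.sideInt_mem_frontier ⟨0, P.l 0 / 2, by linarith, by linarith, rfl⟩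
  obtain ⟨a, ha, ht⟩ := hlim _ hσ
  have hne : (𝓝[P.Om] (P.σ 0 (P.l 0 / 2))).NeBot :=
    mem_closure_iff_nhdsWithin_neBot.1 hσ.1
  have ht2 : Tendsto (fun z => ‖Φ z‖) (𝓝[P.Om] (P.σ 0 (P.l 0 / 2))) (𝓝 ‖Φ z₁‖) := by
    apply tendsto_const_nhds.congr'
    filter_upwards [self_mem_nhdsWithin] with z hz
    exact (heq hz).symm
  have := tendsto_nhds_unique ht ht2
  linarith

private lemma LL_harnack {φ : ℂ → ℂ} {u v : ℂ} {ρ : ℝ} (hρ : 0 < ρ)
    (hd : DifferentiableOn ℂ φ (Metric.ball u ρ))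
    (hre : ∀ z ∈ Metric.ball u ρ, 0 ≤ (φ z).re) (huv : dist v u ≤ ρ / 2) :
    ‖φ v‖ ≤ 3 * ‖φ u‖ := by
  have hu : u ∈ Metric.ball u ρ := Metric.mem_ball_self hρ
  have hv : v ∈ Metric.ball u ρ := Metric.mem_ball.2 (by linarith)
  have key : ∀ η : ℝ, 0 < η → ‖φ v + η‖ ≤ 3 * ‖φ u + η‖ := by
    intro η hη
    set a : ℂ := φ u + η with ha
    have hare : 0 < a.re := by
      have := hre u hu
      simp [ha]
      linarith
    have hden : ∀ z ∈ Metric.ball u ρ, φ z + η + conj a ≠ 0 := by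
      intro z hz h0
      have := congrArg Complex.re h0
      have h3 := hre z hz
      simp only [Complex.add_re, Complex.ofReal_re, Complex.conj_re, Complex.zero_re] at this
      linarith
    let Ψ : ℂ → ℂ := fun z => (φ z + η - a) / (φ z + η + conj a)
    have hΨd : DifferentiableOn ℂ Ψ (Metric.ball u ρ) := by
      apply DifferentiableOn.div
      · exact (hd.add_const _).sub_const _
      · exact (hd.add_const _).add_const _
      · exact hden
    have hΨu : Ψ u = 0 := by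
      simp [Ψ, ha]
    have hmaps : Set.MapsTo Ψ (Metric.ball u ρ) (Metric.ball (Ψ u) 1) := by
      intro z hz
      rw [hΨu, Metric.mem_ball, dist_zero_right]
      show ‖(φ z + η - a) / (φ z + η + conj a)‖ < 1
      rw [norm_div, div_lt_one (norm_pos_iff.2 (hden z hz))]
      have hw := hre z hz
      set w : ℂ := φ z + η with hwd
      have hwre : 0 < w.re := by
        simp [hwd]
        linarith
      have h4 : ‖w - a‖ ^ (2 : ℕ) < ‖w + conj a‖ ^ (2 : ℕ) := by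
        rw [← Complex.normSq_eq_norm_sq, ← Complex.normSq_eq_norm_sq, Complex.normSq_apply,
          Complex.normSq_apply]
        simp only [Complex.sub_re, Complex.sub_im, Complex.add_re, Complex.add_im, Complex.conj_re,
          Complex.conj_im]
        nlinarith [mul_pos hwre hare]
      exact lt_of_pow_lt_pow_left₀ 2 (norm_nonneg _) h4
    have hS := Complex.dist_le_div_mul_dist_of_mapsTo_ball hΨd
      (fun z hz => Metric.ball_subset_closedBall (hmaps hz)) hv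
    rw [hΨu, dist_zero_right] at hS
    have hΨv : ‖Ψ v‖ ≤ 1 / 2 := by
      calc ‖Ψ v‖ ≤ 1 / ρ * dist v u := hS
        _ ≤ 1 / ρ * (ρ / 2) := by gcongr
        _ = 1 / 2 := by field_simp
    have hrel : (φ v + η) * (1 - Ψ v) = a + Ψ v * conj a := by
      have h5 := hden v hv
      have : Ψ v * (φ v + η + conj a) = φ v + η - a := div_mul_cancel₀ _ h5
      linear_combination -this
    have h6 : ‖(φ v + η) * (1 - Ψ v)‖ ≤ ‖a‖ + ‖Ψ v‖ * ‖a‖ := by
      rw [hrel]
      refine (norm_add_le _ _).trans ?_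
      rw [norm_mul, RCLike.norm_conj]
    have h7 : 1 / 2 ≤ ‖1 - Ψ v‖ := by
      have := norm_sub_norm_le (1 : ℂ) (Ψ v)
      rw [norm_one] at this
      linarith
    rw [norm_mul] at h6
    have ha0 := norm_nonneg a
    have hv0 := norm_nonneg (φ v + η)
    have h8 : ‖φ v + η‖ * (1 / 2) ≤ ‖φ v + η‖ * ‖1 - Ψ v‖ := by gcongr
    have h9 : ‖Ψ v‖ * ‖a‖ ≤ 1 / 2 * ‖a‖ := by gcongr
    linarith
  refine le_of_forall_pos_le_add fun δ hδ => ?_
  have h1 := key (δ / 4) (by positivity)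
  have h2 : ‖φ v‖ ≤ ‖φ v + ((δ / 4 : ℝ) : ℂ)‖ + δ / 4 := by
    have := norm_sub_le (φ v + ((δ / 4 : ℝ) : ℂ)) ((δ / 4 : ℝ) : ℂ)
    rw [add_sub_cancel_right] at this
    have h3 : ‖((δ / 4 : ℝ) : ℂ)‖ = δ / 4 := by
      rw [Complex.norm_real, Real.norm_of_nonneg (by positivity)]
    rwa [h3] at this
  have h3 : ‖φ u + ((δ / 4 : ℝ) : ℂ)‖ ≤ ‖φ u‖ + δ / 4 := by
    have := norm_add_le (φ u) ((δ / 4 : ℝ) : ℂ)
    rwa [Complex.norm_real, Real.norm_of_nonneg (by positivity)] at this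
  linarith

/-- Harnack chain along a segment that stays deep inside the polygon. -/
private lemma LL_chain {φ : ℂ → ℂ} (hd : DifferentiableOn ℂ φ P.Om)
    (hre : ∀ z ∈ P.Om, 0 ≤ (φ z).re) {z₀ z₁ : ℂ} {ρ : ℝ} (hρ : 0 < ρ)
    (h0 : ∀ i, ρ ≤ P.d i z₀) (h1 : ∀ i, ρ ≤ P.d i z₁) {n : ℕ} (hn : 0 < n)
    (hdist : ‖z₁ - z₀‖ ≤ n * (ρ / 2)) : ‖φ z₁‖ ≤ 3 ^ n * ‖φ z₀‖ := by
  have hnR : (0 : ℝ) < n := by exact_mod_cast hn
  let w : ℕ → ℂ := fun k => (((1 - (k : ℝ) / n : ℝ)) : ℂ) * z₀ + (((k : ℝ) / n : ℝ) : ℂ) * z₁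
  have hw0 : w 0 = z₀ := by simp [w]
  have hwn : w n = z₁ := by
    simp only [w]
    rw [div_self hnR.ne']
    simp
  have hdeep : ∀ k, k ≤ n → ∀ i, ρ ≤ P.d i (w k) := by
    intro k hk i
    have hk' : (k : ℝ) / n ≤ 1 := by
      rw [div_le_one hnR]
      exact_mod_cast hk
    have hk0 : 0 ≤ (k : ℝ) / n := by positivity
    simp only [w]
    rw [P.d_comb]
    have := h0 i
    have := h1 i
    nlinarith
  have hball : ∀ k, k ≤ n → Metric.ball (w k) ρ ⊆ P.Om := by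
    intro k hk z hz i
    have h2 := P.abs_d_sub_le i z (w k)
    have h3 := hdeep k hk i
    have h4 : ‖z - w k‖ < ρ := by
      rw [← dist_eq_norm]
      exact hz
    have h5 := (abs_lt.1 (lt_of_le_of_lt h2 h4)).1
    linarith
  have hstep : ∀ k, dist (w (k + 1)) (w k) ≤ ρ / 2 := by
    intro k
    have : w (k + 1) - w k = (((1 : ℝ) / n : ℝ) : ℂ) * (z₁ - z₀) := by
      simp only [w]
      push_cast
      field_simp
      ring
    rw [dist_eq_norm, this, norm_mul, Complex.norm_real, Real.norm_of_nonneg (by positivity)]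
    rw [div_mul_eq_mul_div, one_mul, div_le_iff₀ hnR]
    linarith
  have hind : ∀ k, k ≤ n → ‖φ (w k)‖ ≤ 3 ^ k * ‖φ z₀‖ := by
    intro k
    induction k with
    | zero =>
      intro _
      simp [hw0]
    | succ k ih =>
      intro hk
      have hk' : k ≤ n := by omega
      have h2 := LL_harnack (u := w k) (v := w (k + 1)) hρ (hd.mono (hball k hk'))
        (fun z hz => hre z (hball k hk' hz)) (hstep k)
      have h3 := ih hk'
      calc ‖φ (w (k + 1))‖ ≤ 3 * ‖φ (w k)‖ := h2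
        _ ≤ 3 * (3 ^ k * ‖φ z₀‖) := by gcongr
        _ = 3 ^ (k + 1) * ‖φ z₀‖ := by ring
  have := hind n le_rfl
  rwa [hwn] at this

private def rampF (ε x : ℝ) : ℝ := max 0 (min 1 (2 * x / ε - 1))
private def chiF (r x : ℝ) : ℝ := max 0 (min 1 (2 - 2 * x / r))

private lemma rampF_nonneg (ε x : ℝ) : 0 ≤ rampF ε x := le_max_left _ _
private lemma chiF_nonneg (r x : ℝ) : 0 ≤ chiF r x := le_max_left _ _
private lemma rampF_le_one (ε x : ℝ) : rampF ε x ≤ 1 := max_le zero_le_one (min_le_left _ _)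
private lemma chiF_le_one (r x : ℝ) : chiF r x ≤ 1 := max_le zero_le_one (min_le_left _ _)
private lemma rampF_cont (ε : ℝ) : Continuous (rampF ε) := by
  unfold rampF
  fun_prop
private lemma chiF_cont (r : ℝ) : Continuous (chiF r) := by
  unfold chiF
  fun_prop

private lemma rampF_eq_one {ε x : ℝ} (hε : 0 < ε) (h : ε ≤ x) : rampF ε x = 1 := by
  unfold rampF
  have : 1 ≤ 2 * x / ε - 1 := by
    rw [le_sub_iff_add_le, le_div_iff₀ hε]
    linarith
  rw [min_eq_left this, max_eq_right zero_le_one]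

private lemma chiF_eq_one {r x : ℝ} (hr : 0 < r) (h : x ≤ r / 2) : chiF r x = 1 := by
  unfold chiF
  have : 1 ≤ 2 - 2 * x / r := by
    have : 2 * x / r ≤ 1 := by
      rw [div_le_one hr]
      linarith
    linarith
  rw [min_eq_left this, max_eq_right zero_le_one]

private lemma chiF_eq_zero {r x : ℝ} (hr : 0 < r) (h : r ≤ x) : chiF r x = 0 := by
  unfold chiF
  have : 2 - 2 * x / r ≤ 0 := by
    have : 2 ≤ 2 * x / r := by
      rw [le_div_iff₀ hr]
      linarith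
    linarith
  exact max_eq_left ((min_le_right _ _).trans this)

private lemma rampF_le_sq {ε x : ℝ} : rampF ε x ≤ (2 * x / ε) ^ (2 : ℕ) := by
  unfold rampF
  apply max_le (sq_nonneg _)
  by_cases h : 2 * x / ε ≤ 1
  · exact (min_le_right _ _).trans (by nlinarith [sq_nonneg (2 * x / ε)])
  · push Not at h
    exact (min_le_left _ _).trans (by nlinarith)

private def GG (q e : ℂ) (s : ℝ) (z : ℂ) : ℂ :=
  (4 / 3 : ℂ) * (1 - (s : ℂ) / ((s : ℂ) - I * (conj e * (z - q))))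

private lemma GG_facts {ζ : ℂ} {s : ℝ} (hs : 0 < s) (hy : 0 ≤ ζ.im) :
    ((s : ℂ) - I * ζ) ≠ 0 ∧ s ≤ ((s : ℂ) - I * ζ).re ∧ ‖ζ‖ ≤ ‖(s : ℂ) - I * ζ‖ ∧
      s ≤ ‖(s : ℂ) - I * ζ‖ := by
  set D : ℂ := (s : ℂ) - I * ζ with hD
  have hre : D.re = s + ζ.im := by simp [hD]
  have him : D.im = -ζ.re := by simp [hD]
  have h1 : s ≤ D.re := by rw [hre]; linarith
  have h0 : D ≠ 0 := by
    intro h
    rw [h] at h1
    simp at h1
    linarith
  refine ⟨h0, h1, ?_, h1.trans (Complex.re_le_norm _)⟩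
  have h2 : ‖ζ‖ ^ (2 : ℕ) ≤ ‖D‖ ^ (2 : ℕ) := by
    rw [← Complex.normSq_eq_norm_sq, ← Complex.normSq_eq_norm_sq, Complex.normSq_apply,
      Complex.normSq_apply, hre, him]
    nlinarith
  exact (sq_le_sq₀ (norm_nonneg _) (norm_nonneg _)).1 h2

private lemma GG_re_nonneg {q e z : ℂ} {s : ℝ} (hs : 0 < s) (hy : 0 ≤ (conj e * (z - q)).im) :
    0 ≤ (GG q e s z).re := by
  obtain ⟨h0, h1, -, -⟩ := GG_facts hs hy
  unfold GG
  set D : ℂ := (s : ℂ) - I * (conj e * (z - q)) with hD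
  have hQ : ((s : ℂ) / D).re ≤ 1 := by
    rw [Complex.div_re]
    simp only [Complex.ofReal_re, Complex.ofReal_im, zero_mul, zero_div, add_zero]
    have hpos : 0 < Complex.normSq D := Complex.normSq_pos.2 h0
    rw [div_le_one hpos, Complex.normSq_apply]
    nlinarith [mul_self_nonneg D.im]
  have : ((4 / 3 : ℂ) * (1 - (s : ℂ) / D)).re = 4 / 3 * (1 - ((s : ℂ) / D).re) := by
    have h43 : (4 / 3 : ℂ) = ((4 / 3 : ℝ) : ℂ) := by push_cast; rfl
    rw [h43, Complex.re_ofReal_mul]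
    simp
  rw [this]
  linarith

private lemma GG_re_ge_one {q e z : ℂ} {s : ℝ} (hs : 0 < s) (he : ‖e‖ = 1)
    (hy : 0 ≤ (conj e * (z - q)).im) (h : 4 * s ≤ ‖z - q‖) : 1 ≤ (GG q e s z).re := by
  obtain ⟨h0, h1, h2, -⟩ := GG_facts hs hy
  have hn : ‖conj e * (z - q)‖ = ‖z - q‖ := by rw [norm_mul, RCLike.norm_conj, he, one_mul]
  rw [hn] at h2
  unfold GG
  set D : ℂ := (s : ℂ) - I * (conj e * (z - q)) with hD
  have hDpos : 0 < ‖D‖ := norm_pos_iff.2 h0
  have hQ : ((s : ℂ) / D).re ≤ 1 / 4 := by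
    refine (Complex.re_le_norm _).trans ?_
    rw [norm_div, Complex.norm_real, Real.norm_of_nonneg hs.le, div_le_iff₀ hDpos]
    linarith
  have : ((4 / 3 : ℂ) * (1 - (s : ℂ) / D)).re = 4 / 3 * (1 - ((s : ℂ) / D).re) := by
    have h43 : (4 / 3 : ℂ) = ((4 / 3 : ℝ) : ℂ) := by push_cast; rfl
    rw [h43, Complex.re_ofReal_mul]
    simp
  rw [this]
  linarith

private lemma GG_re_le {q e z : ℂ} {s : ℝ} (hs : 0 < s) (he : ‖e‖ = 1)
    (hy : 0 ≤ (conj e * (z - q)).im) (h : ‖z - q‖ ≤ s / 32) : (GG q e s z).re ≤ 1 / 24 := by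
  obtain ⟨h0, -, -, h2⟩ := GG_facts hs hy
  have hn : ‖conj e * (z - q)‖ = ‖z - q‖ := by rw [norm_mul, RCLike.norm_conj, he, one_mul]
  unfold GG
  set D : ℂ := (s : ℂ) - I * (conj e * (z - q)) with hD
  have hDpos : 0 < ‖D‖ := norm_pos_iff.2 h0
  have hr : 1 - (s : ℂ) / D = (-I * (conj e * (z - q))) / D := by
    field_simp
    rw [hD]
    ring
  have hQ : ‖1 - (s : ℂ) / D‖ ≤ 1 / 32 := by
    rw [hr, norm_div, norm_mul, norm_neg, Complex.norm_I, one_mul, hn, div_le_iff₀ hDpos]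
    have : s / 32 ≤ 1 / 32 * ‖D‖ := by linarith
    linarith
  have : ((4 / 3 : ℂ) * (1 - (s : ℂ) / D)).re = 4 / 3 * (1 - (s : ℂ) / D).re := by
    have h43 : (4 / 3 : ℂ) = ((4 / 3 : ℝ) : ℂ) := by push_cast; rfl
    rw [h43, Complex.re_ofReal_mul]
  rw [this]
  have := (Complex.re_le_norm (1 - (s : ℂ) / D)).trans hQ
  linarith

private lemma LL_vis_nonneg {ψ : ℂ → ℝ} (hc : ContinuousOn ψ P.C) (h0 : ∀ w ∈ P.C, 0 ≤ ψ w) {z : ℂ}
    (hz : z ∈ P.C) : 0 ≤ (P.Vis (fun w => (ψ w : ℂ)) z).re := by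
  have := P.vis_re_mono (g := fun _ => 0) (h := ψ) continuousOn_const hc h0 hz
  simpa [Vis] using this

private lemma LL_two {f : ℂ → ℂ} (hf : DiffContOnCl ℂ f P.Om) (hf1 : ∀ z ∈ P.C, ‖f z‖ ≤ 1)
    {q e : ℂ} (hq : q ∈ P.C) (he : ‖e‖ = 1) (hy : ∀ z ∈ P.C, 0 ≤ (conj e * (z - q)).im)
    {r ε : ℝ} (hr : 0 < r) (hε : 0 < ε) (hε2 : ε ≤ 2) {z : ℂ} (hz : z ∈ P.Om) :
    ‖f z - f q‖ ≤ ε * Real.exp (Real.log (2 / ε) *
      ((P.Vis (fun w => ((chiF r ‖w - q‖ * rampF ε ‖f w - f q‖ : ℝ) : ℂ)) z).re +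
        (GG q e (r / 8) z).re)) := by
  set L : ℝ := Real.log (2 / ε) with hLd
  have hs : 0 < r / 8 := by positivity
  have hL : 0 ≤ L := Real.log_nonneg (by rw [le_div_iff₀ hε]; linarith)
  have hexpL : Real.exp (-L) = ε / 2 := by
    rw [Real.exp_neg, hLd, Real.exp_log (by positivity), inv_div]
  let b : ℂ → ℝ := fun w => chiF r ‖w - q‖ * rampF ε ‖f w - f q‖
  have hb0 : ∀ w, 0 ≤ b w := fun w => mul_nonneg (chiF_nonneg _ _) (rampF_nonneg _ _)
  have hfc : ContinuousOn f P.C := by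
    have := hf.continuousOn
    rwa [P.closure_Om] at this
  have hbc : ContinuousOn b P.C := by
    apply ContinuousOn.mul
    · exact (chiF_cont r).comp_continuousOn (by fun_prop)
    · exact (rampF_cont ε).comp_continuousOn ((hfc.sub continuousOn_const).norm)
  let g : ℂ → ℂ := fun w => (b w : ℂ)
  have hgc : ContinuousOn g P.C := Complex.continuous_ofReal.comp_continuousOn hbc
  let Φ : ℂ → ℂ := fun z => ((f z - f q) / (ε : ℂ)) *
    Complex.exp (-(L : ℂ) * (2 * P.CT g z + GG q e (r / 8) z))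
  have hnorm : ∀ z ∈ P.Om, ‖Φ z‖ = ‖f z - f q‖ / ε *
      Real.exp (-L * ((P.Vis g z).re + (GG q e (r / 8) z).re)) := by
    intro z hz
    have h1 := P.re_CT_real b hbc hz
    simp only [Φ]
    rw [norm_mul, norm_div, Complex.norm_real, Real.norm_of_nonneg hε.le, Complex.norm_exp,
      ← Complex.ofReal_neg, Complex.re_ofReal_mul, Complex.add_re]
    rw [show (2 * P.CT g z).re = (P.Vis g z).re from h1]
  have hGd : DifferentiableOn ℂ (GG q e (r / 8)) P.Om := by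
    unfold GG
    apply DifferentiableOn.const_mul
    apply DifferentiableOn.sub (differentiableOn_const _)
    apply DifferentiableOn.div (differentiableOn_const _)
    · fun_prop
    · intro w hw
      exact (GG_facts hs (hy w (P.Om_subset_C hw))).1
  have hd : DifferentiableOn ℂ Φ P.Om := by
    apply DifferentiableOn.mul
    · exact (hf.differentiableOn.sub_const _).div_const _
    · apply DifferentiableOn.cexp
      apply DifferentiableOn.const_mul
      exact ((P.CT_differentiableOn hgc).const_mul _).add hGd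
  have hmax := P.LL_max hd ?_ z hz
  · rw [hnorm z hz] at hmax
    set E : ℝ := (P.Vis g z).re + (GG q e (r / 8) z).re with hE
    have h1 : ‖f z - f q‖ / ε * Real.exp (-L * E) * (ε * Real.exp (L * E)) = ‖f z - f q‖ := by
      have : Real.exp (-L * E) * Real.exp (L * E) = 1 := by
        rw [← Real.exp_add]
        simp
      generalize Real.exp (-L * E) = X at this ⊢
      generalize Real.exp (L * E) = Y at this ⊢
      field_simp
      linear_combination ‖f z - f q‖ * this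
    have h2 : 0 ≤ ε * Real.exp (L * E) := by positivity
    calc ‖f z - f q‖ = ‖f z - f q‖ / ε * Real.exp (-L * E) * (ε * Real.exp (L * E)) := h1.symm
      _ ≤ 1 * (ε * Real.exp (L * E)) := by gcongr
      _ = _ := one_mul _
  · intro σ₀ hσ₀
    obtain ⟨hC, -⟩ := P.LL_frontier_mem hσ₀
    set V1 : ℂ := P.Vis (fun _ => 1) σ₀ with hV1
    set A : ℝ := (P.Vis g σ₀ + g σ₀ * (2 - V1)).re with hA
    have htv := P.tendsto_vis hgc hσ₀
    refine ⟨‖f σ₀ - f q‖ / ε * Real.exp (-L * (A + (GG q e (r / 8) σ₀).re)), ?_, ?_⟩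
    · have hG0 := GG_re_nonneg (q := q) (e := e) hs (hy σ₀ hC)
      have hV0 : 0 ≤ (P.Vis g σ₀).re := P.LL_vis_nonneg hbc (fun w _ => hb0 w) hC
      have hV1le : V1.re ≤ 1 := P.vis_one_le hσ₀
      have hAb : b σ₀ ≤ A := by
        rw [hA, Complex.add_re]
        have : (g σ₀ * (2 - V1)).re = b σ₀ * (2 - V1.re) := by
          simp only [g]
          rw [Complex.re_ofReal_mul]
          simp
        rw [this]
        nlinarith [hb0 σ₀]
      by_cases hF : ‖f σ₀ - f q‖ ≤ ε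
      · have h1 : ‖f σ₀ - f q‖ / ε ≤ 1 := by rwa [div_le_one hε]
        have h2 : Real.exp (-L * (A + (GG q e (r / 8) σ₀).re)) ≤ 1 := by
          rw [Real.exp_le_one_iff]
          have := hb0 σ₀
          nlinarith [mul_nonneg hL (by linarith : 0 ≤ A + (GG q e (r / 8) σ₀).re)]
        calc _ ≤ (1 : ℝ) * 1 := by gcongr
          _ = 1 := by ring
      · push Not at hF
        have hE : 1 ≤ A + (GG q e (r / 8) σ₀).re := by
          by_cases hnear : ‖σ₀ - q‖ ≤ r / 2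
          · have hb1 : b σ₀ = 1 := by
              simp only [b]
              rw [chiF_eq_one hr hnear, rampF_eq_one hε hF.le, one_mul]
            linarith
          · push Not at hnear
            have := GG_re_ge_one (q := q) (e := e) (z := σ₀) hs he (hy σ₀ hC) (by linarith)
            have := hb0 σ₀
            linarith
        have h1 : Real.exp (-L * (A + (GG q e (r / 8) σ₀).re)) ≤ ε / 2 := by
          rw [← hexpL, Real.exp_le_exp]
          nlinarith
        have h2 : ‖f σ₀ - f q‖ ≤ 2 := by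
          have := norm_sub_le (f σ₀) (f q)
          have := hf1 σ₀ hC
          have := hf1 q hq
          linarith
        calc _ ≤ (2 / ε) * (ε / 2) := by gcongr
          _ = 1 := by field_simp
    · have hsub : 𝓝[P.Om] σ₀ ≤ 𝓝[P.C] σ₀ := nhdsWithin_mono _ P.Om_subset_C
      have h1 : Tendsto (fun z => ‖f z - f q‖ / ε) (𝓝[P.Om] σ₀) (𝓝 (‖f σ₀ - f q‖ / ε)) :=
        ((((hfc σ₀ hC).mono_left hsub).sub_const _).norm).div_const _
      have h2 : Tendsto (fun z => (P.Vis g z).re) (𝓝[P.Om] σ₀) (𝓝 A) :=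
        (Complex.continuous_re.tendsto _).comp htv
      have h3 : Tendsto (fun z => (GG q e (r / 8) z).re) (𝓝[P.Om] σ₀)
          (𝓝 (GG q e (r / 8) σ₀).re) := by
        have hca : ContinuousAt (GG q e (r / 8)) σ₀ := by
          unfold GG
          apply ContinuousAt.mul continuousAt_const
          apply ContinuousAt.sub continuousAt_const
          apply ContinuousAt.div continuousAt_const (by fun_prop)
          exact (GG_facts hs (hy σ₀ hC)).1
        exact (Complex.continuous_re.tendsto _).comp (hca.tendsto.mono_left nhdsWithin_le_nhds)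
      have h4 := h1.mul ((Real.continuous_exp.tendsto _).comp
        (tendsto_const_nhds (x := -L)|>.mul (h2.add h3)))
      refine h4.congr' ?_
      filter_upwards [self_mem_nhdsWithin] with w hw
      rw [hnorm w hw]
      rfl

private lemma LL_vis_re (g : ℂ → ℝ) (z : ℂ) : (P.Vis (fun w => (g w : ℂ)) z).re =
    Real.pi⁻¹ * ∑ j ∈ Finset.range P.N, ∫ s in (0 : ℝ)..P.l j, g (P.σ j s) * P.k j s z := by
  unfold Vis
  have h : ∀ j, (∫ s in (0 : ℝ)..P.l j, ((g (P.σ j s) : ℂ) * (P.k j s z : ℂ))) =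
      ((∫ s in (0 : ℝ)..P.l j, g (P.σ j s) * P.k j s z : ℝ) : ℂ) := by
    intro j
    rw [← intervalIntegral.integral_ofReal]
    simp only [Complex.ofReal_mul]
  simp_rw [h]
  rw [← Complex.ofReal_sum, Complex.re_ofReal_mul, Complex.ofReal_re]

private lemma LL_compare {g h : ℂ → ℝ} (hg : ContinuousOn g P.C) (hh : ContinuousOn h P.C)
    {z z' : ℂ} (hz : z ∈ P.C) (hz' : z' ∈ P.C)
    (H : ∀ j s, 0 ≤ s → s ≤ P.l j → g (P.σ j s) * P.k j s z ≤ h (P.σ j s) * P.k j s z') :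
    (P.Vis (fun w => (g w : ℂ)) z).re ≤ (P.Vis (fun w => (h w : ℂ)) z').re := by
  rw [LL_vis_re, LL_vis_re]
  apply mul_le_mul_of_nonneg_left _ (inv_nonneg.2 Real.pi_pos.le)
  apply Finset.sum_le_sum
  intro j _
  have hl := (P.l_pos j).le
  have hm : ∀ {ψ : ℂ → ℝ} {y : ℂ}, ContinuousOn ψ P.C → y ∈ P.C →
      IntervalIntegrable (fun s => ψ (P.σ j s) * P.k j s y) volume 0 (P.l j) := by
    intro ψ y hψ hy
    apply ContinuousOn.intervalIntegrable
    apply ContinuousOn.mul _ (P.k_continuous hy j).continuousOn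
    apply hψ.comp (P.continuous_σ j).continuousOn
    intro s hs
    rw [Set.uIcc_of_le hl] at hs
    exact P.σ_mem_C hs.1 hs.2
  exact intervalIntegral.integral_mono_on hl (hm hg hz) (hm hh hz') (fun s hs => H j s hs.1 hs.2)

private lemma LL_side_mem {p : ℂ} (hp : P.SideInt p) : p ∈ P.C := by
  obtain ⟨j, s, h0, h1, rfl⟩ := hp
  exact P.σ_mem_C h0.le h1.le

private lemma LL_energy {f : ℂ → ℂ} (hf : DiffContOnCl ℂ f P.Om) (hf1 : ∀ z ∈ P.C, ‖f z‖ ≤ 1)
    {p : ℂ} (hp : P.SideInt p) (a : ℂ) :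
    (P.Vis (fun w => ((‖f w - a‖ ^ (2 : ℕ) : ℝ) : ℂ)) p).re ≤
      4 * (P.w0 f p).re + 2 * ‖f p + a‖ ^ (2 : ℕ) := by
  have hfc : ContinuousOn f P.C := by
    have := hf.continuousOn
    rwa [P.closure_Om] at this
  have hpC := P.LL_side_mem hp
  have hfp := hf1 p hpC
  set A : ℝ := ‖f p + a‖ ^ (2 : ℕ) with hA
  let h : ℂ → ℝ := fun w => 4 * (1 + (conj (f w) * f p).re) + 2 * A
  have hc1 : ContinuousOn (fun w => conj (f w) * f p) P.C :=
    (Complex.continuous_conj.comp_continuousOn hfc).mul continuousOn_const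
  have hch : ContinuousOn h P.C :=
    (continuousOn_const.mul (continuousOn_const.add
      (Complex.continuous_re.comp_continuousOn hc1))).add continuousOn_const
  have hcψ : ContinuousOn (fun w => ‖f w - a‖ ^ (2 : ℕ)) P.C :=
    ((hfc.sub continuousOn_const).norm).pow 2
  have hle : ∀ w ∈ P.C, ‖f w - a‖ ^ (2 : ℕ) ≤ h w := by
    intro w hw
    have hw1 := hf1 w hw
    have h1 : ‖f w - a‖ ≤ ‖f w + f p‖ + ‖f p + a‖ := by
      have : f w - a = (f w + f p) - (f p + a) := by ring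
      rw [this]
      exact norm_sub_le _ _
    have h2 : ‖f w + f p‖ ^ (2 : ℕ) ≤ 2 * (1 + (conj (f w) * f p).re) := by
      rw [← Complex.normSq_eq_norm_sq, Complex.normSq_add]
      have h3 : (f w * conj (f p)).re = (conj (f w) * f p).re := by
        simp only [Complex.mul_re, Complex.conj_re, Complex.conj_im]
        ring
      rw [h3, Complex.normSq_eq_norm_sq, Complex.normSq_eq_norm_sq]
      nlinarith [norm_nonneg (f w), norm_nonneg (f p)]
    have h4 : ‖f w - a‖ ^ (2 : ℕ) ≤ 2 * ‖f w + f p‖ ^ (2 : ℕ) + 2 * A := by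
      rw [hA]
      nlinarith [sq_nonneg (‖f w + f p‖ - ‖f p + a‖), norm_nonneg (f w - a),
        norm_nonneg (f w + f p), norm_nonneg (f p + a)]
    simp only [h]
    linarith
  refine (P.vis_re_mono hcψ hch hle hpC).trans (le_of_eq ?_)
  let g0 : ℂ → ℂ := fun w => (4 * f p) * conj (f w) + (4 + 2 * (A : ℂ)) * 1
  have hg0c : ContinuousOn g0 P.C :=
    (continuousOn_const.mul (Complex.continuous_conj.comp_continuousOn hfc)).add continuousOn_const
  have h2 : (P.Vis g0 p).re = (P.Vis (fun w => (h w : ℂ)) p).re := by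
    rw [P.vis_re g0 hg0c hpC]
    congr 2
    funext w
    congr 1
    simp only [g0, h, Complex.add_re, Complex.mul_re, Complex.one_re, Complex.one_im,
      Complex.ofReal_re, Complex.ofReal_im, Complex.conj_re, Complex.conj_im, Complex.re_ofNat,
      Complex.im_ofNat, Complex.add_im, Complex.mul_im]
    ring
  have h3 : P.Vis g0 p = (4 * f p) * conj (P.Vis f p) + (4 + 2 * (A : ℂ)) * 1 := by
    have h4 : P.Vis g0 p = P.Vis (fun w => (4 * f p) * conj (f w)) p +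
        P.Vis (fun _ => (4 + 2 * (A : ℂ)) * 1) p :=
      P.vis_add (continuousOn_const.mul (Complex.continuous_conj.comp_continuousOn hfc))
        continuousOn_const hpC
    rw [h4, P.vis_const_mul, P.vis_conj, P.vis_const_mul (4 + 2 * (A : ℂ)) (fun _ => 1),
      P.vis_one_side hp]
  rw [← h2, h3]
  unfold w0
  rw [P.hat_side hf hp]
  simp only [Complex.add_re, Complex.mul_re, Complex.one_re, Complex.one_im,
    Complex.ofReal_re, Complex.ofReal_im, Complex.conj_re, Complex.conj_im, Complex.re_ofNat,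
    Complex.im_ofNat, Complex.add_im, Complex.mul_im]
  ring

private lemma LL_near {f : ℂ → ℂ} (hf : DiffContOnCl ℂ f P.Om) (hf1 : ∀ z ∈ P.C, ‖f z‖ ≤ 1)
    {p q : ℂ} (hp : P.SideInt p) (hq : P.SideInt q) (hpq : q ≠ p)
    (hmid : ∀ i, ‖p - q‖ / 1800 ≤ P.d i ((p + q) / 2)) {ε : ℝ} (hε : 0 < ε) (hε2 : ε ≤ 2)
    (hτ : 2985984000000 * (4 / ε ^ (2 : ℕ)) *
      (4 * (P.w0 f p).re + 2 * ‖f p + f q‖ ^ (2 : ℕ)) ≤ 1 / 5) :
    (∀ i, ‖p - q‖ / 414720000 ≤ P.d i (q + ((1 / 460800 : ℝ) : ℂ) * (p - q))) ∧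
    ‖f (q + ((1 / 460800 : ℝ) : ℂ) * (p - q)) - f q‖ ≤ ε * Real.exp (Real.log (2 / ε) / 4) := by
  have hpC := P.LL_side_mem hp
  have hqC := P.LL_side_mem hq
  obtain ⟨j, s₀, h0, h1, hqe⟩ := hq
  set ℓ : ℝ := ‖p - q‖ with hℓd
  have hℓ : 0 < ℓ := norm_pos_iff.2 (sub_ne_zero.2 hpq.symm)
  set z : ℂ := q + ((1 / 460800 : ℝ) : ℂ) * (p - q) with hz
  have hzd : ∀ i, ℓ / 414720000 ≤ P.d i z := by
    intro i
    have h2 : z = ((1 - 1 / 230400 : ℝ) : ℂ) * q + ((1 / 230400 : ℝ) : ℂ) * ((p + q) / 2) := by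
      rw [hz]
      push_cast
      ring
    rw [h2, P.d_comb]
    have h3 := hqC i
    have h4 := hmid i
    nlinarith
  have hzO : z ∈ P.Om := fun i => lt_of_lt_of_le (by positivity) (hzd i)
  refine ⟨hzd, ?_⟩
  set e : ℂ := P.e j with he
  have heN : ‖e‖ = 1 := by
    rw [he]
    unfold Poly.e
    rw [norm_mul, Complex.norm_I, one_mul, P.norm_n]
  have hdq : P.d (j + 1) q = 0 := by
    rw [hqe]
    exact P.d_σ_self j s₀
  have him : ∀ w, (conj e * (w - q)).im = P.d (j + 1) w := by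
    intro w
    have h2 := P.d_sub (j + 1) w q
    rw [hdq, sub_zero] at h2
    rw [h2, he]
    unfold Poly.e
    have h3 : conj (I * P.n (j + 1)) * (w - q) = -I * (conj (P.n (j + 1)) * (w - q)) := by
      rw [map_mul, Complex.conj_I]
      ring
    have h4 : conj (P.n (j + 1)) * (q - w) = -(conj (P.n (j + 1)) * (w - q)) := by ring
    rw [h3, h4]
    simp
  have hy : ∀ w ∈ P.C, 0 ≤ (conj e * (w - q)).im := by
    intro w hw
    rw [him]
    exact hw _
  set r : ℝ := ℓ / 1800 with hr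
  have hrpos : 0 < r := by positivity
  have key := P.LL_two hf hf1 hqC heN hy hrpos hε hε2 hzO
  set L : ℝ := Real.log (2 / ε) with hLd
  have hL : 0 ≤ L := Real.log_nonneg (by rw [le_div_iff₀ hε]; linarith)
  refine key.trans ?_
  have hGle : (GG q e (r / 8) z).re ≤ 1 / 24 := by
    apply GG_re_le (by positivity) heN (hy z (P.Om_subset_C hzO))
    have : z - q = ((1 / 460800 : ℝ) : ℂ) * (p - q) := by rw [hz]; ring
    rw [this, norm_mul, Complex.norm_real, Real.norm_of_nonneg (by norm_num), ← hℓd, hr]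
    apply le_of_eq
    ring
  have hfc : ContinuousOn f P.C := by
    have := hf.continuousOn
    rwa [P.closure_Om] at this
  let b : ℂ → ℝ := fun w => chiF r ‖w - q‖ * rampF ε ‖f w - f q‖
  have hbc : ContinuousOn b P.C := by
    apply ContinuousOn.mul
    · exact (chiF_cont r).comp_continuousOn (by fun_prop)
    · exact (rampF_cont ε).comp_continuousOn ((hfc.sub continuousOn_const).norm)
  set c : ℝ := 2985984000000 * (4 / ε ^ (2 : ℕ)) with hc
  have hc0 : 0 ≤ c := by positivity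
  let ψ : ℂ → ℝ := fun w => ‖f w - f q‖ ^ (2 : ℕ)
  have hψc : ContinuousOn ψ P.C := ((hfc.sub continuousOn_const).norm).pow 2
  have hcmp := P.LL_compare (g := b) (h := fun w => c * ψ w) hbc (continuousOn_const.mul hψc)
    (P.Om_subset_C hzO) hpC ?_
  · have h2 : (P.Vis (fun w => ((c * ψ w : ℝ) : ℂ)) p).re = c * (P.Vis (fun w => (ψ w : ℂ)) p).re := by
      have h3 : (fun w => ((c * ψ w : ℝ) : ℂ)) = fun w => (c : ℂ) * (ψ w : ℂ) := by
        funext w
        push_cast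
        rfl
      rw [h3, P.vis_const_mul, Complex.re_ofReal_mul]
    have h3 := P.LL_energy hf hf1 hp (f q)
    have h4 : (P.Vis (fun w => (b w : ℂ)) z).re ≤ 1 / 5 := by
      refine hcmp.trans ?_
      rw [h2]
      refine le_trans (mul_le_mul_of_nonneg_left h3 hc0) hτ
    have h5 : L * ((P.Vis (fun w => (b w : ℂ)) z).re + (GG q e (r / 8) z).re) ≤ L / 4 := by
      have : (P.Vis (fun w => (b w : ℂ)) z).re + (GG q e (r / 8) z).re ≤ 1 / 4 := by linarith
      nlinarith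
    exact mul_le_mul_of_nonneg_left (Real.exp_le_exp.2 h5) hε.le
  · intro j' s hs0 hs1
    set w : ℂ := P.σ j' s with hw
    have hk0 : 0 ≤ P.k j' s p := P.k_nonneg hpC j' s
    have hkz0 : 0 ≤ P.k j' s z := P.k_nonneg (P.Om_subset_C hzO) j' s
    have hψ0 : 0 ≤ ψ w := by positivity
    by_cases hfar : r ≤ ‖w - q‖
    · have : b w = 0 := by
        simp only [b]
        rw [chiF_eq_zero hrpos hfar, zero_mul]
      rw [this, zero_mul]
      positivity
    · push Not at hfar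
      -- depth of `p` with respect to the line of `w`
      have hdw : P.d (j' + 1) w = 0 := P.d_σ_self j' s
      have hdp : r ≤ P.d (j' + 1) p := by
        have h2 := hmid (j' + 1)
        have h3 : (p + w) / 2 = ((1 - 1 / 2 : ℝ) : ℂ) * p + ((1 / 2 : ℝ) : ℂ) * w := by
          push_cast
          ring
        have h4 : P.d (j' + 1) ((p + w) / 2) = P.d (j' + 1) p / 2 := by
          rw [h3, P.d_comb, hdw]
          ring
        have h5 := P.abs_d_sub_le (j' + 1) ((p + w) / 2) ((p + q) / 2)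
        have h6 : (p + w) / 2 - (p + q) / 2 = ((1 / 2 : ℝ) : ℂ) * (w - q) := by
          push_cast
          ring
        rw [h6, norm_mul, Complex.norm_real, Real.norm_of_nonneg (by norm_num), h4] at h5
        have h7 := (abs_le.1 h5).2
        have h7' := (abs_le.1 h5).1
        nlinarith
      have hnorm : ‖w - p‖ ≤ 2 * ℓ := by
        have : w - p = (w - q) - (p - q) := by ring
        rw [this]
        have := norm_sub_le (w - q) (p - q)
        have hrle : r ≤ ℓ := by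
          rw [hr]
          linarith
        linarith
      have hkp : 1 / (7200 * ℓ) ≤ P.k j' s p := by
        unfold k
        rw [Complex.normSq_eq_norm_sq, ← hw]
        have hpos : 0 < ‖w - p‖ := by
          rw [norm_pos_iff, sub_ne_zero]
          intro h
          rw [← h, hdw] at hdp
          linarith
        rw [div_le_div_iff₀ (by positivity) (by positivity)]
        have : ‖w - p‖ ^ (2 : ℕ) ≤ (2 * ℓ) ^ (2 : ℕ) := by gcongr
        have h8 : ℓ / 1800 * (7200 * ℓ) ≤ P.d (j' + 1) p * (7200 * ℓ) := by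
          rw [← hr]
          gcongr
        nlinarith
      have hkz : P.k j' s z ≤ 2985984000000 * P.k j' s p := by
        have h2 := P.k_le hzO j' s
        have h3 : 1 / P.d (j' + 1) z ≤ 414720000 / ℓ := by
          rw [div_le_div_iff₀ (lt_of_lt_of_le (by positivity) (hzd _)) hℓ]
          have := hzd (j' + 1)
          have h4 : ℓ / 414720000 * 414720000 = ℓ := by ring
          nlinarith
        have h4 : 414720000 / ℓ = 2985984000000 * (1 / (7200 * ℓ)) := by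
          field_simp
          norm_num
        rw [h4] at h3
        nlinarith
      have hbw : b w ≤ 4 / ε ^ (2 : ℕ) * ψ w := by
        have h2 : b w ≤ rampF ε ‖f w - f q‖ := by
          simp only [b]
          have := chiF_le_one r ‖w - q‖
          have := rampF_nonneg ε ‖f w - f q‖
          nlinarith
        refine h2.trans (rampF_le_sq.trans (le_of_eq ?_))
        simp only [ψ]
        field_simp
        ring
      have hb0 : 0 ≤ b w := mul_nonneg (chiF_nonneg _ _) (rampF_nonneg _ _)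
      calc b w * P.k j' s z ≤ (4 / ε ^ (2 : ℕ) * ψ w) * (2985984000000 * P.k j' s p) := by
            gcongr
        _ = c * ψ w * P.k j' s p := by
            rw [hc]
            ring

private lemma LL_const : ∃ (n : ℕ) (ε ε₂ δ : ℝ), (829440000 : ℝ) ≤ n ∧ 0 < ε ∧ ε ≤ 2 ∧ 0 < ε₂ ∧
    ε * Real.exp (Real.log (2 / ε) / 4) = δ ∧ δ ≤ 1 / (8 * 3 ^ n) ∧ ε₂ ≤ 1 / (8 * 3 ^ n) ∧
    ∀ T A : ℝ, T < ε₂ → 0 ≤ A → A < ε₂ → 2985984000000 * (4 / ε ^ (2 : ℕ)) *
      (4 * T + 2 * A ^ (2 : ℕ)) ≤ 1 / 5 := by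
  obtain ⟨n, hn⟩ : ∃ n : ℕ, (829440000 : ℝ) ≤ n := ⟨829440000, by norm_num⟩
  generalize hM : (3 : ℝ) ^ n = M
  have hM1 : 1 ≤ M := by
    rw [← hM]
    exact one_le_pow₀ (by norm_num)
  set κ : ℝ := 1 / (16 * M) with hκ
  have hκ0 : 0 < κ := by positivity
  have hκ1 : κ ≤ 1 / 16 := by
    rw [hκ]
    apply div_le_div_of_nonneg_left (by norm_num) (by norm_num)
    linarith
  set ε : ℝ := 2 * κ ^ (4 : ℕ) with hε
  have hε0 : 0 < ε := by positivity
  have hε2 : ε ≤ 2 := by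
    have : κ ^ (4 : ℕ) ≤ 1 := pow_le_one₀ hκ0.le (by linarith)
    rw [hε]
    linarith
  have hexp : ε * Real.exp (Real.log (2 / ε) / 4) = 2 * κ ^ (3 : ℕ) := by
    have h1 : 2 / ε = (κ⁻¹) ^ (4 : ℕ) := by
      rw [hε, inv_pow]
      field_simp
    have h2 : Real.log (2 / ε) / 4 = Real.log κ⁻¹ := by
      rw [h1, Real.log_pow]
      push_cast
      ring
    rw [h2, Real.exp_log (by positivity), hε]
    field_simp
  have hδ : 2 * κ ^ (3 : ℕ) ≤ 1 / (8 * M) := by
    have h1 : κ ^ (3 : ℕ) ≤ κ := by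
      have : κ ^ (3 : ℕ) = κ * κ ^ (2 : ℕ) := by ring
      rw [this]
      have : κ ^ (2 : ℕ) ≤ 1 := pow_le_one₀ hκ0.le (by linarith)
      nlinarith
    have h2 : 2 * κ = 1 / (8 * M) := by
      rw [hκ]
      field_simp
      norm_num
    linarith
  set ε₂ : ℝ := min (1 / (8 * M)) (ε ^ (2 : ℕ) / (120 * 2985984000000)) with hε₂
  have hε₂0 : 0 < ε₂ := by positivity
  have hε₂1 : ε₂ ≤ 1 / (8 * M) := min_le_left _ _
  have hε₂2 : ε₂ ≤ ε ^ (2 : ℕ) / (120 * 2985984000000) := min_le_right _ _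
  have hε₂le : ε₂ ≤ 1 := by
    refine hε₂1.trans ?_
    rw [div_le_one (by positivity)]
    linarith
  refine ⟨n, ε, ε₂, 2 * κ ^ (3 : ℕ), hn, hε0, hε2, hε₂0, hexp, by rw [hM]; exact hδ, by rw [hM]; exact hε₂1, ?_⟩
  intro T A hT hA0 hA
  have h1 : 4 * T + 2 * A ^ (2 : ℕ) ≤ 6 * ε₂ := by
    have : A ^ (2 : ℕ) ≤ ε₂ := by nlinarith
    linarith
  have h2 : 2985984000000 * (4 / ε ^ (2 : ℕ)) * (6 * ε₂) ≤ 1 / 5 := by
    have h3 : ε₂ * (120 * 2985984000000) ≤ ε ^ (2 : ℕ) := by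
      rwa [le_div_iff₀ (by norm_num)] at hε₂2
    have h4 : 0 < ε ^ (2 : ℕ) := by positivity
    have : 2985984000000 * (4 / ε ^ (2 : ℕ)) * (6 * ε₂) =
        (ε₂ * (120 * 2985984000000)) / ε ^ (2 : ℕ) * (1 / 5) := by
      field_simp
      ring
    rw [this]
    have h5 : (ε₂ * (120 * 2985984000000)) / ε ^ (2 : ℕ) ≤ 1 := by
      rw [div_le_one h4]
      exact h3
    linarith
  have hpos : (0 : ℝ) ≤ 2985984000000 * (4 / ε ^ (2 : ℕ)) := by positivity
  exact (mul_le_mul_of_nonneg_left h1 hpos).trans h2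

private lemma LL_contra {f : ℂ → ℂ} (hf : DiffContOnCl ℂ f P.Om) (hf1 : ∀ z ∈ P.C, ‖f z‖ ≤ 1)
    {p q : ℂ} (hqC : q ∈ P.C) (hpq : q ≠ p) {n : ℕ} (hn : (829440000 : ℝ) ≤ n)
    {ε₂ δ : ℝ} (h3n : ε₂ ≤ 1 / (8 * 3 ^ n)) (hδ : δ ≤ 1 / (8 * 3 ^ n)) (hTq : (P.w0 f q).re < ε₂)
    (hfpq : ‖f q + f p‖ < ε₂) {zq zp : ℂ}
    (hzq : zq = q + ((1 / 460800 : ℝ) : ℂ) * (p - q))
    (hzp : zp = p + ((1 / 460800 : ℝ) : ℂ) * (q - p))
    (hd1 : ∀ i, ‖p - q‖ / 414720000 ≤ P.d i zq) (hd2 : ∀ i, ‖p - q‖ / 414720000 ≤ P.d i zp)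
    (hn1 : ‖f zq - f q‖ ≤ δ) (hn2 : ‖f zp - f p‖ ≤ δ) : False := by
  have hnpos : 0 < n := by
    have : (0 : ℝ) < n := by linarith
    exact_mod_cast this
  set ℓ : ℝ := ‖p - q‖ with hℓd
  have hℓ : 0 < ℓ := norm_pos_iff.2 (sub_ne_zero.2 hpq.symm)
  let φ : ℂ → ℂ := fun z => 1 - conj (f q) * f z
  have hfq1 := hf1 q hqC
  have hφd : DifferentiableOn ℂ φ P.Om :=
    (differentiableOn_const _).sub (hf.differentiableOn.const_mul _)
  have hφre : ∀ z ∈ P.Om, 0 ≤ (φ z).re := by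
    intro z hz
    have h3 := hf1 z (P.Om_subset_C hz)
    have h4 : (conj (f q) * f z).re ≤ ‖conj (f q) * f z‖ := Complex.re_le_norm _
    rw [norm_mul, RCLike.norm_conj] at h4
    have h5 : ‖f q‖ * ‖f z‖ ≤ 1 * 1 := by gcongr
    simp only [φ, Complex.sub_re, Complex.one_re]
    linarith
  have hdist : ‖zp - zq‖ ≤ n * (ℓ / 414720000 / 2) := by
    have h3 : zp - zq = ((1 - 2 * (1 / 460800) : ℝ) : ℂ) * (p - q) := by
      rw [hzp, hzq]
      push_cast
      ring
    rw [h3, norm_mul, Complex.norm_real, Real.norm_of_nonneg (by norm_num), ← hℓd]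
    have : (829440000 : ℝ) * (ℓ / 414720000 / 2) = ℓ := by ring
    have h5 : (829440000 : ℝ) * (ℓ / 414720000 / 2) ≤ n * (ℓ / 414720000 / 2) := by gcongr
    have h6 : (1 - 2 * (1 / 460800) : ℝ) * ℓ ≤ ℓ := by nlinarith
    linarith
  have hch := P.LL_chain hφd hφre (ρ := ℓ / 414720000) (by positivity) hd1 hd2 hnpos hdist
  generalize hM : (3 : ℝ) ^ n = M at h3n hδ hch
  have hM1 : 1 ≤ M := by
    rw [← hM]
    exact one_le_pow₀ (by norm_num)
  have hT : 1 - ‖f q‖ ≤ (P.w0 f q).re := by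
    unfold w0
    have h3 := P.hat_bound hf hf1 q hqC
    have h4 : (P.hat f q * f q).re ≥ -‖P.hat f q * f q‖ := by
      have := Complex.abs_re_le_norm (P.hat f q * f q)
      linarith [(abs_le.1 this).1]
    rw [norm_mul] at h4
    have h5 : ‖P.hat f q‖ * ‖f q‖ ≤ 1 * ‖f q‖ := by gcongr
    simp only [Complex.add_re, Complex.one_re]
    linarith
  have hfqlow : 1 - ε₂ ≤ ‖f q‖ := by linarith
  have hδ0 : 0 ≤ δ := (norm_nonneg _).trans hn1
  have hε0 : 0 ≤ ε₂ := (norm_nonneg _).trans hfpq.le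
  have h4 : conj (f q) * f q = ((‖f q‖ ^ (2 : ℕ) : ℝ) : ℂ) := by
    rw [Complex.conj_mul']
    push_cast
    rfl
  have hnq : ‖φ zq‖ ≤ 2 * ε₂ + δ := by
    have h3 : φ zq = ((1 - ‖f q‖ ^ (2 : ℕ) : ℝ) : ℂ) - conj (f q) * (f zq - f q) := by
      simp only [φ]
      rw [mul_sub, h4]
      push_cast
      ring
    rw [h3]
    refine (norm_sub_le _ _).trans ?_
    have h5 : ‖((1 - ‖f q‖ ^ (2 : ℕ) : ℝ) : ℂ)‖ ≤ 2 * ε₂ := by
      rw [Complex.norm_real, Real.norm_of_nonneg (by nlinarith [norm_nonneg (f q)])]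
      nlinarith [norm_nonneg (f q)]
    have h6 : ‖conj (f q) * (f zq - f q)‖ ≤ δ := by
      rw [norm_mul, RCLike.norm_conj]
      have h6 : 0 ≤ ‖f zq - f q‖ := norm_nonneg _
      nlinarith [norm_nonneg (f q)]
    linarith
  have hnp : 1 - ε₂ - δ ≤ ‖φ zp‖ := by
    have h3 : φ zp = ((1 + ‖f q‖ ^ (2 : ℕ) : ℝ) : ℂ) - conj (f q) * (f q + f p) -
        conj (f q) * (f zp - f p) := by
      simp only [φ]
      have h5 : conj (f q) * (f q + f p) = conj (f q) * f q + conj (f q) * f p := by ring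
      rw [h5, h4]
      push_cast
      ring
    have h5 : ‖((1 + ‖f q‖ ^ (2 : ℕ) : ℝ) : ℂ)‖ ≥ 1 := by
      rw [Complex.norm_real, Real.norm_of_nonneg (by positivity)]
      nlinarith [sq_nonneg ‖f q‖]
    have h6 : ‖conj (f q) * (f q + f p)‖ ≤ ε₂ := by
      rw [norm_mul, RCLike.norm_conj]
      have h6 : 0 ≤ ‖f q + f p‖ := norm_nonneg _
      nlinarith [norm_nonneg (f q)]
    have h7 : ‖conj (f q) * (f zp - f p)‖ ≤ δ := by
      rw [norm_mul, RCLike.norm_conj]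
      have h6 : 0 ≤ ‖f zp - f p‖ := norm_nonneg _
      nlinarith [norm_nonneg (f q)]
    rw [h3]
    have h8 := norm_sub_norm_le (((1 + ‖f q‖ ^ (2 : ℕ) : ℝ) : ℂ) - conj (f q) * (f q + f p))
      (conj (f q) * (f zp - f p))
    have h9 := norm_sub_norm_le (((1 + ‖f q‖ ^ (2 : ℕ) : ℝ) : ℂ)) (conj (f q) * (f q + f p))
    linarith
  have hM0 : 0 < M := by linarith
  have hfin : M * (2 * ε₂ + δ) ≤ 3 / 8 := by
    have h3 : M * (1 / (8 * M)) = 1 / 8 := by
      field_simp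
    have h4 : M * ε₂ ≤ M * (1 / (8 * M)) := by gcongr
    have h5 : M * δ ≤ M * (1 / (8 * M)) := by gcongr
    nlinarith
  have hsmall : ε₂ + δ ≤ 1 / 4 := by
    have h3 : 1 / (8 * M) ≤ 1 / 8 := by
      apply div_le_div_of_nonneg_left (by norm_num) (by norm_num)
      linarith
    linarith
  have hlast : ‖φ zp‖ ≤ M * (2 * ε₂ + δ) := hch.trans (by gcongr)
  linarith

/-- The local lemma. -/
theorem local_lemma : ∃ ε₂ > 0, ∀ (P : Poly) (f : ℂ → ℂ), DiffContOnCl ℂ f P.Om →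
    (∀ z ∈ P.C, ‖f z‖ ≤ 1) → ∀ p q : ℂ, P.SideInt p → P.SideInt q → q ≠ p →
    (∀ i, ‖p - q‖ / 1800 ≤ P.d i ((p + q) / 2)) →
    ¬ ((P.w0 f q).re < ε₂ ∧ (P.w0 f p).re < ε₂ ∧ ‖f q + f p‖ < ε₂) := by
  obtain ⟨n, ε, ε₂, δ, hn, hε0, hε2, hε₂0, hexp, hδ, h3n, hτ⟩ := LL_const
  refine ⟨ε₂, hε₂0, ?_⟩
  intro P f hf hf1 p q hp hq hpq hmid ⟨hTq, hTp, hfpq⟩
  have hqC := P.LL_side_mem hq
  have hsum : ‖f p + f q‖ < ε₂ := by rwa [add_comm]
  have h1 := P.LL_near hf hf1 hp hq hpq hmid hε0 hε2 (hτ _ _ hTp (norm_nonneg _) hsum)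
  have hmid' : ∀ i, ‖q - p‖ / 1800 ≤ P.d i ((q + p) / 2) := by
    intro i
    rw [norm_sub_rev, add_comm]
    exact hmid i
  have h2 := P.LL_near hf hf1 hq hp hpq.symm hmid' hε0 hε2 (hτ _ _ hTq (norm_nonneg _) hfpq)
  obtain ⟨hd1, hn1⟩ := h1
  obtain ⟨hd2, hn2⟩ := h2
  rw [hexp] at hn1 hn2
  have hd2' : ∀ i, ‖p - q‖ / 414720000 ≤ P.d i (p + ((1 / 460800 : ℝ) : ℂ) * (q - p)) := by
    intro i
    have := hd2 i
    rwa [norm_sub_rev] at this
  exact P.LL_contra hf hf1 hqC hpq hn h3n hδ hTq hfpq rfl rfl hd1 hd2' hn1 hn2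

end Poly

end P123U
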