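import Mathlib

/-! Auxiliary complex analysis for the local lemma: a maximum principle with boundary limits of the
modulus only, and the Harnack type chain for functions with nonnegative real part. -/

open Complex Filter Topology Metric
open scoped ComplexConjugate

noncomputable section

namespace P123U

/-- Maximum principle when only the limits of the modulus at the frontier are controlled. -/
theorem max_principle_limit {Ω : Set ℂ} (hΩ : IsOpen Ω) (hb : Bornology.IsBounded Ω)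
    (hc : IsPreconnected Ω) {g : ℂ → ℂ} (hg : DifferentiableOn ℂ g Ω)
    (hlim : ∀ s ∈ frontier Ω, ∃ a ≤ (1 : ℝ), Tendsto (fun z => ‖g z‖) (𝓝[Ω] s) (𝓝 a)) :
    ∀ z ∈ Ω, ‖g z‖ ≤ 1 := by
  intro z₀ hz₀
  by_contra hcon
  have hcon' : 1 < ‖g z₀‖ := not_le.1 hcon
  have hgc : ContinuousOn (fun z => ‖g z‖) Ω := hg.continuousOn.norm
  set t := ‖g z₀‖ with ht
  set K := {z | z ∈ Ω ∧ t ≤ ‖g z‖} with hK
  have hclosed : IsClosed K := by
    rw [← closure_subset_iff_isClosed]
    intro s hs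
    have hsK : s ∈ closure Ω := closure_mono (fun z hz => hz.1) hs
    by_cases hsΩ : s ∈ Ω
    · refine ⟨hsΩ, ?_⟩
      have hcs : ContinuousAt (fun z => ‖g z‖) s := hgc.continuousAt (hΩ.mem_nhds hsΩ)
      have hfreq : ∃ᶠ z in 𝓝 s, z ∈ K := mem_closure_iff_frequently.1 hs
      by_contra hlt
      have h1 := hcs.eventually_lt_const (not_le.1 hlt)
      obtain ⟨z, hz1, hz2⟩ := (hfreq.and_eventually h1).exists
      exact absurd hz1.2 (not_le.2 hz2)
    · exfalso
      have hfr : s ∈ frontier Ω := by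
        rw [frontier, hΩ.interior_eq]
        exact ⟨hsK, hsΩ⟩
      obtain ⟨a, ha, hlim'⟩ := hlim s hfr
      have hev : ∀ᶠ z in 𝓝[Ω] s, ‖g z‖ < t := hlim'.eventually_lt_const (by linarith)
      have hmem := mem_closure_iff_frequently.1 hs
      rw [eventually_nhdsWithin_iff] at hev
      obtain ⟨z, hz1, hz2⟩ := (hmem.and_eventually hev).exists
      exact absurd hz1.2 (not_le.2 (hz2 hz1.1))
  have hKb : Bornology.IsBounded K := hb.subset fun z hz => hz.1
  have hKc : IsCompact K := Metric.isCompact_of_isClosed_isBounded hclosed hKb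
  have hKne : K.Nonempty := ⟨z₀, hz₀, le_rfl⟩
  obtain ⟨z₁, hz₁K, hz₁⟩ := hKc.exists_isMaxOn hKne (hgc.mono fun z hz => hz.1)
  have hmax : IsMaxOn (norm ∘ g) Ω z₁ := by
    intro z hz
    by_cases hzK : z ∈ K
    · exact hz₁ hzK
    · have hlt : ‖g z‖ < t := not_le.1 fun h => hzK ⟨hz, h⟩
      exact (hlt.le.trans hz₁K.2 : ‖g z‖ ≤ ‖g z₁‖)
  have heq := Complex.norm_eqOn_of_isPreconnected_of_isMaxOn hc hΩ hg hz₁K.1 hmax
  have hfrne : (frontier Ω).Nonempty := by
    rw [nonempty_frontier_iff]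
    refine ⟨⟨z₀, hz₀⟩, fun h => ?_⟩
    rw [h] at hb
    exact NormedSpace.unbounded_univ ℝ ℂ hb
  obtain ⟨s, hs⟩ := hfrne
  obtain ⟨a, ha, hlim'⟩ := hlim s hs
  have hcl : s ∈ closure Ω := frontier_subset_closure hs
  haveI : (𝓝[Ω] s).NeBot := mem_closure_iff_nhdsWithin_neBot.1 hcl
  have h2 : Tendsto (fun z => ‖g z‖) (𝓝[Ω] s) (𝓝 ‖g z₁‖) := by
    refine tendsto_const_nhds.congr' ?_
    filter_upwards [self_mem_nhdsWithin] with z hz
    exact (heq hz).symm
  have h3 := tendsto_nhds_unique hlim' h2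
  have h4 : t ≤ ‖g z₁‖ := hz₁K.2
  linarith

/-- Harnack inequality for functions with positive real part on a disc. -/
theorem harnack_step {g : ℂ → ℂ} {u v : ℂ} {ρ : ℝ} (hρ : 0 < ρ)
    (hg : DifferentiableOn ℂ g (ball u ρ)) (hre : ∀ z ∈ ball u ρ, 0 ≤ (g z).re)
    (hv : ‖v - u‖ ≤ ρ / 2) : ‖g v‖ ≤ 3 * ‖g u‖ := by
  have hu : u ∈ ball u ρ := mem_ball_self hρ
  have hvb : v ∈ ball u ρ := by
    rw [mem_ball, dist_eq_norm]
    linarith
  refine le_of_forall_pos_le_add fun δ hδ => ?_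
  set η := δ / 4 with hη
  have hη0 : 0 < η := by positivity
  set G : ℂ → ℂ := fun z => g z + (η : ℂ) with hG
  have hGre : ∀ z ∈ ball u ρ, 0 < (G z).re := by
    intro z hz
    have := hre z hz
    simp only [hG, Complex.add_re, Complex.ofReal_re]
    linarith
  set b := G u with hb
  have hbre : 0 < b.re := hGre u hu
  have hden : ∀ z ∈ ball u ρ, G z + conj b ≠ 0 := by
    intro z hz h
    have h1 := congrArg Complex.re h
    have h2 := hGre z hz
    simp only [Complex.add_re, Complex.conj_re, Complex.zero_re] at h1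
    linarith
  set Ψ : ℂ → ℂ := fun z => (G z - b) / (G z + conj b) with hΨ
  have hGd : DifferentiableOn ℂ G (ball u ρ) := hg.add (differentiableOn_const _)
  have hΨd : DifferentiableOn ℂ Ψ (ball u ρ) :=
    (hGd.sub (differentiableOn_const _)).div (hGd.add (differentiableOn_const _)) hden
  have hΨu : Ψ u = 0 := by simp [hΨ, ← hb]
  have hmaps : Set.MapsTo Ψ (ball u ρ) (ball (Ψ u) 1) := by
    intro z hz
    rw [mem_ball, hΨu, dist_zero_right]
    have hdn := hden z hz
    simp only [hΨ, norm_div]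
    rw [div_lt_one (norm_pos_iff.2 hdn)]
    have h1 := hGre z hz
    have key : ‖G z - b‖ ^ 2 < ‖G z + conj b‖ ^ 2 := by
      rw [← Complex.normSq_eq_norm_sq, ← Complex.normSq_eq_norm_sq, Complex.normSq_apply,
        Complex.normSq_apply]
      simp only [Complex.sub_re, Complex.sub_im, Complex.add_re, Complex.add_im, Complex.conj_re,
        Complex.conj_im]
      nlinarith [mul_pos h1 hbre]
    exact lt_of_pow_lt_pow_left₀ 2 (norm_nonneg _) key
  have hsch := Complex.dist_le_div_mul_dist_of_mapsTo_ball hΨd (hmaps.mono_right ball_subset_closedBall) hvb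
  rw [hΨu, dist_zero_right, dist_eq_norm] at hsch
  have hΨv : ‖Ψ v‖ ≤ 1 / 2 := by
    refine hsch.trans ?_
    rw [div_mul_eq_mul_div, one_mul, div_le_iff₀ hρ]
    linarith
  have hdn := hden v hvb
  have heq : G v * (1 - Ψ v) = b + Ψ v * conj b := by
    have : Ψ v * (G v + conj b) = G v - b := by
      simp only [hΨ]
      field_simp
    linear_combination (-1 : ℂ) * this
  have hGv : ‖G v‖ ≤ 3 * ‖b‖ := by
    have h1 : ‖G v‖ * (1 - ‖Ψ v‖) ≤ ‖G v * (1 - Ψ v)‖ := by
      rw [norm_mul]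
      refine mul_le_mul_of_nonneg_left ?_ (norm_nonneg _)
      have := norm_sub_norm_le (1 : ℂ) (Ψ v)
      simpa using this
    have h2 : ‖b + Ψ v * conj b‖ ≤ ‖b‖ * (1 + ‖Ψ v‖) := by
      refine (norm_add_le _ _).trans ?_
      rw [norm_mul, RCLike.norm_conj]
      linarith
    rw [heq] at h1
    have h3 := norm_nonneg (G v)
    have h4 := norm_nonneg b
    nlinarith
  have hn1 : ‖g v‖ ≤ ‖G v‖ + η := by
    have := norm_sub_le (G v) (η : ℂ)
    simp only [hG, add_sub_cancel_right, Complex.norm_real, Real.norm_of_nonneg hη0.le] at this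
    exact this
  have hn2 : ‖b‖ ≤ ‖g u‖ + η := by
    have := norm_add_le (g u) (η : ℂ)
    simpa only [hb, hG, Complex.norm_real, Real.norm_of_nonneg hη0.le] using this
  rw [hη] at hn1 hn2
  linarith

/-- Chain version of the Harnack inequality along a segment. -/
theorem harnack_chain {Ω : Set ℂ} {g : ℂ → ℂ} {x y : ℂ} {ρ : ℝ} {n : ℕ} (hρ : 0 < ρ)
    (hg : DifferentiableOn ℂ g Ω) (hre : ∀ z ∈ Ω, 0 ≤ (g z).re)
    (hball : ∀ t : ℝ, 0 ≤ t → t ≤ 1 → ball (x + (t : ℂ) * (y - x)) ρ ⊆ Ω)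
    (hn : 0 < n) (hstep : ‖y - x‖ ≤ (n : ℝ) * (ρ / 2)) : ‖g y‖ ≤ 3 ^ n * ‖g x‖ := by
  have hn0 : (0 : ℝ) < n := by exact_mod_cast hn
  have key : ∀ i : ℕ, i ≤ n →
      ‖g (x + (((i : ℝ) / n : ℝ) : ℂ) * (y - x))‖ ≤ 3 ^ i * ‖g x‖ := by
    intro i
    induction i with
    | zero =>
      intro _
      simp
    | succ i ih =>
      intro hi
      have hi' : i ≤ n := by omega
      have h1 := ih hi'
      have ht0 : (0 : ℝ) ≤ (i : ℝ) / n := by positivity
      have ht1 : (i : ℝ) / n ≤ 1 := by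
        rw [div_le_one hn0]
        exact_mod_cast hi'
      have hb := hball _ ht0 ht1
      have hv : ‖(x + ((((i + 1 : ℕ) : ℝ) / n : ℝ) : ℂ) * (y - x)) -
          (x + (((i : ℝ) / n : ℝ) : ℂ) * (y - x))‖ ≤ ρ / 2 := by
        have e : (x + ((((i + 1 : ℕ) : ℝ) / n : ℝ) : ℂ) * (y - x)) -
            (x + (((i : ℝ) / n : ℝ) : ℂ) * (y - x)) = ((1 / n : ℝ) : ℂ) * (y - x) := by
          push_cast
          field_simp
          ring
        rw [e, norm_mul, Complex.norm_real, Real.norm_of_nonneg (by positivity),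
          div_mul_eq_mul_div, one_mul, div_le_iff₀ hn0]
        linarith
      have := harnack_step hρ (hg.mono hb) (fun z hz => hre z (hb hz)) hv
      calc _ ≤ 3 * ‖g (x + (((i : ℝ) / n : ℝ) : ℂ) * (y - x))‖ := this
        _ ≤ 3 * (3 ^ i * ‖g x‖) := by linarith
        _ = 3 ^ (i + 1) * ‖g x‖ := by ring
  have := key n le_rfl
  have e : x + (((n : ℝ) / n : ℝ) : ℂ) * (y - x) = y := by
    rw [div_self hn0.ne']
    simp
  rwa [e] at this

end P123U
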