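import Vale.Agent.Lib.P123.U.Geom
import Vale.Agent.Lib.P123.U.LocalAux

/-! The chain step of the local lemma: a function with values close to `f q` near `q` and
close to `f p` near `p`, with `f p` near `- f q` and `|f q|` near `1`, cannot exist, by the
Harnack chain for `1 - conj (f q) f` along the chord from `q` to `p`. -/

open Complex Metric
open scoped ComplexConjugate

noncomputable section

namespace P123U

namespace Poly

variable (P : Poly)

/-- Number of Harnack steps along the chord. -/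
def chainN : ℕ := 829440000

/-- `t₀ = c / 256` with `c = 1 / 1800`. -/
def chainT : ℝ := 1 / 460800

lemma d_lip (j : ℕ) (w x : ℂ) : P.d j x - ‖w - x‖ ≤ P.d j w := by
  have h : P.d j x - P.d j w = (conj (P.n j) * (w - x)).re := by
    unfold d
    rw [mul_sub, Complex.sub_re]
    ring
  have h2 : (conj (P.n j) * (w - x)).re ≤ ‖w - x‖ := by
    refine (Complex.re_le_norm _).trans ?_
    rw [norm_mul, RCLike.norm_conj]
    have : ‖P.n j‖ = 1 := by
      unfold n
      exact Complex.norm_exp_ofReal_mul_I _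
    rw [this, one_mul]
  linarith

lemma d_chord {p q : ℂ} (hp : p ∈ P.C) (hq : q ∈ P.C)
    (hmid : ∀ i, ‖p - q‖ / 1800 ≤ P.d i ((p + q) / 2)) (j : ℕ) {τ : ℝ} (h0 : chainT ≤ τ)
    (h1 : τ ≤ 1 - chainT) : ‖p - q‖ / 414720000 ≤ P.d j (q + (τ : ℂ) * (p - q)) := by
  have hT : chainT = 1 / 460800 := rfl
  have hℓ : 0 ≤ ‖p - q‖ := norm_nonneg _
  have hM := hmid j
  have hdq := hq j
  have hdp := hp j
  rcases le_total τ (1 / 2) with hτ | hτ
  · have e : q + (τ : ℂ) * (p - q) = (1 - 2 * τ) • q + (2 * τ) • ((p + q) / 2) := by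
      simp only [Complex.real_smul]
      push_cast
      ring
    rw [e, P.d_affine j q _ (by ring)]
    have h2 : 0 ≤ 1 - 2 * τ := by linarith
    have h3 : 0 ≤ (1 - 2 * τ) * P.d j q := mul_nonneg h2 hdq
    have h4 : 2 * τ * (‖p - q‖ / 1800) ≤ 2 * τ * P.d j ((p + q) / 2) :=
      mul_le_mul_of_nonneg_left hM (by rw [hT] at h0; linarith)
    have h5 : ‖p - q‖ / 414720000 ≤ 2 * τ * (‖p - q‖ / 1800) := by
      rw [hT] at h0
      nlinarith
    linarith
  · have e : q + (τ : ℂ) * (p - q) = (2 * τ - 1) • p + (2 - 2 * τ) • ((p + q) / 2) := by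
      simp only [Complex.real_smul]
      push_cast
      ring
    rw [e, P.d_affine j p _ (by ring)]
    have h2 : 0 ≤ 2 * τ - 1 := by linarith
    have h3 : 0 ≤ (2 * τ - 1) * P.d j p := mul_nonneg h2 hdp
    have h4 : (2 - 2 * τ) * (‖p - q‖ / 1800) ≤ (2 - 2 * τ) * P.d j ((p + q) / 2) :=
      mul_le_mul_of_nonneg_left hM (by rw [hT] at h1; linarith)
    have h5 : ‖p - q‖ / 414720000 ≤ (2 - 2 * τ) * (‖p - q‖ / 1800) := by
      rw [hT] at h1
      nlinarith
    linarith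

/-- The chain contradiction.  Here `e` is a common bound of the small quantities, with
`e * (3 ^ (chainN + 1) + 2) < 1`. -/
theorem chain_contra {f : ℂ → ℂ} (hf : DiffContOnCl ℂ f P.Om) (hf1 : ∀ z ∈ P.C, ‖f z‖ ≤ 1)
    {p q : ℂ} (hp : p ∈ P.C) (hq : q ∈ P.C) (hpq : q ≠ p)
    (hmid : ∀ i, ‖p - q‖ / 1800 ≤ P.d i ((p + q) / 2)) {e : ℝ}
    (he : e * (3 ^ (chainN + 1) + 2) < 1)
    (h1 : ‖f (q + ((chainT : ℝ) : ℂ) * (p - q)) - f q‖ ≤ e)
    (h2 : ‖f (p + ((chainT : ℝ) : ℂ) * (q - p)) - f p‖ ≤ e)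
    (h3 : ‖f q + f p‖ ≤ e) (h4 : 1 - ‖f q‖ ≤ e) : False := by
  have hT : chainT = 1 / 460800 := rfl
  have hℓ : 0 < ‖p - q‖ := norm_pos_iff.2 (sub_ne_zero.2 (Ne.symm hpq))
  set ρ := ‖p - q‖ / 414720000 with hρ
  have hρ0 : 0 < ρ := by positivity
  set a := f q with ha
  have ha1 : ‖a‖ ≤ 1 := hf1 q hq
  set x := q + ((chainT : ℝ) : ℂ) * (p - q) with hx
  set y := p + ((chainT : ℝ) : ℂ) * (q - p) with hy
  set g : ℂ → ℂ := fun z => 1 - conj a * f z with hg
  have hgd : DifferentiableOn ℂ g P.Om :=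
    (differentiableOn_const _).sub ((differentiableOn_const _).mul hf.differentiableOn)
  have hgre : ∀ z ∈ P.Om, 0 ≤ (g z).re := by
    intro z hz
    have h5 : ‖f z‖ ≤ 1 := hf1 z (P.Om_subset_C hz)
    have h6 : (conj a * f z).re ≤ ‖conj a * f z‖ := Complex.re_le_norm _
    rw [norm_mul, RCLike.norm_conj] at h6
    have h7 : ‖a‖ * ‖f z‖ ≤ 1 * 1 := mul_le_mul ha1 h5 (norm_nonneg _) zero_le_one
    simp only [hg, Complex.sub_re, Complex.one_re]
    linarith
  have hball : ∀ t : ℝ, 0 ≤ t → t ≤ 1 → ball (x + (t : ℂ) * (y - x)) ρ ⊆ P.Om := by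
    intro t ht0 ht1 w hw j
    have e1 : x + (t : ℂ) * (y - x) =
        q + ((chainT + t * (1 - 2 * chainT) : ℝ) : ℂ) * (p - q) := by
      simp only [hx, hy]
      push_cast
      ring
    have h5 := P.d_chord hp hq hmid j (τ := chainT + t * (1 - 2 * chainT))
      (by have : 0 ≤ t * (1 - 2 * chainT) := mul_nonneg ht0 (by rw [hT]; norm_num)
          linarith)
      (by have : t * (1 - 2 * chainT) ≤ 1 * (1 - 2 * chainT) :=
            mul_le_mul_of_nonneg_right ht1 (by rw [hT]; norm_num)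
          linarith)
    rw [← e1] at h5
    have h6 := P.d_lip j w (x + (t : ℂ) * (y - x))
    rw [mem_ball, dist_eq_norm] at hw
    linarith
  have hstep : ‖y - x‖ ≤ (chainN : ℝ) * (ρ / 2) := by
    have e1 : y - x = ((1 - 2 * chainT : ℝ) : ℂ) * (p - q) := by
      simp only [hx, hy]
      push_cast
      ring
    have h0 : |1 - 2 * chainT| ≤ 1 := by
      rw [hT, abs_le]
      norm_num
    rw [e1, norm_mul, Complex.norm_real, Real.norm_eq_abs]
    have h5 : (chainN : ℝ) * (ρ / 2) = ‖p - q‖ := by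
      rw [hρ]
      norm_num [chainN]
      ring
    rw [h5]
    nlinarith
  have hch := harnack_chain hρ0 hgd hgre hball (by norm_num [chainN]) hstep
  have hx1 : ‖g x‖ ≤ 3 * e := by
    have e1 : g x = (1 - (‖a‖ : ℂ) ^ 2) + conj a * (a - f x) := by
      simp only [hg]
      have : (conj a * a) = (‖a‖ : ℂ) ^ 2 := by
        rw [Complex.conj_mul']
      rw [mul_sub, this]
      ring
    have e2 : ((1 : ℂ) - (‖a‖ : ℂ) ^ 2) = ((1 - ‖a‖ ^ 2 : ℝ) : ℂ) := by
      push_cast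
      ring
    rw [e1, e2]
    refine (norm_add_le _ _).trans ?_
    rw [Complex.norm_real, norm_mul, RCLike.norm_conj, Real.norm_of_nonneg
      (by nlinarith [norm_nonneg a])]
    have h5 : ‖a - f x‖ ≤ e := by
      rw [norm_sub_rev]
      exact h1
    have h6 : 0 ≤ e := (norm_nonneg _).trans h1
    have h7 : ‖a‖ * ‖a - f x‖ ≤ 1 * e := mul_le_mul ha1 h5 (norm_nonneg _) zero_le_one
    nlinarith [norm_nonneg a]
  have hy1 : 1 - 2 * e ≤ ‖g y‖ := by
    have e1 : g y = (1 + (‖a‖ : ℂ) ^ 2) - conj a * ((f y - f p) + (a + f p)) := by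
      simp only [hg]
      have : (conj a * a) = (‖a‖ : ℂ) ^ 2 := by
        rw [Complex.conj_mul']
      linear_combination (1 : ℂ) * this
    have e2 : ((1 : ℂ) + (‖a‖ : ℂ) ^ 2) = ((1 + ‖a‖ ^ 2 : ℝ) : ℂ) := by
      push_cast
      ring
    rw [e1, e2]
    have h5 := norm_sub_norm_le (((1 + ‖a‖ ^ 2 : ℝ) : ℂ)) (conj a * ((f y - f p) + (a + f p)))
    rw [Complex.norm_real, norm_mul, RCLike.norm_conj, Real.norm_of_nonneg (by positivity)] at h5
    have h6 : ‖(f y - f p) + (a + f p)‖ ≤ e + e := (norm_add_le _ _).trans (add_le_add h2 h3)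
    have h7 : ‖a‖ * ‖(f y - f p) + (a + f p)‖ ≤ 1 * (e + e) :=
      mul_le_mul ha1 h6 (norm_nonneg _) (by linarith [(norm_nonneg _).trans h3])
    nlinarith [norm_nonneg a]
  have h3pos : (0 : ℝ) < 3 ^ chainN := by positivity
  have hfin : 1 - 2 * e ≤ 3 ^ chainN * (3 * e) :=
    hy1.trans (hch.trans (mul_le_mul_of_nonneg_left hx1 h3pos.le))
  have : (3 : ℝ) ^ (chainN + 1) = 3 ^ chainN * 3 := pow_succ _ _
  rw [this] at he
  nlinarith

end Poly

end P123U
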