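import Vale.Agent.Lib.P123.U.PL

/-! The operator argument: from the pointwise lemma to the universal improvement. -/

open Complex Finset Filter Topology
open scoped ComplexConjugate

set_option linter.unusedSectionVars false
set_option linter.unusedSimpArgs false
set_option linter.unusedVariables false

noncomputable section

namespace P123U

namespace Oper

variable {V : Type*} [NormedAddCommGroup V] [InnerProductSpace ℂ V]
variable {ι : Type} [Fintype ι] [DecidableEq ι]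

/-- The functional calculus. -/
def th (lam : ι → ℂ) (E : ι → V →L[ℂ] V) (h : ℂ → ℂ) : V →L[ℂ] V := ∑ i, h (lam i) • E i

section FC
variable {lam : ι → ℂ} {E : ι → V →L[ℂ] V}

lemma th_congr {g h : ℂ → ℂ} (H : ∀ i, g (lam i) = h (lam i)) : th lam E g = th lam E h := by
  unfold th; exact Finset.sum_congr rfl fun i _ => by rw [H]

lemma th_add (g h : ℂ → ℂ) : th lam E (fun z => g z + h z) = th lam E g + th lam E h := by
  unfold th; rw [← Finset.sum_add_distrib]; exact Finset.sum_congr rfl fun i _ => add_smul _ _ _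

lemma th_sub (g h : ℂ → ℂ) : th lam E (fun z => g z - h z) = th lam E g - th lam E h := by
  unfold th; rw [← Finset.sum_sub_distrib]; exact Finset.sum_congr rfl fun i _ => sub_smul _ _ _

lemma th_cmul (c : ℂ) (h : ℂ → ℂ) : th lam E (fun z => c * h z) = c • th lam E h := by
  unfold th; rw [Finset.smul_sum]; exact Finset.sum_congr rfl fun i _ => mul_smul _ _ _

lemma th_one (hs : ∑ i, E i = 1) : th lam E (fun _ => 1) = 1 := by
  unfold th; simp [hs]

lemma th_const (hs : ∑ i, E i = 1) (c : ℂ) : th lam E (fun _ => c) = c • 1 := by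
  have := th_cmul (lam := lam) (E := E) c (fun _ => 1)
  simp only [mul_one] at this
  rw [this, th_one hs]

lemma th_mul (ho : ∀ i j, E i * E j = if i = j then E i else 0) (g h : ℂ → ℂ) :
    th lam E (fun z => g z * h z) = th lam E g * th lam E h := by
  unfold th
  rw [Finset.sum_mul_sum]
  apply Finset.sum_congr rfl
  intro i _
  rw [Finset.sum_eq_single i]
  · rw [smul_mul_smul_comm, ho, if_pos rfl]
  · intro j _ hj
    rw [smul_mul_smul_comm, ho, if_neg (Ne.symm hj), smul_zero]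
  · simp

lemma th_comm (ho : ∀ i j, E i * E j = if i = j then E i else 0) (g h : ℂ → ℂ) :
    th lam E g * th lam E h = th lam E h * th lam E g := by
  rw [← th_mul ho, ← th_mul ho]
  exact th_congr fun i => mul_comm _ _

lemma norm_th_le (g : ℂ → ℂ) {M : ℝ} (hM : ∀ i, ‖g (lam i)‖ ≤ M) :
    ‖th lam E g‖ ≤ M * ∑ i, ‖E i‖ := by
  unfold th
  rw [Finset.mul_sum]
  refine (norm_sum_le _ _).trans (Finset.sum_le_sum fun i _ => ?_)
  rw [norm_smul]
  exact mul_le_mul_of_nonneg_right (hM i) (norm_nonneg _)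

lemma inner_th_right (g : ℂ → ℂ) (u v : V) :
    inner ℂ v (th lam E g u) = ∑ i, g (lam i) * inner ℂ v (E i u) := by
  unfold th
  simp [inner_sum, inner_smul_right]

lemma inner_th_left (g : ℂ → ℂ) (u v : V) :
    inner ℂ (th lam E g v) u = ∑ i, conj (g (lam i)) * inner ℂ (E i v) u := by
  unfold th
  simp [sum_inner, inner_smul_left]
  exact Finset.sum_congr rfl fun i _ => mul_comm _ _

end FC

/-- A unit complex number rotating `z` to `‖z‖`. -/
lemma exists_unit (z : ℂ) : ∃ ω : ℂ, ‖ω‖ = 1 ∧ ω * z = (‖z‖ : ℂ) := by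
  by_cases hz : z = 0
  · exact ⟨1, by simp, by simp [hz]⟩
  · have hn : (‖z‖ : ℂ) ≠ 0 := by exact_mod_cast norm_ne_zero_iff.mpr hz
    refine ⟨conj z / (‖z‖ : ℂ), ?_, ?_⟩
    · rw [norm_div, RCLike.norm_conj, Complex.norm_real, norm_norm, div_self (norm_ne_zero_iff.mpr hz)]
    · rw [div_mul_eq_mul_div, Complex.conj_mul', pow_two, mul_div_assoc, div_self hn, mul_one]

/-- Singular vectors in finite dimension. -/
lemma exists_singular [FiniteDimensional ℂ V] (T : V →L[ℂ] V) (ht : 0 < ‖T‖) :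
    ∃ x y : V, ‖x‖ = 1 ∧ ‖y‖ = 1 ∧ T x = ((‖T‖ : ℝ) : ℂ) • y ∧
      ∀ w, inner ℂ y (T w) = ((‖T‖ : ℝ) : ℂ) * inner ℂ x w := by
  haveI : CompleteSpace V := FiniteDimensional.complete ℂ V
  haveI : ProperSpace V := FiniteDimensional.proper ℂ V
  have hne : ∃ v : V, T v ≠ 0 := by
    by_contra h
    push_neg at h
    have : T = 0 := ContinuousLinearMap.ext h
    rw [this, norm_zero] at ht
    exact lt_irrefl _ ht
  obtain ⟨v0, hv0⟩ := hne
  have hv00 : v0 ≠ 0 := fun h => hv0 (by rw [h, map_zero])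
  have hcomp : IsCompact (Metric.sphere (0 : V) 1) := isCompact_sphere 0 1
  have hnon : (Metric.sphere (0 : V) 1).Nonempty := by
    refine ⟨((‖v0‖ : ℝ) : ℂ)⁻¹ • v0, ?_⟩
    rw [mem_sphere_zero_iff_norm, norm_smul, norm_inv, Complex.norm_real, norm_norm]
    exact inv_mul_cancel₀ (norm_ne_zero_iff.mpr hv00)
  obtain ⟨x, hx, hmax⟩ := hcomp.exists_isMaxOn hnon (f := fun v => ‖T v‖) (by fun_prop)
  have hx1 : ‖x‖ = 1 := by simpa using hx
  have hle : ‖T‖ ≤ ‖T x‖ := by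
    refine T.opNorm_le_bound (norm_nonneg _) fun v => ?_
    by_cases hv : v = 0
    · simp [hv]
    · have hvn : ‖v‖ ≠ 0 := norm_ne_zero_iff.mpr hv
      have hmem : ((‖v‖ : ℝ) : ℂ)⁻¹ • v ∈ Metric.sphere (0 : V) 1 := by
        rw [mem_sphere_zero_iff_norm, norm_smul, norm_inv, Complex.norm_real, norm_norm]
        exact inv_mul_cancel₀ hvn
      have := hmax hmem
      simp only [Set.mem_setOf_eq, map_smul, norm_smul, norm_inv, Complex.norm_real, norm_norm] at this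
      rw [inv_mul_le_iff₀ (by positivity)] at this
      linarith [mul_comm ‖v‖ ‖T x‖]
  have hTx : ‖T x‖ = ‖T‖ := le_antisymm (by simpa [hx1] using T.le_opNorm x) hle
  set t := ‖T‖ with ht_def
  have htc : ((t : ℝ) : ℂ) ≠ 0 := by exact_mod_cast ht.ne'
  let y : V := ((t : ℝ) : ℂ)⁻¹ • T x
  have hy1 : ‖y‖ = 1 := by
    simp only [y]
    rw [norm_smul, norm_inv, Complex.norm_real, hTx]
    simp [ht.ne', abs_of_pos ht]
  have hTy : T x = ((t : ℝ) : ℂ) • y := by
    simp only [y]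
    rw [smul_smul, mul_inv_cancel₀ htc, one_smul]
  let S := ContinuousLinearMap.adjoint T
  have hS : ‖S‖ = t := LinearIsometryEquiv.norm_map _ T
  have hadj : ∀ a b, inner ℂ (S a) b = inner ℂ a (T b) := fun a b =>
    ContinuousLinearMap.adjoint_inner_left T b a
  -- S T x = t² x
  have key : S (T x) = ((t ^ 2 : ℝ) : ℂ) • x := by
    have h1 : ‖S (T x)‖ ≤ t * t := by
      calc ‖S (T x)‖ ≤ ‖S‖ * ‖T x‖ := S.le_opNorm _
        _ = t * t := by rw [hS, hTx]
    have h2 : inner ℂ (S (T x)) x = ((t ^ 2 : ℝ) : ℂ) := by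
      rw [hadj, inner_self_eq_norm_sq_to_K, hTx]
      push_cast
      rfl
    have h3 : ‖S (T x) - ((t ^ 2 : ℝ) : ℂ) • x‖ ^ 2 ≤ 0 := by
      have := @norm_sub_sq ℂ V _ _ _ (S (T x)) (((t ^ 2 : ℝ) : ℂ) • x)
      rw [this, inner_smul_right, h2, norm_smul, hx1, Complex.norm_real]
      have h4 : (((((t ^ 2 : ℝ) : ℂ) * ((t ^ 2 : ℝ) : ℂ)) : ℂ)).re = t ^ 4 := by
        rw [← Complex.ofReal_mul, Complex.ofReal_re]; ring
      simp only [RCLike.re_to_complex]
      rw [h4, Real.norm_of_nonneg (by positivity)]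
      have h5 : ‖S (T x)‖ ^ 2 ≤ (t * t) ^ 2 := by gcongr
      nlinarith
    have h6 : ‖S (T x) - ((t ^ 2 : ℝ) : ℂ) • x‖ = 0 := by
      have := sq_nonneg ‖S (T x) - ((t ^ 2 : ℝ) : ℂ) • x‖
      nlinarith [norm_nonneg (S (T x) - ((t ^ 2 : ℝ) : ℂ) • x)]
    exact sub_eq_zero.mp (norm_eq_zero.mp h6)
  refine ⟨x, y, hx1, hy1, hTy, fun w => ?_⟩
  rw [← hadj]
  have h7 : S y = ((t : ℝ) : ℂ) • x := by
    simp only [y]
    rw [map_smul, key, smul_smul, ← Complex.ofReal_inv, ← Complex.ofReal_mul]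
    congr 2
    field_simp
  rw [h7, inner_smul_left]
  simp

section Form
variable (P : Poly) (lam : ι → ℂ) (E : ι → V →L[ℂ] V)

def cc : ℂ := (2 * (Real.pi : ℂ) * I)⁻¹

lemma conj_cc : conj cc = -cc := by
  unfold cc
  rw [map_inv₀, map_mul, map_mul, Complex.conj_I, Complex.conj_ofReal]
  have h2 : conj (2 : ℂ) = 2 := Complex.conj_ofReal 2
  rw [h2]
  have : (2 * (Real.pi : ℂ) * -I) = -(2 * (Real.pi : ℂ) * I) := by ring
  rw [this, inv_neg]

/-- resolvent -/
def res (σ : ℂ) : V →L[ℂ] V := th lam E (fun z => (σ - z)⁻¹)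

/-- The positive operator valued density. -/
def Q (j : ℕ) (s : ℝ) (u v : V) : ℂ :=
  cc * (P.e j * inner ℂ v (res lam E (P.σ j s) u) - conj (P.e j) * inner ℂ (res lam E (P.σ j s) v) u)

def I (h : ℂ → ℂ) (u v : V) : ℂ :=
  ∑ j ∈ range P.N, ∫ s in (0 : ℝ)..P.l j, h (P.σ j s) * Q P lam E j s u v

variable {P lam E}

lemma σ_sub_ne {z : ℂ} (hz : z ∈ P.Om) (j : ℕ) (s : ℝ) : P.σ j s - z ≠ 0 := by
  intro h
  have h0 : P.σ j s = z := sub_eq_zero.mp h
  have h1 := P.d_σ_self j s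
  have h2 := hz (j + 1)
  rw [← h0] at h2
  linarith

lemma cont_ker {z : ℂ} (hz : z ∈ P.Om) (j : ℕ) : Continuous fun s => P.e j / (P.σ j s - z) :=
  continuous_const.div ((P.continuous_σ j).sub continuous_const) (fun s => σ_sub_ne hz j s)

lemma Q_expand (j : ℕ) (s : ℝ) (u v : V) : Q P lam E j s u v =
    ∑ i, (cc * inner ℂ v (E i u) * (P.e j / (P.σ j s - lam i)) +
      (-cc) * inner ℂ (E i v) u * conj (P.e j / (P.σ j s - lam i))) := by
  unfold Q res
  rw [inner_th_right, inner_th_left, Finset.mul_sum, Finset.mul_sum, ← Finset.sum_sub_distrib,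
    Finset.mul_sum]
  apply Finset.sum_congr rfl
  intro i _
  rw [map_div₀, map_inv₀, div_eq_mul_inv, div_eq_mul_inv]
  ring

lemma Q_cont (hlam : ∀ i, lam i ∈ P.Om) (j : ℕ) (u v : V) :
    Continuous fun s => Q P lam E j s u v := by
  simp only [Q_expand]
  refine continuous_finset_sum _ fun i _ => ?_
  have h := cont_ker (hlam i) j
  exact (continuous_const.mul h).add (continuous_const.mul (Complex.continuous_conj.comp h))

lemma σ_mem {j : ℕ} {s : ℝ} (hs : s ∈ Set.Icc (0 : ℝ) (P.l j)) : P.σ j s ∈ P.C :=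
  P.σ_mem_C hs.1 hs.2

lemma comp_cont {h : ℂ → ℂ} (hh : ContinuousOn h P.C) (j : ℕ) :
    ContinuousOn (fun s => h (P.σ j s)) (Set.Icc 0 (P.l j)) :=
  hh.comp (P.continuous_σ j).continuousOn fun _ hs => σ_mem hs

lemma int_of_on {g : ℝ → ℂ} {j : ℕ} (hg : ContinuousOn g (Set.Icc 0 (P.l j))) :
    IntervalIntegrable g MeasureTheory.volume 0 (P.l j) := by
  apply ContinuousOn.intervalIntegrable
  rwa [Set.uIcc_of_le (P.l_pos j).le]

lemma int_of_onR {g : ℝ → ℝ} {j : ℕ} (hg : ContinuousOn g (Set.Icc 0 (P.l j))) :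
    IntervalIntegrable g MeasureTheory.volume 0 (P.l j) := by
  apply ContinuousOn.intervalIntegrable
  rwa [Set.uIcc_of_le (P.l_pos j).le]

lemma integral_conj' (g : ℝ → ℂ) (a b : ℝ) :
    ∫ s in a..b, conj (g s) = conj (∫ s in a..b, g s) := by
  simp only [intervalIntegral, integral_conj, map_sub]

/-- Expansion of the double form in the Cauchy transforms. -/
lemma I_expand (hlam : ∀ i, lam i ∈ P.Om) {h : ℂ → ℂ} (hh : ContinuousOn h P.C) (u v : V) :
    I P lam E h u v = ∑ i, (P.CT h (lam i) * inner ℂ v (E i u) +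
      conj (P.CT (fun w => conj (h w)) (lam i)) * inner ℂ (E i v) u) := by
  have hstep : ∀ j ∈ range P.N, ∫ s in (0 : ℝ)..P.l j, h (P.σ j s) * Q P lam E j s u v =
      ∑ i, (cc * inner ℂ v (E i u) * (∫ s in (0 : ℝ)..P.l j, h (P.σ j s) * (P.e j / (P.σ j s - lam i))) +
        (-cc) * inner ℂ (E i v) u *
          conj (∫ s in (0 : ℝ)..P.l j, conj (h (P.σ j s)) * (P.e j / (P.σ j s - lam i)))) := by
    intro j _
    have h1 : ∀ i, IntervalIntegrable (fun s => h (P.σ j s) * (P.e j / (P.σ j s - lam i)))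
        MeasureTheory.volume 0 (P.l j) := fun i =>
      int_of_on ((comp_cont hh j).mul (cont_ker (hlam i) j).continuousOn)
    have h2 : ∀ i, IntervalIntegrable (fun s => conj (conj (h (P.σ j s)) * (P.e j / (P.σ j s - lam i))))
        MeasureTheory.volume 0 (P.l j) := fun i =>
      int_of_on (Complex.continuous_conj.comp_continuousOn
        ((Complex.continuous_conj.comp_continuousOn (comp_cont hh j)).mul (cont_ker (hlam i) j).continuousOn))
    have h3 : ∀ s, h (P.σ j s) * Q P lam E j s u v =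
        ∑ i, (cc * inner ℂ v (E i u) * (h (P.σ j s) * (P.e j / (P.σ j s - lam i))) +
          (-cc) * inner ℂ (E i v) u * conj (conj (h (P.σ j s)) * (P.e j / (P.σ j s - lam i)))) := by
      intro s
      rw [Q_expand, Finset.mul_sum]
      apply Finset.sum_congr rfl
      intro i _
      rw [map_mul, Complex.conj_conj]
      ring
    simp only [h3]
    rw [intervalIntegral.integral_finset_sum]
    · apply Finset.sum_congr rfl
      intro i _
      rw [intervalIntegral.integral_add ((h1 i).const_mul _) ((h2 i).const_mul _),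
        intervalIntegral.integral_const_mul, intervalIntegral.integral_const_mul, integral_conj']
    · intro i _
      exact ((h1 i).const_mul _).add ((h2 i).const_mul _)
  unfold I
  rw [Finset.sum_congr rfl hstep, Finset.sum_comm]
  apply Finset.sum_congr rfl
  intro i _
  rw [Finset.sum_add_distrib]
  unfold Poly.CT
  rw [map_mul, map_sum]
  change _ = ((cc * _) * _ + (conj cc * _) * _)
  rw [conj_cc, ← Finset.mul_sum, ← Finset.mul_sum]
  ring

lemma I_eq (hlam : ∀ i, lam i ∈ P.Om) {h : ℂ → ℂ} (hh : DiffContOnCl ℂ h P.Om) (u v : V) :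
    I P lam E h u v = inner ℂ v (th lam E h u) + inner ℂ (th lam E (P.hat h) v) u := by
  have hc : ContinuousOn h P.C := by
    have := hh.continuousOn
    rwa [P.closure_Om] at this
  rw [I_expand hlam hc, inner_th_right, inner_th_left, ← Finset.sum_add_distrib]
  apply Finset.sum_congr rfl
  intro i _
  rw [P.cauchy hh (hlam i), P.hat_apply_Om h (hlam i)]

lemma Q_conj (j : ℕ) (s : ℝ) (u v : V) : conj (Q P lam E j s u v) = Q P lam E j s v u := by
  unfold Q
  rw [map_mul, map_sub, map_mul, map_mul, conj_cc, Complex.conj_conj, inner_conj_symm, inner_conj_symm]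
  ring

lemma Q_sub_left (j : ℕ) (s : ℝ) (c : ℂ) (x y u : V) :
    Q P lam E j s (c • x - y) u = c * Q P lam E j s x u - Q P lam E j s y u := by
  unfold Q
  simp only [map_sub, map_smul, inner_sub_right, inner_smul_right]
  ring

lemma Q_sub_right (j : ℕ) (s : ℝ) (c : ℂ) (x y u : V) :
    Q P lam E j s u (c • x - y) = conj c * Q P lam E j s u x - Q P lam E j s u y := by
  unfold Q
  simp only [map_sub, map_smul, inner_sub_left, inner_smul_left]
  ring

lemma Q_sq (j : ℕ) (s : ℝ) (c : ℂ) (x y : V) :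
    (Q P lam E j s (c • x - y) (c • x - y)).re =
      ‖c‖ ^ 2 * (Q P lam E j s x x).re - 2 * (c * Q P lam E j s x y).re + (Q P lam E j s y y).re := by
  rw [Q_sub_left, Q_sub_right, Q_sub_right, ← Q_conj j s x y]
  have h1 : c * conj c = ((‖c‖ ^ 2 : ℝ) : ℂ) := by
    rw [Complex.mul_conj']; push_cast; rfl
  have : c * (conj c * Q P lam E j s x x - Q P lam E j s x y) -
      (conj c * conj (Q P lam E j s x y) - Q P lam E j s y y)
      = ((‖c‖ ^ 2 : ℝ) : ℂ) * Q P lam E j s x x - c * Q P lam E j s x y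
        - conj (c * Q P lam E j s x y) + Q P lam E j s y y := by
    rw [← h1, map_mul]; ring
  rw [this]
  simp only [Complex.add_re, Complex.sub_re, Complex.conj_re, Complex.re_ofReal_mul]
  ring

/-- `σ - A` is inverted by the resolvent. -/
lemma res_spec (hs : ∑ i, E i = 1) (ho : ∀ i j, E i * E j = if i = j then E i else 0) {σ : ℂ}
    (hσ : ∀ i, σ - lam i ≠ 0) (u : V) :
    σ • res lam E σ u - (∑ i, lam i • E i) (res lam E σ u) = u := by
  have h1 : th lam E (fun z => (σ - z) * (σ - z)⁻¹) = 1 := by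
    rw [← th_one (lam := lam) (E := E) hs]
    exact th_congr fun i => mul_inv_cancel₀ (hσ i)
  rw [th_mul ho, th_sub, th_const hs] at h1
  have h2 : th lam E (fun z => z) = ∑ i, lam i • E i := rfl
  rw [h2] at h1
  have h3 := congrArg (fun T : V →L[ℂ] V => T u) h1
  simpa [res] using h3

lemma Q_self (hs : ∑ i, E i = 1) (ho : ∀ i j, E i * E j = if i = j then E i else 0)
    (hlam : ∀ i, lam i ∈ P.Om)
    (hW : ∀ v : V, ‖v‖ = 1 → inner ℂ v ((∑ i, lam i • E i) v) ∈ P.Om)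
    (j : ℕ) (s : ℝ) (u : V) :
    (Q P lam E j s u u).im = 0 ∧ 0 ≤ (Q P lam E j s u u).re := by
  set σ := P.σ j s with hσdef
  set a := res lam E σ u with ha
  set A := ∑ i, lam i • E i with hA
  have hu : σ • a - A a = u := res_spec hs ho (fun i => σ_sub_ne (hlam i) j s) u
  set w : ℂ := P.e j * inner ℂ u a with hw
  have hQ : Q P lam E j s u u = ((w.im / Real.pi : ℝ) : ℂ) := by
    have h1 : Q P lam E j s u u = cc * (w - conj w) := by
      unfold Q
      rw [hw, map_mul, inner_conj_symm]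
    rw [h1, Complex.sub_conj]
    unfold cc
    have hpi : (Real.pi : ℂ) ≠ 0 := by exact_mod_cast Real.pi_ne_zero
    push_cast
    field_simp
  have hwim : 0 ≤ w.im := by
    by_cases ha0 : a = 0
    · rw [hw, ha0]; simp
    · have han : ‖a‖ ≠ 0 := norm_ne_zero_iff.mpr ha0
      have hac : ((‖a‖ : ℝ) : ℂ) ≠ 0 := by exact_mod_cast han
      set b : V := ((‖a‖ : ℝ) : ℂ)⁻¹ • a with hb
      have hb1 : ‖b‖ = 1 := by
        rw [hb, norm_smul, norm_inv, Complex.norm_real, norm_norm]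
        exact inv_mul_cancel₀ han
      set ζ : ℂ := inner ℂ b (A b) with hζ
      have hζOm : ζ ∈ P.Om := hW b hb1
      have hab : inner ℂ a (A a) = ((‖a‖ ^ 2 : ℝ) : ℂ) * ζ := by
        have ha2 : a = ((‖a‖ : ℝ) : ℂ) • b := by
          rw [hb, smul_smul, mul_inv_cancel₀ hac, one_smul]
        have : ζ = (((‖a‖ : ℝ) : ℂ)⁻¹) * (((‖a‖ : ℝ) : ℂ)⁻¹) * inner ℂ a (A a) := by
          rw [hζ, hb, map_smul, inner_smul_left, inner_smul_right, map_inv₀, Complex.conj_ofReal]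
          ring
        rw [this]
        push_cast
        field_simp
      have haa : inner ℂ a a = ((‖a‖ ^ 2 : ℝ) : ℂ) := by
        rw [inner_self_eq_norm_sq_to_K]; push_cast; rfl
      have huA : inner ℂ u a = ((‖a‖ ^ 2 : ℝ) : ℂ) * conj (σ - ζ) := by
        rw [← hu, inner_sub_left, inner_smul_left, haa,
          ← inner_conj_symm, hab, map_mul, Complex.conj_ofReal, map_sub]
        ring
      have him : (P.e j * conj (σ - ζ)).im = P.d (j + 1) ζ := by
        have h1 := P.d_sub (j + 1) ζ σ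
        rw [hσdef, P.d_σ_self j s, sub_zero] at h1
        rw [h1]
        unfold Poly.e
        rw [← hσdef]
        set n := P.n (j + 1)
        set z := σ - ζ
        simp only [Complex.mul_im, Complex.mul_re, Complex.I_re, Complex.I_im, Complex.conj_re,
          Complex.conj_im]
        ring
      have hw2 : w = ((‖a‖ ^ 2 : ℝ) : ℂ) * (P.e j * conj (σ - ζ)) := by
        rw [hw, huA]; ring
      rw [hw2, Complex.im_ofReal_mul, him]
      have := hζOm (j + 1)
      positivity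
  rw [hQ]
  refine ⟨Complex.ofReal_im _, ?_⟩
  rw [Complex.ofReal_re]
  have := Real.pi_pos
  positivity

/-- Pointwise Cauchy-Schwarz. -/
lemma Q_cs (hs : ∑ i, E i = 1) (ho : ∀ i j, E i * E j = if i = j then E i else 0)
    (hlam : ∀ i, lam i ∈ P.Om)
    (hW : ∀ v : V, ‖v‖ = 1 → inner ℂ v ((∑ i, lam i • E i) v) ∈ P.Om)
    (j : ℕ) (s : ℝ) (u v : V) {a : ℝ} (ha : 0 < a) :
    ‖Q P lam E j s u v‖ ≤ (a * (Q P lam E j s u u).re + (Q P lam E j s v v).re / a) / 2 := by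
  obtain ⟨ω, hω, hωQ⟩ := exists_unit (Q P lam E j s u v)
  have h1 := (Q_self hs ho hlam hW j s ((((a : ℝ) : ℂ) * ω) • u - v)).2
  rw [Q_sq] at h1
  have h2 : ‖((a : ℝ) : ℂ) * ω‖ = a := by
    rw [norm_mul, hω, mul_one, Complex.norm_real, Real.norm_of_nonneg ha.le]
  have h3 : ((((a : ℝ) : ℂ) * ω) * Q P lam E j s u v).re = a * ‖Q P lam E j s u v‖ := by
    rw [mul_assoc, hωQ, ← Complex.ofReal_mul, Complex.ofReal_re]
  rw [h2, h3] at h1
  have h4 : (a * (Q P lam E j s u u).re + (Q P lam E j s v v).re / a) / 2 - ‖Q P lam E j s u v‖ =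
      (a ^ 2 * (Q P lam E j s u u).re - 2 * (a * ‖Q P lam E j s u v‖) + (Q P lam E j s v v).re) / (2 * a) := by
    field_simp
    ring
  have h5 : 0 ≤ (a ^ 2 * (Q P lam E j s u u).re - 2 * (a * ‖Q P lam E j s u v‖) + (Q P lam E j s v v).re) / (2 * a) :=
    div_nonneg h1 (by positivity)
  linarith

/-- The integrated form of a pointwise bound. -/
lemma norm_sum_int_le {g : ℕ → ℝ → ℂ} {G : ℕ → ℝ → ℝ}
    (hG : ∀ j, ContinuousOn (G j) (Set.Icc 0 (P.l j)))
    (hle : ∀ j, ∀ s ∈ Set.Icc 0 (P.l j), ‖g j s‖ ≤ G j s) :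
    ‖∑ j ∈ range P.N, ∫ s in (0 : ℝ)..P.l j, g j s‖ ≤
      ∑ j ∈ range P.N, ∫ s in (0 : ℝ)..P.l j, G j s := by
  refine (norm_sum_le _ _).trans (Finset.sum_le_sum fun j _ => ?_)
  refine intervalIntegral.norm_integral_le_of_norm_le (P.l_pos j).le ?_ (int_of_onR (hG j))
  exact Filter.Eventually.of_forall fun s hs => hle j s ⟨hs.1.le, hs.2⟩

/-- The total mass. -/
lemma mass_eq (hlam : ∀ i, lam i ∈ P.Om) (hs : ∑ i, E i = 1)
    (hself : ∀ j s (u : V), (Q P lam E j s u u).im = 0) (u : V) :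
    ∑ j ∈ range P.N, ∫ s in (0 : ℝ)..P.l j, (Q P lam E j s u u).re = 2 * ‖u‖ ^ 2 := by
  have h1 : DiffContOnCl ℂ (fun _ : ℂ => (1 : ℂ)) P.Om := diffContOnCl_const
  have h2 := I_eq (E := E) hlam h1 u u
  have h3 : th lam E (P.hat fun _ => (1 : ℂ)) = 1 := by
    rw [← th_one (lam := lam) (E := E) hs]
    apply th_congr
    intro i
    rw [P.hat_apply_Om _ (hlam i)]
    have h4 : (fun w : ℂ => conj (1 : ℂ)) = fun _ => (1 : ℂ) := by simp
    simp only [h4]
    exact P.cauchy h1 (hlam i)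
  rw [h3, th_one hs] at h2
  have h5 : I P lam E (fun _ => 1) u u =
      ((∑ j ∈ range P.N, ∫ s in (0 : ℝ)..P.l j, (Q P lam E j s u u).re : ℝ) : ℂ) := by
    unfold I
    push_cast
    apply Finset.sum_congr rfl
    intro j _
    rw [intervalIntegral.integral_ofReal.symm]
    apply intervalIntegral.integral_congr
    intro s _
    simp only [one_mul]
    apply Complex.ext
    · simp
    · simp [hself j s u]
  have h6 : inner ℂ u u = ((‖u‖ ^ 2 : ℝ) : ℂ) := by
    rw [inner_self_eq_norm_sq_to_K]; push_cast; rfl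
  rw [h5] at h2
  simp only [ContinuousLinearMap.one_apply, h6] at h2
  have h7 := congrArg Complex.re h2
  simp only [Complex.ofReal_re, Complex.add_re] at h7
  rw [h7]
  ring

end Form

/-- Spectral data on a polygon. -/
structure Sp (P : Poly) (lam : ι → ℂ) (E : ι → V →L[ℂ] V) : Prop where
  hlam : ∀ i, lam i ∈ P.Om
  hs : ∑ i, E i = 1
  ho : ∀ i j, E i * E j = if i = j then E i else 0
  hW : ∀ v : V, ‖v‖ = 1 → inner ℂ v ((∑ i, lam i • E i) v) ∈ P.Om

section Bounds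
variable {P : Poly} {lam : ι → ℂ} {E : ι → V →L[ℂ] V}

lemma Sp.cs (S : Sp P lam E) (j : ℕ) (s : ℝ) (u v : V) {a : ℝ} (ha : 0 < a) :
    ‖Q P lam E j s u v‖ ≤ (a * (Q P lam E j s u u).re + (Q P lam E j s v v).re / a) / 2 :=
  Q_cs S.hs S.ho S.hlam S.hW j s u v ha

lemma Sp.self (S : Sp P lam E) (j : ℕ) (s : ℝ) (u : V) :
    (Q P lam E j s u u).im = 0 ∧ 0 ≤ (Q P lam E j s u u).re :=
  Q_self S.hs S.ho S.hlam S.hW j s u

lemma Sp.mass (S : Sp P lam E) (u : V) :
    ∑ j ∈ range P.N, ∫ s in (0 : ℝ)..P.l j, (Q P lam E j s u u).re = 2 * ‖u‖ ^ 2 :=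
  mass_eq S.hlam S.hs (fun j s u => (S.self j s u).1) u

lemma Sp.Qre_cont (S : Sp P lam E) (j : ℕ) (u : V) :
    ContinuousOn (fun s => (Q P lam E j s u u).re) (Set.Icc 0 (P.l j)) :=
  (Complex.continuous_re.comp (Q_cont S.hlam j u u)).continuousOn

lemma Sp.fQ_cont (S : Sp P lam E) {f : ℂ → ℂ} (hf : ContinuousOn f P.C) (j : ℕ) (u v : V) :
    ContinuousOn (fun s => f (P.σ j s) * Q P lam E j s u v) (Set.Icc 0 (P.l j)) :=
  (comp_cont hf j).mul (Q_cont S.hlam j u v).continuousOn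

lemma Sp.re_I (S : Sp P lam E) {f : ℂ → ℂ} (hf : ContinuousOn f P.C) (u v : V) :
    (I P lam E f u v).re =
      ∑ j ∈ range P.N, ∫ s in (0 : ℝ)..P.l j, (f (P.σ j s) * Q P lam E j s u v).re := by
  unfold I
  rw [Complex.re_sum]
  apply Finset.sum_congr rfl
  intro j _
  have h := Complex.reCLM.intervalIntegral_comp_comm (a := 0) (b := P.l j) (int_of_on (S.fQ_cont hf j u v))
  simpa using h.symm

lemma Sp.I_bound (S : Sp P lam E) {f : ℂ → ℂ} (hf : ContinuousOn f P.C)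
    (hf1 : ∀ z ∈ P.C, ‖f z‖ ≤ 1) {x y : V} (hx : ‖x‖ = 1) (hy : ‖y‖ = 1) :
    ‖I P lam E f x y‖ ≤ 2 := by
  have h1 := norm_sum_int_le (P := P)
    (g := fun j s => f (P.σ j s) * Q P lam E j s x y)
    (G := fun j s => ((Q P lam E j s x x).re + (Q P lam E j s y y).re) / 2)
    (fun j => ((S.Qre_cont j x).add (S.Qre_cont j y)).div_const 2)
    (fun j s hs => by
      rw [norm_mul]
      have h2 := S.cs j s x y (a := 1) one_pos
      have h3 := hf1 _ (σ_mem hs)
      have h4 := norm_nonneg (Q P lam E j s x y)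
      simp only [one_mul, div_one] at h2
      nlinarith [norm_nonneg (f (P.σ j s))])
  have h5 : ∑ j ∈ range P.N, ∫ s in (0 : ℝ)..P.l j,
      ((Q P lam E j s x x).re + (Q P lam E j s y y).re) / 2 = 2 := by
    have h6 : ∀ j ∈ range P.N, ∫ s in (0 : ℝ)..P.l j,
        ((Q P lam E j s x x).re + (Q P lam E j s y y).re) / 2 =
        (∫ s in (0 : ℝ)..P.l j, (Q P lam E j s x x).re) / 2 +
          (∫ s in (0 : ℝ)..P.l j, (Q P lam E j s y y).re) / 2 := by
      intro j _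
      rw [intervalIntegral.integral_div, intervalIntegral.integral_add
        (int_of_onR (S.Qre_cont j x)) (int_of_onR (S.Qre_cont j y))]
      ring
    rw [Finset.sum_congr rfl h6, Finset.sum_add_distrib, ← Finset.sum_div, ← Finset.sum_div,
      S.mass, S.mass, hx, hy]
    norm_num
  rw [h5] at h1
  exact h1

lemma Sp.I_diff (S : Sp P lam E) {f h : ℂ → ℂ} (hf : ContinuousOn f P.C)
    (hf1 : ∀ z ∈ P.C, ‖f z‖ ≤ 1) (hh : ContinuousOn h P.C) (hh1 : ∀ z ∈ P.C, ‖h z‖ ≤ 1)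
    {x y u : V} (hx : ‖x‖ = 1) (hy : ‖y‖ = 1) (hu : ‖u‖ = 1) {a : ℝ} (ha : 0 < a) :
    ‖I P lam E h y u - I P lam E (fun z => h z * f z) x u‖ ≤
      a * (2 - (I P lam E f x y).re) + 1 / a := by
  have hre : ∀ j, ContinuousOn (fun s => (f (P.σ j s) * Q P lam E j s x y).re) (Set.Icc 0 (P.l j)) :=
    fun j => Complex.continuous_re.comp_continuousOn (S.fQ_cont hf j x y)
  have hsplit : I P lam E h y u - I P lam E (fun z => h z * f z) x u =
      ∑ j ∈ range P.N, ∫ s in (0 : ℝ)..P.l j,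
        (h (P.σ j s) * Q P lam E j s y u - (h (P.σ j s) * f (P.σ j s)) * Q P lam E j s x u) := by
    unfold I
    rw [← Finset.sum_sub_distrib]
    apply Finset.sum_congr rfl
    intro j _
    have e1 := int_of_on (S.fQ_cont hh j y u)
    have e2 : IntervalIntegrable (fun s => (h (P.σ j s) * f (P.σ j s)) * Q P lam E j s x u)
        MeasureTheory.volume 0 (P.l j) := int_of_on (S.fQ_cont (f := fun z => h z * f z) (hh.mul hf) j x u)
    exact (intervalIntegral.integral_sub e1 e2).symm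
  rw [hsplit]
  have h1 := norm_sum_int_le (P := P)
    (g := fun j s => (h (P.σ j s) * Q P lam E j s y u - (h (P.σ j s) * f (P.σ j s)) * Q P lam E j s x u))
    (G := fun j s => (a * ((Q P lam E j s x x).re - 2 * (f (P.σ j s) * Q P lam E j s x y).re
        + (Q P lam E j s y y).re) + (Q P lam E j s u u).re / a) / 2)
    (fun j => ((continuousOn_const.mul (((S.Qre_cont j x).sub (continuousOn_const.mul (hre j))).add
      (S.Qre_cont j y))).add ((S.Qre_cont j u).div_const a)).div_const 2)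
    (fun j s hs => by
      have hσ := σ_mem hs
      have hfσ := hf1 _ hσ
      have hhσ := hh1 _ hσ
      set c := f (P.σ j s) with hc
      have h2 : h (P.σ j s) * Q P lam E j s y u - (h (P.σ j s) * c) * Q P lam E j s x u =
          -(h (P.σ j s) * Q P lam E j s (c • x - y) u) := by
        rw [Q_sub_left]; ring
      rw [h2, norm_neg, norm_mul]
      have h3 := S.cs j s (c • x - y) u ha
      rw [Q_sq] at h3
      have h4 := (S.self j s x).2
      have h5 : ‖c‖ ^ 2 * (Q P lam E j s x x).re ≤ (Q P lam E j s x x).re := by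
        have : ‖c‖ ^ 2 ≤ 1 := by
          have := norm_nonneg c
          nlinarith
        nlinarith
      have h6 : ‖Q P lam E j s (c • x - y) u‖ ≤
          (a * ((Q P lam E j s x x).re - 2 * (c * Q P lam E j s x y).re + (Q P lam E j s y y).re)
            + (Q P lam E j s u u).re / a) / 2 := by
        refine h3.trans ?_
        have : a * (‖c‖ ^ 2 * (Q P lam E j s x x).re) ≤ a * (Q P lam E j s x x).re :=
          mul_le_mul_of_nonneg_left h5 ha.le
        nlinarith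
      have h7 := norm_nonneg (Q P lam E j s (c • x - y) u)
      have h8 := norm_nonneg (h (P.σ j s))
      nlinarith)
  refine h1.trans (le_of_eq ?_)
  have h9 : ∀ j ∈ range P.N, ∫ s in (0 : ℝ)..P.l j,
      (a * ((Q P lam E j s x x).re - 2 * (f (P.σ j s) * Q P lam E j s x y).re
        + (Q P lam E j s y y).re) + (Q P lam E j s u u).re / a) / 2 =
      a / 2 * (∫ s in (0 : ℝ)..P.l j, (Q P lam E j s x x).re)
        - a * (∫ s in (0 : ℝ)..P.l j, (f (P.σ j s) * Q P lam E j s x y).re)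
        + a / 2 * (∫ s in (0 : ℝ)..P.l j, (Q P lam E j s y y).re)
        + (∫ s in (0 : ℝ)..P.l j, (Q P lam E j s u u).re) / (2 * a) := by
    intro j _
    have e1 := int_of_onR (S.Qre_cont j x)
    have e2 := int_of_onR (hre j)
    have e3 := int_of_onR (S.Qre_cont j y)
    have e4 := int_of_onR (S.Qre_cont j u)
    have hfun : ∀ s, (a * ((Q P lam E j s x x).re - 2 * (f (P.σ j s) * Q P lam E j s x y).re
        + (Q P lam E j s y y).re) + (Q P lam E j s u u).re / a) / 2 =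
        a / 2 * (Q P lam E j s x x).re - a * (f (P.σ j s) * Q P lam E j s x y).re
          + a / 2 * (Q P lam E j s y y).re + (Q P lam E j s u u).re / (2 * a) := by
      intro s; field_simp
    simp only [hfun]
    rw [intervalIntegral.integral_add, intervalIntegral.integral_add, intervalIntegral.integral_sub,
      intervalIntegral.integral_const_mul, intervalIntegral.integral_const_mul,
      intervalIntegral.integral_const_mul, intervalIntegral.integral_div]
    · exact e1.const_mul _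
    · exact e2.const_mul _
    · exact (e1.const_mul _).sub (e2.const_mul _)
    · exact e3.const_mul _
    · exact ((e1.const_mul _).sub (e2.const_mul _)).add (e3.const_mul _)
    · exact e4.div_const _
  rw [Finset.sum_congr rfl h9, Finset.sum_add_distrib, Finset.sum_add_distrib, Finset.sum_sub_distrib,
    ← Finset.mul_sum, ← Finset.mul_sum, ← Finset.mul_sum, ← Finset.sum_div, S.mass, S.mass, S.mass,
    S.re_I hf, hx, hy, hu]
  field_simp
  ring

end Bounds

/-- Near extremal situation. -/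
structure NE (P : Poly) (lam : ι → ℂ) (E : ι → V →L[ℂ] V) (ρ t : ℝ) (f : ℂ → ℂ) (x y : V) : Prop where
  S : Sp P lam E
  hρ0 : 0 < ρ
  hρ1 : ρ ≤ 1 / 10
  hf : DiffContOnCl ℂ f P.Om
  hf1 : ∀ z ∈ P.C, ‖f z‖ ≤ 1
  hx : ‖x‖ = 1
  hy : ‖y‖ = 1
  hT : th lam E f x = (t : ℂ) • y
  hTa : ∀ w, inner ℂ y (th lam E f w) = (t : ℂ) * inner ℂ x w
  ht : 1 + Real.sqrt 2 - ρ ^ 8 ≤ t
  hK : ∀ g : ℂ → ℂ, DiffContOnCl ℂ g P.Om → (∀ z ∈ P.C, ‖g z‖ ≤ 1) → ‖th lam E g‖ ≤ t + ρ ^ 8

section Near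
variable {P : Poly} {lam : ι → ℂ} {E : ι → V →L[ℂ] V} {ρ t : ℝ} {f : ℂ → ℂ} {x y : V}

lemma dmul {g h : ℂ → ℂ} (hg : DiffContOnCl ℂ g P.Om) (hh : DiffContOnCl ℂ h P.Om) :
    DiffContOnCl ℂ (fun z => g z * h z) P.Om :=
  ⟨hg.differentiableOn.mul hh.differentiableOn, hg.continuousOn.mul hh.continuousOn⟩

lemma dadd {g h : ℂ → ℂ} (hg : DiffContOnCl ℂ g P.Om) (hh : DiffContOnCl ℂ h P.Om) :
    DiffContOnCl ℂ (fun z => g z + h z) P.Om :=
  ⟨hg.differentiableOn.add hh.differentiableOn, hg.continuousOn.add hh.continuousOn⟩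

lemma dsub {g h : ℂ → ℂ} (hg : DiffContOnCl ℂ g P.Om) (hh : DiffContOnCl ℂ h P.Om) :
    DiffContOnCl ℂ (fun z => g z - h z) P.Om :=
  ⟨hg.differentiableOn.sub hh.differentiableOn, hg.continuousOn.sub hh.continuousOn⟩

lemma dconst (c : ℂ) : DiffContOnCl ℂ (fun _ : ℂ => c) P.Om := diffContOnCl_const

lemma dcont {g : ℂ → ℂ} (hg : DiffContOnCl ℂ g P.Om) : ContinuousOn g P.C := by
  have := hg.continuousOn
  rwa [P.closure_Om] at this

/-- The almost state. -/
def La (lam : ι → ℂ) (E : ι → V →L[ℂ] V) (x : V) (h : ℂ → ℂ) : ℂ := inner ℂ x (th lam E h x)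

lemma NE.t_two (N : NE P lam E ρ t f x y) : 2 ≤ t := by
  have h1 : (1.41 : ℝ) ≤ Real.sqrt 2 := Real.le_sqrt_of_sq_le (by norm_num)
  have h2 : ρ ^ 8 ≤ (1 / 10) ^ 8 := pow_le_pow_left₀ N.hρ0.le N.hρ1 8
  have := N.ht
  norm_num at h2
  linarith

lemma NE.t_pos (N : NE P lam E ρ t f x y) : 0 < t := by
  have := N.t_two; linarith

lemma NE.tc (N : NE P lam E ρ t f x y) : (t : ℂ) ≠ 0 := by
  exact_mod_cast N.t_pos.ne'

lemma NE.xx (N : NE P lam E ρ t f x y) : inner ℂ x x = (1 : ℂ) := by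
  rw [inner_self_eq_norm_sq_to_K, N.hx]; simp

lemma NE.yy (N : NE P lam E ρ t f x y) : inner ℂ y y = (1 : ℂ) := by
  rw [inner_self_eq_norm_sq_to_K, N.hy]; simp

lemma La_add (g h : ℂ → ℂ) : La lam E x (fun z => g z + h z) = La lam E x g + La lam E x h := by
  unfold La; rw [th_add]; simp [inner_add_right]

lemma La_sub (g h : ℂ → ℂ) : La lam E x (fun z => g z - h z) = La lam E x g - La lam E x h := by
  unfold La; rw [th_sub]; simp [inner_sub_right]

lemma La_cmul (c : ℂ) (h : ℂ → ℂ) : La lam E x (fun z => c * h z) = c * La lam E x h := by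
  unfold La; rw [th_cmul]; simp [inner_smul_right]

lemma La_congr {g h : ℂ → ℂ} (H : ∀ i, g (lam i) = h (lam i)) : La lam E x g = La lam E x h := by
  unfold La; rw [th_congr H]

lemma NE.La_const (N : NE P lam E ρ t f x y) (c : ℂ) : La lam E x (fun _ => c) = c := by
  unfold La
  rw [th_const N.S.hs]
  simp [inner_smul_right, N.hx]

/-- `Λ` is also given by `y`. -/
lemma NE.La_y (N : NE P lam E ρ t f x y) (h : ℂ → ℂ) : inner ℂ y (th lam E h y) = La lam E x h := by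
  have h1 : th lam E h (th lam E f x) = th lam E f (th lam E h x) := by
    have := th_comm (lam := lam) (E := E) N.S.ho h f
    exact congrArg (fun T : V →L[ℂ] V => T x) this
  rw [N.hT, map_smul] at h1
  have h2 := congrArg (fun w => inner ℂ y w) h1
  simp only [inner_smul_right, N.hTa] at h2
  exact mul_left_cancel₀ N.tc h2

/-- `⟨θ(g) y, x⟩` in terms of `Λ`. -/
lemma NE.inner_y_x (N : NE P lam E ρ t f x y) (g : ℂ → ℂ) :
    inner ℂ (th lam E g y) x = (t : ℂ)⁻¹ * conj (La lam E x (fun z => g z * f z)) := by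
  have h1 : th lam E (fun z => g z * f z) x = (t : ℂ) • th lam E g y := by
    rw [th_mul N.S.ho, ContinuousLinearMap.mul_apply, N.hT, map_smul]
  unfold La
  rw [h1, inner_smul_right, map_mul, Complex.conj_ofReal, inner_conj_symm]
  field_simp [N.tc]

/-- `⟨y, θ(k f) x⟩ = t Λ(k)`. -/
lemma NE.inner_kf (N : NE P lam E ρ t f x y) (k : ℂ → ℂ) :
    inner ℂ y (th lam E (fun z => k z * f z) x) = (t : ℂ) * La lam E x k := by
  rw [th_mul N.S.ho, ContinuousLinearMap.mul_apply, N.hT, map_smul, inner_smul_right, N.La_y]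

/-- Almost contractivity of `Λ`. -/
lemma NE.norm_La (N : NE P lam E ρ t f x y) {h : ℂ → ℂ} (hh : DiffContOnCl ℂ h P.Om)
    (hh1 : ∀ z ∈ P.C, ‖h z‖ ≤ 1) : ‖La lam E x h‖ ≤ 1 + 2 * ρ ^ 4 := by
  obtain ⟨ω, hω, hωL⟩ := exists_unit (La lam E x h)
  have hρ0 := N.hρ0
  set ε := ρ ^ 4 with hε
  have hε0 : 0 < ε := by positivity
  have hε1 : ε ≤ 1 := by
    have : ρ ^ 4 ≤ (1 / 10) ^ 4 := pow_le_pow_left₀ hρ0.le N.hρ1 4
    norm_num at this
    rw [hε]; linarith
  have hq : 0 < 1 + ε := by linarith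
  have hqc : ((1 + ε : ℝ) : ℂ) ≠ 0 := by exact_mod_cast hq.ne'
  set g : ℂ → ℂ := fun z => ((1 + ε : ℝ) : ℂ)⁻¹ * (f z * (1 + (ε * ω) * h z)) with hg
  have hgd : DiffContOnCl ℂ g P.Om :=
    dmul (dconst _) (dmul N.hf (dadd (dconst 1) (dmul (dconst _) hh)))
  have hg1 : ∀ z ∈ P.C, ‖g z‖ ≤ 1 := by
    intro z hz
    simp only [hg, norm_mul, norm_inv, Complex.norm_real, Real.norm_of_nonneg hq.le]
    have h1 : ‖(1 : ℂ) + (ε * ω) * h z‖ ≤ 1 + ε := by
      refine (norm_add_le _ _).trans ?_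
      rw [norm_one, norm_mul, norm_mul, hω, mul_one, Complex.norm_real, Real.norm_of_nonneg hε0.le]
      have := hh1 z hz
      nlinarith
    have h2 := N.hf1 z hz
    rw [inv_mul_le_iff₀ hq, mul_one]
    calc ‖f z‖ * ‖(1 : ℂ) + (ε * ω) * h z‖ ≤ 1 * (1 + ε) :=
          mul_le_mul h2 h1 (norm_nonneg _) (by norm_num)
      _ = 1 + ε := one_mul _
  have h3 : inner ℂ y (th lam E g x) =
      ((((1 + ε)⁻¹ * t * (1 + ε * ‖La lam E x h‖) : ℝ)) : ℂ) := by
    have e1 : th lam E g = ((1 + ε : ℝ) : ℂ)⁻¹ • th lam E (fun z => f z * (1 + (ε * ω) * h z)) :=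
      th_cmul _ _
    rw [e1]
    have e2 : th lam E (fun z => f z * (1 + (ε * ω) * h z)) =
        th lam E f * (th lam E (fun _ => 1) + ((ε : ℂ) * ω) • th lam E h) := by
      rw [th_mul N.S.ho, th_add, th_cmul]
    rw [e2, th_one N.S.hs]
    simp only [ContinuousLinearMap.smul_apply, ContinuousLinearMap.mul_apply,
      ContinuousLinearMap.add_apply, ContinuousLinearMap.one_apply]
    rw [inner_smul_right, N.hTa, inner_add_right, inner_smul_right, N.xx]
    have e3 : inner ℂ x (th lam E h x) = La lam E x h := rfl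
    rw [e3]
    have e4 : (ε : ℂ) * ω * La lam E x h = (ε : ℂ) * (‖La lam E x h‖ : ℂ) := by
      rw [mul_assoc, hωL]
    rw [e4]
    push_cast
    ring
  have h4 : ‖inner ℂ y (th lam E g x)‖ ≤ t + ρ ^ 8 := by
    calc ‖inner ℂ y (th lam E g x)‖ ≤ ‖y‖ * ‖th lam E g x‖ := norm_inner_le_norm _ _
      _ ≤ ‖y‖ * (‖th lam E g‖ * ‖x‖) := by
          gcongr
          exact (th lam E g).le_opNorm x
      _ = ‖th lam E g‖ := by rw [N.hx, N.hy]; ring
      _ ≤ t + ρ ^ 8 := N.hK g hgd hg1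
  rw [h3, Complex.norm_real, Real.norm_eq_abs] at h4
  have h5 := (le_abs_self _).trans h4
  have htp := N.t_pos
  have ht2 := N.t_two
  set L := ‖La lam E x h‖ with hL
  have hL0 : 0 ≤ L := norm_nonneg _
  rw [inv_mul_eq_div, div_mul_eq_mul_div, div_le_iff₀ hq] at h5
  have h8 : ρ ^ 8 = ε * ε := by rw [hε]; ring
  rw [h8] at h5
  have hfin : t * ε * L ≤ ε * (t + ε * (1 + ε)) := by nlinarith
  have hfin2 : t * L ≤ t + ε * (1 + ε) := by
    have : ε * (t * L) ≤ ε * (t + ε * (1 + ε)) := by nlinarith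
    exact le_of_mul_le_mul_left this hε0
  have hfin3 : L ≤ 1 + 2 * ε := by
    by_contra hcon
    push_neg at hcon
    nlinarith
  exact hfin3

/-- Almost positivity of `Λ`. -/
lemma NE.np (N : NE P lam E ρ t f x y) {k : ℂ → ℂ} (hk : DiffContOnCl ℂ k P.Om) {M : ℝ} (hM : 0 < M)
    (hkM : ∀ z ∈ P.C, ‖k z‖ ≤ M) (hkr : ∀ z ∈ P.C, 0 ≤ (k z).re) :
    -(3 * ρ ^ 2 * M) ≤ (La lam E x k).re := by
  have hρ0 := N.hρ0
  set r := ρ ^ 4 with hr
  have hr0 : 0 < r := by positivity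
  have hr1 : r ≤ 1 / 2 := by
    have : ρ ^ 4 ≤ (1 / 10) ^ 4 := pow_le_pow_left₀ hρ0.le N.hρ1 4
    norm_num at this
    rw [hr]; linarith
  set s := ρ ^ 2 / M with hs
  have hs0 : 0 < s := by positivity
  have hsM : s * M = ρ ^ 2 := by rw [hs]; field_simp
  set q := 1 + r / 2 with hq
  have hq0 : 0 < q := by positivity
  have hqc : ((q : ℝ) : ℂ) ≠ 0 := by exact_mod_cast hq0.ne'
  set h : ℂ → ℂ := fun z => ((q : ℝ) : ℂ)⁻¹ * (1 - (s : ℂ) * k z) with hh
  have hhd : DiffContOnCl ℂ h P.Om := dmul (dconst _) (dsub (dconst 1) (dmul (dconst _) hk))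
  have hh1 : ∀ z ∈ P.C, ‖h z‖ ≤ 1 := by
    intro z hz
    simp only [hh, norm_mul, norm_inv, Complex.norm_real, Real.norm_of_nonneg hq0.le]
    rw [inv_mul_le_iff₀ hq0, mul_one]
    have h1 : ‖(1 : ℂ) - (s : ℂ) * k z‖ ^ 2 ≤ q ^ 2 := by
      rw [Complex.sq_norm, Complex.normSq_apply]
      simp only [Complex.sub_re, Complex.one_re, Complex.re_ofReal_mul, Complex.sub_im, Complex.one_im,
        Complex.im_ofReal_mul]
      have h2 := hkM z hz
      have h3 := hkr z hz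
      have h4 : (k z).re * (k z).re + (k z).im * (k z).im ≤ M ^ 2 := by
        have : ‖k z‖ ^ 2 = (k z).re * (k z).re + (k z).im * (k z).im := by
          rw [Complex.sq_norm, Complex.normSq_apply]
        rw [← this]
        have := norm_nonneg (k z)
        nlinarith
      have h5 : s ^ 2 * ((k z).re * (k z).re + (k z).im * (k z).im) ≤ r := by
        calc s ^ 2 * ((k z).re * (k z).re + (k z).im * (k z).im) ≤ s ^ 2 * M ^ 2 := by gcongr
          _ = (s * M) ^ 2 := by ring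
          _ = r := by rw [hsM, hr]; ring
      have h6 : 0 ≤ s * (k z).re := by positivity
      rw [hq]
      nlinarith [sq_nonneg r]
    exact (pow_le_pow_iff_left₀ (norm_nonneg _) hq0.le (by norm_num)).mp h1
  have h7 := N.norm_La hhd hh1
  have h8 : La lam E x h = ((q : ℝ) : ℂ)⁻¹ * (1 - (s : ℂ) * La lam E x k) := by
    rw [hh, La_cmul, La_sub, N.La_const, La_cmul]
  have h9 : (La lam E x h).re = q⁻¹ * (1 - s * (La lam E x k).re) := by
    rw [h8, ← Complex.ofReal_inv, Complex.re_ofReal_mul]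
    simp
  have h10 := (Complex.re_le_norm _).trans h7
  rw [h9, inv_mul_le_iff₀ hq0] at h10
  have h11 : -(s * (La lam E x k).re) ≤ 3 * r := by
    have : q * (1 + 2 * ρ ^ 4) = (1 + r / 2) * (1 + 2 * r) := by rw [hq, hr]
    rw [this] at h10
    nlinarith
  have h12 : -(La lam E x k).re ≤ 3 * ρ ^ 2 * M := by
    have h13 : s * (-(La lam E x k).re) ≤ s * (3 * ρ ^ 2 * M) := by
      have : s * (3 * ρ ^ 2 * M) = 3 * ρ ^ 2 * (s * M) := by ring
      rw [this, hsM]
      have : r = ρ ^ 2 * ρ ^ 2 := by rw [hr]; ring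
      nlinarith
    exact le_of_mul_le_mul_left h13 hs0
  linarith

lemma NE.hat_le (N : NE P lam E ρ t f x y) {g : ℂ → ℂ} (hg : DiffContOnCl ℂ g P.Om)
    (hg1 : ∀ z ∈ P.C, ‖g z‖ ≤ 1) : ∀ z ∈ P.C, ‖P.hat g z‖ ≤ 1 := P.hat_bound hg hg1

lemma NE.w0d (N : NE P lam E ρ t f x y) : DiffContOnCl ℂ (P.w0 f) P.Om :=
  dadd (dconst 1) (dmul (P.hat_diffContOnCl N.hf) N.hf)

lemma NE.w0_le (N : NE P lam E ρ t f x y) : ∀ z ∈ P.C, ‖P.w0 f z‖ ≤ 2 := by
  intro z hz
  unfold Poly.w0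
  refine (norm_add_le _ _).trans ?_
  rw [norm_one, norm_mul]
  have h1 := N.hat_le N.hf N.hf1 z hz
  have h2 := N.hf1 z hz
  have := mul_le_mul h1 h2 (norm_nonneg _) (by norm_num)
  linarith

lemma NE.w0_re (N : NE P lam E ρ t f x y) : ∀ z ∈ P.C, 0 ≤ (P.w0 f z).re := by
  intro z hz
  unfold Poly.w0
  have h1 := N.hat_le N.hf N.hf1 z hz
  have h2 := N.hf1 z hz
  have h3 := mul_le_mul h1 h2 (norm_nonneg _) (by norm_num)
  have h4 := Complex.abs_re_le_norm (P.hat f z * f z)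
  rw [norm_mul] at h4
  have h5 := neg_abs_le (P.hat f z * f z).re
  simp only [Complex.add_re, Complex.one_re]
  linarith

lemma NE.La_w0 (N : NE P lam E ρ t f x y) :
    La lam E x (P.w0 f) = 1 + La lam E x (fun z => P.hat f z * f z) := by
  have : La lam E x (P.w0 f) = La lam E x (fun z => 1 + P.hat f z * f z) := rfl
  rw [this, La_add, N.La_const]

/-- The value of the double form at `(f, x, y)`. -/
lemma NE.I_f (N : NE P lam E ρ t f x y) :
    I P lam E f x y = t + (t : ℂ)⁻¹ * conj (La lam E x (fun z => P.hat f z * f z)) := by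
  rw [I_eq N.S.hlam N.hf, N.hTa, N.xx, mul_one, N.inner_y_x]

lemma NE.re_I_f (N : NE P lam E ρ t f x y) :
    (I P lam E f x y).re = t + ((La lam E x (P.w0 f)).re - 1) / t := by
  rw [N.I_f, N.La_w0, ← Complex.ofReal_inv, Complex.add_re, Complex.re_ofReal_mul, Complex.ofReal_re,
    Complex.conj_re]
  simp only [Complex.add_re, Complex.one_re]
  field_simp
  ring

lemma NE.a_ge (N : NE P lam E ρ t f x y) : -(6 * ρ ^ 2) ≤ (La lam E x (P.w0 f)).re := by
  have := N.np N.w0d (M := 2) (by norm_num) N.w0_le N.w0_re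
  linarith

lemma NE.I_le (N : NE P lam E ρ t f x y) : (I P lam E f x y).re ≤ 2 :=
  (Complex.re_le_norm _).trans (N.S.I_bound (dcont N.hf) N.hf1 N.hx N.hy)

lemma NE.a_le (N : NE P lam E ρ t f x y) :
    (La lam E x (P.w0 f)).re ≤ 1 + 2 * t - t ^ 2 := by
  have h1 := N.I_le
  rw [N.re_I_f] at h1
  have htp := N.t_pos
  have h2 : ((La lam E x (P.w0 f)).re - 1) / t ≤ 2 - t := by linarith
  rw [div_le_iff₀ htp] at h2
  nlinarith

lemma NE.rho_small (N : NE P lam E ρ t f x y) : ρ ^ 8 ≤ ρ ^ 2 / 100 := by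
  have hρ0 := N.hρ0
  have h1 : ρ ^ 6 ≤ (1 / 10) ^ 6 := pow_le_pow_left₀ hρ0.le N.hρ1 6
  have h2 : ρ ^ 8 = ρ ^ 2 * ρ ^ 6 := by ring
  rw [h2]
  have h3 : (0 : ℝ) ≤ ρ ^ 2 := by positivity
  norm_num at h1
  nlinarith

/-- `t` is close to the root of `t² - 2t - 1`. -/
lemma NE.F_ge (N : NE P lam E ρ t f x y) : -(3 * ρ ^ 8) ≤ t ^ 2 - 2 * t - 1 := by
  have hs2 : Real.sqrt 2 ^ 2 = 2 := Real.sq_sqrt (by norm_num)
  have hs3 : Real.sqrt 2 ≤ 1.42 := by
    rw [Real.sqrt_le_left (by norm_num)]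
    norm_num
  have hs0 := Real.sqrt_nonneg 2
  set r := Real.sqrt 2
  have ht := N.ht
  have hu : t ^ 2 - 2 * t - 1 = (t - 1 - r) ^ 2 + 2 * r * (t - 1 - r) := by
    ring_nf
    nlinarith
  rw [hu]
  have h8 : 0 ≤ ρ ^ 8 := by have := N.hρ0; positivity
  have h2 : -ρ ^ 8 ≤ t - 1 - r := by linarith
  have h3 : 2 * r * (-ρ ^ 8) ≤ 2 * r * (t - 1 - r) := by
    apply mul_le_mul_of_nonneg_left h2; positivity
  nlinarith [sq_nonneg (t - 1 - r)]

lemma NE.a_small (N : NE P lam E ρ t f x y) : (La lam E x (P.w0 f)).re ≤ 3 * ρ ^ 8 := by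
  have h1 := N.a_le
  have h2 := N.F_ge
  linarith

lemma NE.F_le (N : NE P lam E ρ t f x y) : t ^ 2 - 2 * t - 1 ≤ 6 * ρ ^ 2 := by
  have h1 := N.a_le
  have h2 := N.a_ge
  linarith

lemma NE.def1 (N : NE P lam E ρ t f x y) : 2 - (I P lam E f x y).re ≤ 4 * ρ ^ 2 := by
  rw [N.re_I_f]
  have htp := N.t_pos
  have ht2 := N.t_two
  have h1 := N.F_ge
  have h2 := N.a_ge
  have h3 := N.rho_small
  have h4 : (0 : ℝ) ≤ ρ ^ 2 := by positivity
  have h5 : 2 - (t + ((La lam E x (P.w0 f)).re - 1) / t) =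
      (-(t ^ 2 - 2 * t - 1) - (La lam E x (P.w0 f)).re) / t := by
    field_simp
    ring
  rw [h5, div_le_iff₀ htp]
  nlinarith

/-- The bound on `Λ(h₁)`. -/
lemma NE.h1 (N : NE P lam E ρ t f x y) {k : ℂ → ℂ} (hk : DiffContOnCl ℂ k P.Om)
    (hk1 : ∀ z ∈ P.C, ‖k z‖ ≤ 1) :
    ‖La lam E x (fun z => P.hat (fun w => k w * f w) z * f z + P.hat k z)‖ ≤ 8 * ρ := by
  have hρ0 := N.hρ0
  have hρ1 := N.hρ1
  set h₁ : ℂ → ℂ := fun z => P.hat (fun w => k w * f w) z * f z + P.hat k z with hh₁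
  have hkf : DiffContOnCl ℂ (fun w => k w * f w) P.Om := dmul hk N.hf
  have hkf1 : ∀ z ∈ P.C, ‖k z * f z‖ ≤ 1 := by
    intro z hz
    rw [norm_mul]
    have := mul_le_mul (hk1 z hz) (N.hf1 z hz) (norm_nonneg _) (by norm_num)
    linarith
  have hh₁d : DiffContOnCl ℂ h₁ P.Om :=
    dadd (dmul (P.hat_diffContOnCl hkf) N.hf) (P.hat_diffContOnCl hk)
  have hh₁2 : ∀ z ∈ P.C, ‖h₁ z‖ ≤ 2 := by
    intro z hz
    simp only [hh₁]
    refine (norm_add_le _ _).trans ?_
    rw [norm_mul]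
    have h1 := P.hat_bound hkf hkf1 z hz
    have h2 := N.hf1 z hz
    have h3 := P.hat_bound hk hk1 z hz
    have := mul_le_mul h1 h2 (norm_nonneg _) (by norm_num)
    linarith
  obtain ⟨ω, hω, hωL⟩ := exists_unit (La lam E x h₁)
  set A : ℝ := 1 / ρ with hA
  have hA0 : 0 < A := by positivity
  have hAρ : A * ρ = 1 := by rw [hA]; field_simp
  set u : ℂ → ℂ := fun z => (A : ℂ) * P.w0 f z - ω * h₁ z + ((1 / (2 * A) : ℝ) : ℂ) with hu
  have hud : DiffContOnCl ℂ u P.Om :=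
    dadd (dsub (dmul (dconst _) N.w0d) (dmul (dconst _) hh₁d)) (dconst _)
  have hu_side : ∀ p, P.SideInt p → 0 ≤ (u p).re := by
    intro p hp
    have h1 := P.h1_bound hk N.hf hk1 N.hf1 hp
    have h2 : ‖h₁ p‖ ^ 2 ≤ 2 * (P.w0 f p).re := h1
    have h3 : (ω * h₁ p).re ≤ ‖h₁ p‖ := by
      refine (Complex.re_le_norm _).trans ?_
      rw [norm_mul, hω, one_mul]
    simp only [hu, Complex.add_re, Complex.sub_re, Complex.re_ofReal_mul, Complex.ofReal_re]
    have h4 : 0 ≤ (A * ‖h₁ p‖ - 1) ^ 2 / (2 * A) := by positivity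
    have h5 : (A * ‖h₁ p‖ - 1) ^ 2 / (2 * A) = A * (‖h₁ p‖ ^ 2 / 2) - ‖h₁ p‖ + 1 / (2 * A) := by
      field_simp
      ring
    have h6 : A * (‖h₁ p‖ ^ 2 / 2) ≤ A * (P.w0 f p).re :=
      mul_le_mul_of_nonneg_left (by linarith) hA0.le
    linarith
  have hu_re := P.re_nonneg_of_side hud hu_side
  have hMu : 0 < 2 * A + 2 + 1 / (2 * A) := by positivity
  have hu_le : ∀ z ∈ P.C, ‖u z‖ ≤ 2 * A + 2 + 1 / (2 * A) := by
    intro z hz
    simp only [hu]
    refine (norm_add_le _ _).trans ?_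
    rw [Complex.norm_real, Real.norm_of_nonneg (by positivity)]
    have h1 : ‖(A : ℂ) * P.w0 f z - ω * h₁ z‖ ≤ 2 * A + 2 := by
      refine (norm_sub_le _ _).trans ?_
      rw [norm_mul, norm_mul, hω, one_mul, Complex.norm_real, Real.norm_of_nonneg hA0.le]
      have h2 := N.w0_le z hz
      have h3 := hh₁2 z hz
      nlinarith
    linarith
  have h7 := N.np hud hMu hu_le hu_re
  have h8 : La lam E x u = (A : ℂ) * La lam E x (P.w0 f) - ω * La lam E x h₁ + ((1 / (2 * A) : ℝ) : ℂ) := by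
    simp only [hu]
    rw [La_add, La_sub, La_cmul, La_cmul, N.La_const]
  rw [h8, hωL] at h7
  simp only [Complex.add_re, Complex.sub_re, Complex.re_ofReal_mul, Complex.ofReal_re] at h7
  have h9 := N.a_small
  have h10 : A * (La lam E x (P.w0 f)).re ≤ A * (3 * ρ ^ 8) := mul_le_mul_of_nonneg_left h9 hA0.le
  have h11 : A * (3 * ρ ^ 8) = 3 * ρ ^ 7 := by rw [hA]; field_simp
  have h12 : 1 / (2 * A) = ρ / 2 := by rw [hA]; field_simp
  have h13 : 3 * ρ ^ 2 * (2 * A + 2 + 1 / (2 * A)) = 6 * ρ + 6 * ρ ^ 2 + 3 / 2 * ρ ^ 3 := by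
    rw [h12, hA]; field_simp; ring
  rw [h13] at h7
  rw [h12] at h7
  have h14 : ρ ^ 2 ≤ ρ / 10 := by nlinarith
  have h15 : ρ ^ 3 ≤ ρ / 100 := by
    have : ρ ^ 3 = ρ * ρ ^ 2 := by ring
    nlinarith
  have h16 : ρ ^ 7 ≤ ρ / 100 := by
    have h17 : ρ ^ 6 ≤ (1 / 10) ^ 6 := pow_le_pow_left₀ hρ0.le hρ1 6
    have : ρ ^ 7 = ρ * ρ ^ 6 := by ring
    norm_num at h17
    nlinarith
  nlinarith

/-- The main swap estimate. -/
lemma NE.swap (N : NE P lam E ρ t f x y) {k : ℂ → ℂ} (hk : DiffContOnCl ℂ k P.Om)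
    (hk1 : ∀ z ∈ P.C, ‖k z‖ ≤ 1) :
    ‖conj (La lam E x (P.hat k)) - La lam E x k‖ ≤ 7 * ρ := by
  have hρ0 := N.hρ0
  have hρ1 := N.hρ1
  have htp := N.t_pos
  have ht2 := N.t_two
  have htc := N.tc
  have hkf : DiffContOnCl ℂ (fun w => k w * f w) P.Om := dmul hk N.hf
  -- the basic difference estimate with `a = 1/(2ρ)`
  have h0 := N.S.I_diff (dcont N.hf) N.hf1 (dcont hk) hk1 N.hx N.hy N.hy
    (a := 1 / (2 * ρ)) (by positivity)
  have h1 : I P lam E k y y = La lam E x k + conj (La lam E x (P.hat k)) := by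
    rw [I_eq N.S.hlam hk, N.La_y, ← N.La_y (P.hat k), inner_conj_symm]
  have h2 : I P lam E (fun z => k z * f z) x y =
      (t : ℂ) * La lam E x k + (t : ℂ)⁻¹ * conj (La lam E x (fun z => P.hat (fun w => k w * f w) z * f z)) := by
    rw [I_eq N.S.hlam hkf, N.inner_kf, N.inner_y_x]
  rw [h1, h2] at h0
  have h3 : 1 / (2 * ρ) * (2 - (I P lam E f x y).re) + 1 / (1 / (2 * ρ)) ≤ 4 * ρ := by
    have h4 := N.def1
    have h5 : 1 / (2 * ρ) * (2 - (I P lam E f x y).re) ≤ 1 / (2 * ρ) * (4 * ρ ^ 2) :=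
      mul_le_mul_of_nonneg_left h4 (by positivity)
    have h6 : 1 / (2 * ρ) * (4 * ρ ^ 2) = 2 * ρ := by field_simp; ring
    have h7 : 1 / (1 / (2 * ρ)) = 2 * ρ := by field_simp
    rw [h7]
    linarith
  have h8 := h0.trans h3
  have h9 := N.h1 hk hk1
  set h₁ : ℂ → ℂ := fun z => P.hat (fun w => k w * f w) z * f z + P.hat k z with hh₁
  have h10 : La lam E x h₁ = La lam E x (fun z => P.hat (fun w => k w * f w) z * f z) + La lam E x (P.hat k) :=
    La_add _ _
  set A1 := La lam E x k with hA1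
  set B1 := conj (La lam E x (P.hat k)) with hB1
  set C1 := conj (La lam E x h₁) with hC1
  have hB2 : conj (La lam E x (fun z => P.hat (fun w => k w * f w) z * f z)) = C1 - B1 := by
    rw [hC1, h10, map_add]; ring
  rw [hB2] at h8
  set Er := A1 + B1 - ((t : ℂ) * A1 + (t : ℂ)⁻¹ * (C1 - B1)) with hEr
  have hF : ((t : ℂ) + 1) * (B1 - A1) =
      ((t ^ 2 - 2 * t - 1 : ℝ) : ℂ) * A1 + C1 + (t : ℂ) * Er := by
    rw [hEr]
    push_cast
    field_simp
    ring
  have htn : ‖((t : ℂ) + 1)‖ = t + 1 := by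
    have : ((t : ℂ) + 1) = ((t + 1 : ℝ) : ℂ) := by push_cast; rfl
    rw [this, Complex.norm_real, Real.norm_of_nonneg (by linarith)]
  have h11 : (t + 1) * ‖B1 - A1‖ ≤ |t ^ 2 - 2 * t - 1| * ‖A1‖ + ‖C1‖ + t * ‖Er‖ := by
    rw [← htn, ← norm_mul, hF]
    refine (norm_add_le _ _).trans (add_le_add ((norm_add_le _ _).trans (add_le_add ?_ le_rfl)) ?_)
    · rw [norm_mul, Complex.norm_real, Real.norm_eq_abs]
    · rw [norm_mul, Complex.norm_real, Real.norm_of_nonneg htp.le]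
  have h12 : ‖C1‖ ≤ 8 * ρ := by
    rw [hC1, RCLike.norm_conj]; exact h9
  have h13 : ‖A1‖ ≤ 1 + 2 * ρ ^ 4 := N.norm_La hk hk1
  have h14 : |t ^ 2 - 2 * t - 1| ≤ 6 * ρ ^ 2 := by
    rw [abs_le]
    constructor
    · have := N.F_ge
      have := N.rho_small
      have : (0 : ℝ) ≤ ρ ^ 2 := by positivity
      linarith
    · exact N.F_le
  have h15 : ρ ^ 4 ≤ 1 / 10000 := by
    have : ρ ^ 4 ≤ (1 / 10) ^ 4 := pow_le_pow_left₀ hρ0.le hρ1 4
    norm_num at this ⊢
    linarith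
  have h16 : ρ ^ 2 ≤ ρ / 10 := by nlinarith
  have h17 : |t ^ 2 - 2 * t - 1| * ‖A1‖ ≤ 6 * (ρ / 10) * 2 := by
    apply mul_le_mul (by linarith) (by linarith) (norm_nonneg _) (by positivity)
  have h18 : ‖Er‖ ≤ 4 * ρ := h8
  have h19 : t * ‖Er‖ ≤ t * (4 * ρ) := mul_le_mul_of_nonneg_left h18 htp.le
  have h20 : (t + 1) * ‖B1 - A1‖ ≤ (t + 1) * (7 * ρ) := by nlinarith
  exact le_of_mul_le_mul_left h20 (by linarith)

lemma CT_cmul (P : Poly) (c : ℂ) (g : ℂ → ℂ) (z : ℂ) :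
    P.CT (fun w => c * g w) z = c * P.CT g z := by
  unfold Poly.CT
  have : ∀ j, ∫ s in (0 : ℝ)..P.l j, c * g (P.σ j s) * (P.e j / (P.σ j s - z)) =
      c * ∫ s in (0 : ℝ)..P.l j, g (P.σ j s) * (P.e j / (P.σ j s - z)) := by
    intro j
    rw [← intervalIntegral.integral_const_mul]
    apply intervalIntegral.integral_congr
    intro s _
    simp only [mul_assoc]
  simp only [this]
  rw [← Finset.mul_sum]
  ring

lemma hat_half (P : Poly) (g : ℂ → ℂ) {z : ℂ} (hz : z ∈ P.Om) :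
    P.hat (fun w => ((1 / 2 : ℝ) : ℂ) * g w) z = ((1 / 2 : ℝ) : ℂ) * P.hat g z := by
  rw [P.hat_apply_Om _ hz, P.hat_apply_Om _ hz, ← CT_cmul]
  congr 1
  funext w
  rw [map_mul, Complex.conj_ofReal]

/-- Conclusion of the near extremal analysis. -/
lemma NE.final (N : NE P lam E ρ t f x y) {c0 : ℝ} (hc0 : 0 < c0) (hc1 : c0 ≤ 1)
    (hpt : ∀ p, P.SideInt p → c0 ≤ (P.hat (P.w0 f) p).re + (P.hat (P.hat (P.w0 f)) p).re) :
    c0 ≤ 44 * ρ := by
  have hρ0 := N.hρ0
  have hρ1 := N.hρ1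
  have hhalf : ∀ {g : ℂ → ℂ}, DiffContOnCl ℂ g P.Om → (∀ z ∈ P.C, ‖g z‖ ≤ 2) →
      (La lam E x (P.hat g)).re ≤ (La lam E x g).re + 14 * ρ := by
    intro g hg hg2
    have hkd : DiffContOnCl ℂ (fun w => ((1 / 2 : ℝ) : ℂ) * g w) P.Om := dmul (dconst _) hg
    have hk1 : ∀ z ∈ P.C, ‖((1 / 2 : ℝ) : ℂ) * g z‖ ≤ 1 := by
      intro z hz
      rw [norm_mul, Complex.norm_real, Real.norm_of_nonneg (by norm_num)]
      have := hg2 z hz
      linarith
    have h1 := N.swap hkd hk1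
    have h2 : La lam E x (P.hat fun w => ((1 / 2 : ℝ) : ℂ) * g w) =
        ((1 / 2 : ℝ) : ℂ) * La lam E x (P.hat g) := by
      rw [← La_cmul]
      exact La_congr fun i => hat_half P g (N.S.hlam i)
    rw [h2, La_cmul] at h1
    have h3 := (Complex.re_le_norm _).trans h1
    simp only [Complex.sub_re, Complex.conj_re, Complex.re_ofReal_mul] at h3
    linarith
  have hw0 := N.w0d
  have hw1 : DiffContOnCl ℂ (P.hat (P.w0 f)) P.Om := P.hat_diffContOnCl hw0
  have hw2 : DiffContOnCl ℂ (P.hat (P.hat (P.w0 f))) P.Om := P.hat_diffContOnCl hw1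
  have hw1b : ∀ z ∈ P.C, ‖P.hat (P.w0 f) z‖ ≤ 2 := P.hat_bound hw0 N.w0_le
  have hw2b : ∀ z ∈ P.C, ‖P.hat (P.hat (P.w0 f)) z‖ ≤ 2 := P.hat_bound hw1 hw1b
  have h1 := hhalf hw0 N.w0_le
  have h2 := hhalf hw1 hw1b
  set W : ℂ → ℂ := fun z => P.hat (P.w0 f) z + P.hat (P.hat (P.w0 f)) z - (c0 : ℂ) with hW
  have hWd : DiffContOnCl ℂ W P.Om := dsub (dadd hw1 hw2) (dconst _)
  have hWre := P.re_nonneg_of_side hWd (by
    intro p hp
    have := hpt p hp
    simp only [hW, Complex.sub_re, Complex.add_re, Complex.ofReal_re]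
    linarith)
  have hWle : ∀ z ∈ P.C, ‖W z‖ ≤ 5 := by
    intro z hz
    simp only [hW]
    refine (norm_sub_le _ _).trans ?_
    have h3 := norm_add_le (P.hat (P.w0 f) z) (P.hat (P.hat (P.w0 f)) z)
    rw [Complex.norm_real, Real.norm_of_nonneg hc0.le]
    have := hw1b z hz
    have := hw2b z hz
    linarith
  have h3 := N.np hWd (M := 5) (by norm_num) hWle hWre
  have h4 : La lam E x W = La lam E x (P.hat (P.w0 f)) + La lam E x (P.hat (P.hat (P.w0 f))) - (c0 : ℂ) := by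
    simp only [hW]
    rw [La_sub, La_add, N.La_const]
  rw [h4] at h3
  simp only [Complex.sub_re, Complex.add_re, Complex.ofReal_re] at h3
  have h5 := N.a_small
  have h6 := N.rho_small
  have h7 : ρ ^ 2 ≤ ρ / 10 := by nlinarith
  nlinarith

end Near

/-- Universal improvement on a polygon, for diagonalizable operators with numerical range in the
interior of the polygon. -/
theorem core : ∃ ε₀ > 0, ∀ (P : Poly) {V : Type*} [NormedAddCommGroup V] [InnerProductSpace ℂ V]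
    [FiniteDimensional ℂ V] {ι : Type} [Fintype ι] [DecidableEq ι] (lam : ι → ℂ)
    (E : ι → V →L[ℂ] V), (∀ i, lam i ∈ P.Om) → (∑ i, E i = 1) →
    (∀ i j, E i * E j = if i = j then E i else 0) →
    (∀ v : V, ‖v‖ = 1 → inner ℂ v ((∑ i, lam i • E i) v) ∈ P.Om) →
    ∀ f : ℂ → ℂ, DiffContOnCl ℂ f P.Om → (∀ z ∈ P.C, ‖f z‖ ≤ 1) →
    ‖∑ i, f (lam i) • E i‖ ≤ 1 + Real.sqrt 2 - ε₀ := by
  obtain ⟨c1, hc1, hpt⟩ := Poly.pointwise
  set c0 := min c1 1 with hc0def
  have hc0 : 0 < c0 := lt_min hc1 one_pos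
  have hc01 : c0 ≤ 1 := min_le_right _ _
  set ρ := min (1 / 10 : ℝ) (c0 / 50) with hρdef
  have hρ0 : 0 < ρ := lt_min (by norm_num) (by positivity)
  have hρ1 : ρ ≤ 1 / 10 := min_le_left _ _
  have hρ2 : ρ ≤ c0 / 50 := min_le_right _ _
  refine ⟨ρ ^ 8 / 2, by positivity, ?_⟩
  intro P V _ _ _ ι _ _ lam E hlam hs ho hW f₀ hf₀ hf₀1
  by_contra hlt
  push_neg at hlt
  have S : Sp P lam E := ⟨hlam, hs, ho, hW⟩
  have hOC : ∀ i, lam i ∈ P.C := fun i => P.Om_subset_C (hlam i)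
  set A : Set ℝ := {r | ∃ g : ℂ → ℂ, DiffContOnCl ℂ g P.Om ∧ (∀ z ∈ P.C, ‖g z‖ ≤ 1) ∧ r = ‖th lam E g‖}
    with hA
  have hbdd : BddAbove A := by
    refine ⟨1 * ∑ i, ‖E i‖, ?_⟩
    rintro r ⟨g, _, hg1, rfl⟩
    exact norm_th_le g fun i => hg1 _ (hOC i)
  have hmem0 : ‖th lam E f₀‖ ∈ A := ⟨f₀, hf₀, hf₀1, rfl⟩
  have hK0 : ‖th lam E f₀‖ ≤ sSup A := le_csSup hbdd hmem0
  have hρ8 : 0 < ρ ^ 8 := by positivity
  obtain ⟨r, ⟨f, hf, hf1, rfl⟩, hr⟩ := exists_lt_of_lt_csSup ⟨_, hmem0⟩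
    (show sSup A - ρ ^ 8 / 2 < sSup A by linarith)
  set t := ‖th lam E f‖ with ht
  have hf0eq : th lam E f₀ = ∑ i, f₀ (lam i) • E i := rfl
  rw [← hf0eq] at hlt
  have ht1 : 1 + Real.sqrt 2 - ρ ^ 8 ≤ t := by linarith
  have h2 : (1.41 : ℝ) ≤ Real.sqrt 2 := Real.le_sqrt_of_sq_le (by norm_num)
  have hρ8' : ρ ^ 8 ≤ (1 / 10) ^ 8 := pow_le_pow_left₀ hρ0.le hρ1 8
  norm_num at hρ8'
  have htp : 0 < t := by linarith
  obtain ⟨x, y, hx, hy, hT, hTa⟩ := exists_singular (th lam E f) htp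
  have hK : ∀ g : ℂ → ℂ, DiffContOnCl ℂ g P.Om → (∀ z ∈ P.C, ‖g z‖ ≤ 1) →
      ‖th lam E g‖ ≤ t + ρ ^ 8 := by
    intro g hg hg1
    have : ‖th lam E g‖ ≤ sSup A := le_csSup hbdd ⟨g, hg, hg1, rfl⟩
    linarith
  have N : NE P lam E ρ t f x y := ⟨S, hρ0, hρ1, hf, hf1, hx, hy, hT, hTa, ht1, hK⟩
  have hfin := N.final hc0 hc01 (fun p hp =>
    (min_le_left c1 1).trans (hpt P f hf hf1 p hp))
  nlinarith

end Oper

end P123U
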