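import Vale.Agent.Lib.P123.U.Stub

/-! Existence of extremal vectors (part of module M7). -/

open Complex Finset Filter Topology
open scoped ComplexConjugate

noncomputable section

namespace P123U

namespace OpC

variable {V : Type*} [NormedAddCommGroup V] [InnerProductSpace ℂ V] [FiniteDimensional ℂ V]

/-- A finite dimensional operator attains its norm at a unit vector, and this vector is a
maximal singular vector. -/
theorem exists_max_vec (T : V →L[ℂ] V) (hT : 0 < ‖T‖) :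
    ∃ x : V, ‖x‖ = 1 ∧ ‖T x‖ = ‖T‖ ∧ ∀ w : V, inner ℂ (T x) (T w) = ((‖T‖ ^ 2 : ℝ) : ℂ) * inner ℂ x w := by
  have : CompleteSpace V := FiniteDimensional.complete ℂ V
  have : ProperSpace V := FiniteDimensional.proper ℂ V
  have hne : ∃ x : V, x ≠ 0 := by
    by_contra h
    push Not at h
    have : T = 0 := by
      ext x
      rw [h x]
      simp
    rw [this, norm_zero] at hT
    exact lt_irrefl _ hT
  obtain ⟨x₀, hx₀⟩ := hne
  have hcomp : IsCompact (Metric.sphere (0 : V) 1) := isCompact_sphere 0 1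
  have hnon : (Metric.sphere (0 : V) 1).Nonempty := by
    refine ⟨(‖x₀‖⁻¹ : ℂ) • x₀, ?_⟩
    rw [mem_sphere_zero_iff_norm, norm_smul]
    have : ‖x₀‖ ≠ 0 := norm_ne_zero_iff.2 hx₀
    simp [this]
  obtain ⟨x, hxs, hmax⟩ := hcomp.exists_isMaxOn hnon (T.continuous.norm.continuousOn)
  have hx1 : ‖x‖ = 1 := by simpa using hxs
  have hle : ‖T‖ ≤ ‖T x‖ := by
    refine ContinuousLinearMap.opNorm_le_of_unit_norm (norm_nonneg _) fun y hy => ?_
    exact hmax (by simpa using hy)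
  have hge : ‖T x‖ ≤ ‖T‖ := by
    have := T.le_opNorm x
    rwa [hx1, mul_one] at this
  have hn : ‖T x‖ = ‖T‖ := le_antisymm hge hle
  refine ⟨x, hx1, hn, ?_⟩
  -- `T† T x = ‖T‖² x`
  set T' := ContinuousLinearMap.adjoint T with hT'
  set M := ‖T‖ ^ 2 with hM
  have hT'n : ‖T'‖ = ‖T‖ := by
    rw [hT']
    exact LinearIsometryEquiv.norm_map _ _
  have h1 : inner ℂ x (T' (T x)) = ((‖T x‖ ^ 2 : ℝ) : ℂ) := by
    rw [ContinuousLinearMap.adjoint_inner_right]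
    exact inner_self_eq_norm_sq_to_K (𝕜 := ℂ) (T x) |>.trans (by push_cast; rfl)
  have h2 : ‖T' (T x) - (M : ℂ) • x‖ ^ 2 ≤ 0 := by
    have h3 : ‖T' (T x)‖ ≤ ‖T‖ * ‖T‖ := by
      have := T'.le_opNorm (T x)
      rwa [hT'n, hn] at this
    have h4 := @norm_sub_sq ℂ V _ _ _ (T' (T x)) ((M : ℂ) • x)
    rw [h4, inner_smul_right, norm_smul, hx1, mul_one]
    have h5 : inner ℂ (T' (T x)) x = ((‖T x‖ ^ 2 : ℝ) : ℂ) := by
      rw [← inner_conj_symm, h1, Complex.conj_ofReal]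
    rw [h5, hn]
    have hMn : ‖(M : ℂ)‖ = M := by
      rw [Complex.norm_real, Real.norm_eq_abs, abs_of_nonneg (by positivity)]
    rw [hMn]
    have hre : RCLike.re ((M : ℂ) * ((‖T‖ ^ 2 : ℝ) : ℂ)) = M * M := by
      rw [← hM, ← Complex.ofReal_mul]
      exact Complex.ofReal_re _
    rw [hre]
    have h6 : ‖T' (T x)‖ ^ 2 ≤ M * M := by
      have h7 : ‖T' (T x)‖ ^ 2 ≤ (‖T‖ * ‖T‖) ^ 2 := pow_le_pow_left₀ (norm_nonneg _) h3 2
      calc _ ≤ _ := h7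
        _ = M * M := by rw [hM]; ring
    nlinarith
  have h3 : T' (T x) = (M : ℂ) • x := by
    have h4 : ‖T' (T x) - (M : ℂ) • x‖ = 0 := by
      have := norm_nonneg (T' (T x) - (M : ℂ) • x)
      nlinarith
    exact sub_eq_zero.1 (norm_eq_zero.1 h4)
  intro w
  rw [← ContinuousLinearMap.adjoint_inner_left, ← hT', h3, inner_smul_left, Complex.conj_ofReal]

/-- Selection of a near extremal function, and of an extremal vector for it. -/
theorem bound_of_extremal {δ : ℝ} (hδ : 0 < δ) (hκ : 2 * δ < 1 + Real.sqrt 2) {P : Poly}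
    {ι : Type} [Fintype ι] (lam : ι → ℂ) (E : ι → V →L[ℂ] V) (hl : ∀ i, lam i ∈ P.Om)
    (contra : ∀ f : ℂ → ℂ, DiffContOnCl ℂ f P.Om → (∀ z ∈ P.C, ‖f z‖ ≤ 1) → ∀ x y : V,
      ‖x‖ = 1 → ‖y‖ = 1 → ∀ t : ℝ, 1 + Real.sqrt 2 - 2 * δ < t →
      (∑ i, f (lam i) • E i) x = (t : ℂ) • y →
      (∀ w : V, inner ℂ ((∑ i, f (lam i) • E i) x) ((∑ i, f (lam i) • E i) w)
        = ((t ^ 2 : ℝ) : ℂ) * inner ℂ x w) →
      (∀ g : ℂ → ℂ, DiffContOnCl ℂ g P.Om → (∀ z ∈ P.C, ‖g z‖ ≤ 1) →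
        ‖∑ i, g (lam i) • E i‖ ≤ t + δ) → False)
    (f₀ : ℂ → ℂ) (hf₀ : DiffContOnCl ℂ f₀ P.Om) (hf₀1 : ∀ z ∈ P.C, ‖f₀ z‖ ≤ 1) :
    ‖∑ i, f₀ (lam i) • E i‖ ≤ 1 + Real.sqrt 2 - δ := by
  by_contra hcon
  push Not at hcon
  set A : Set ℝ := {r | ∃ g : ℂ → ℂ, DiffContOnCl ℂ g P.Om ∧ (∀ z ∈ P.C, ‖g z‖ ≤ 1) ∧
    r = ‖∑ i, g (lam i) • E i‖} with hA
  have hbdd : BddAbove A := by
    refine ⟨∑ i, ‖E i‖, ?_⟩
    rintro r ⟨g, -, hg, rfl⟩
    refine (norm_sum_le _ _).trans (Finset.sum_le_sum fun i _ => ?_)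
    rw [norm_smul]
    exact mul_le_of_le_one_left (norm_nonneg _) (hg _ (P.Om_subset_C (hl i)))
  have h₀A : ‖∑ i, f₀ (lam i) • E i‖ ∈ A := ⟨f₀, hf₀, hf₀1, rfl⟩
  have hK := le_csSup hbdd h₀A
  obtain ⟨r, ⟨f, hf, hf1, rfl⟩, hr⟩ := exists_lt_of_lt_csSup ⟨_, h₀A⟩
    (show sSup A - δ < sSup A by linarith)
  set T := ∑ i, f (lam i) • E i with hT
  have htpos : 0 < ‖T‖ := by linarith
  obtain ⟨x, hx1, hTx, hw⟩ := exists_max_vec T htpos
  have hne : ((‖T‖ : ℝ) : ℂ) ≠ 0 := by exact_mod_cast htpos.ne'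
  refine contra f hf hf1 x (((‖T‖ : ℝ) : ℂ)⁻¹ • T x) hx1 ?_ ‖T‖ (by linarith) ?_ hw ?_
  · rw [norm_smul, norm_inv, Complex.norm_real, Real.norm_eq_abs, abs_of_pos htpos, hTx]
    field_simp
  · rw [smul_smul, mul_inv_cancel₀ hne, one_smul]
  · intro g hg hg1
    have := le_csSup hbdd (show ‖∑ i, g (lam i) • E i‖ ∈ A from ⟨g, hg, hg1, rfl⟩)
    linarith

end OpC

end P123U
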