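import Vale.Agent.Lib.P123.U.Local

/-! The pointwise lemma: `Vis (T + Re w1)` is bounded below at interior points of sides. -/

open Complex Finset Filter Topology
open scoped ComplexConjugate

noncomputable section

namespace P123U

namespace Poly

variable (P : Poly)

lemma pl_mid {D X Z r y a b a' b' : ℝ} (hr : 0 < r) (hy1 : r / 6 ≤ y) (hy2 : y ≤ 2 * r)
    (ha : |a| ≤ 1) (ha' : |a'| ≤ 1) (hb : 1 / 24 ≤ b) (hb' : 1 / 24 ≤ b' - b)
    (h1 : 0 ≤ D + y / 2 * X) (h2 : 0 ≤ D - y / 2 * X)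
    (h3 : 0 ≤ D + y / 2 * X - r * (a * X + b * Z))
    (h4 : 0 ≤ D + y / 2 * X - r * ((a - a') * X + (b - b') * Z))
    (hXZ : X ^ 2 + Z ^ 2 = 1) : r / 900 ≤ D := by
  have hy0 : 0 < y := by linarith
  have hX0 := abs_nonneg X
  have hyX : y / 2 * |X| ≤ D := by
    rcases abs_cases X with ⟨e, _⟩ | ⟨e, _⟩ <;> rw [e] <;> nlinarith
  have hX : r * |X| ≤ 12 * D := by nlinarith
  have hD : 0 ≤ D := by nlinarith [mul_nonneg hy0.le hX0]
  have e1 : y / 2 * X ≤ r * |X| := by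
    have : X ≤ |X| := le_abs_self X
    nlinarith
  have e2 : -(y / 2 * X) ≤ r * |X| := by
    have : -X ≤ |X| := neg_le_abs X
    nlinarith
  have abnd : ∀ c : ℝ, |c| ≤ 1 → c * X ≤ |X| ∧ -(c * X) ≤ |X| := by
    intro c hc
    have : |c * X| ≤ |X| := by
      rw [abs_mul]
      nlinarith
    exact ⟨(le_abs_self _).trans this, (neg_le_abs _).trans this⟩
  obtain ⟨a1, a2⟩ := abnd a ha
  obtain ⟨a3, a4⟩ := abnd a' ha'
  have hZ : r * |Z| ≤ 888 * D := by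
    rcases abs_cases Z with ⟨e, h0⟩ | ⟨e, h0⟩ <;> rw [e]
    · have h5 : r * (1 / 24) * Z ≤ r * b * Z := by
        apply mul_le_mul_of_nonneg_right _ h0
        exact mul_le_mul_of_nonneg_left hb hr.le
      nlinarith
    · have h5 : r * (1 / 24) * (-Z) ≤ r * (b' - b) * (-Z) := by
        apply mul_le_mul_of_nonneg_right _ (by linarith)
        exact mul_le_mul_of_nonneg_left hb' hr.le
      nlinarith
  have h1' : 1 ≤ |X| + |Z| := by
    have : X ^ 2 = |X| ^ 2 := (sq_abs X).symm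
    have : Z ^ 2 = |Z| ^ 2 := (sq_abs Z).symm
    nlinarith [abs_nonneg X, abs_nonneg Z, mul_nonneg (abs_nonneg X) (abs_nonneg Z)]
  nlinarith

lemma pl_comb {D X Z r a b a' b' S : ℝ} (hb : 0 < b) (hb' : b < b') (hid : a * b' - b * a' = S)
    (h3 : 0 ≤ D - r * (a * X + b * Z)) (h4 : 0 ≤ D - r * ((a - a') * X + (b - b') * Z)) :
    r * S * X ≤ b' * D := by
  have h5 := mul_nonneg (sub_pos.2 hb').le h3
  have h6 := mul_nonneg hb.le h4
  subst hid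
  nlinarith

lemma pl_Z {D X Z r a b a' b' : ℝ} (hr : 0 < r) (hb : 0 < b) (hb' : b < b') (hD : D = 0) (hX : X = 0)
    (h3 : 0 ≤ D - r * (a * X + b * Z)) (h4 : 0 ≤ D - r * ((a - a') * X + (b - b') * Z)) :
    Z = 0 := by
  subst hD hX
  have h5 : r * b * Z ≤ 0 := by nlinarith
  have h6 : 0 ≤ r * (b' - b) * Z := by nlinarith
  have h7 : Z ≤ 0 := by
    by_contra h
    push Not at h
    have := mul_pos (mul_pos hr hb) h
    linarith
  have h8 : 0 ≤ Z := by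
    by_contra h
    push Not at h
    have := mul_pos (mul_pos hr (sub_pos.2 hb')) (neg_pos.2 h)
    nlinarith
  linarith

lemma pl_low {D X Z r y a b a' b' S : ℝ} (hr : 0 < r) (hy : 0 < y) (hb : 0 < b) (hb'1 : b' ≤ 1)
    (hb' : b < b') (hS : 1 / 6 ≤ S) (hid : a * b' - b * a' = S) (h0 : D = y * X) (h00 : 0 ≤ D)
    (h3 : 0 ≤ D - r * (a * X + b * Z)) (h4 : 0 ≤ D - r * ((a - a') * X + (b - b') * Z))
    (hXZ : X ^ 2 + Z ^ 2 = 1) : r / 6 ≤ y := by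
  have hc := pl_comb hb hb' hid h3 h4
  have hX0 : 0 ≤ X := by
    by_contra h
    push Not at h
    nlinarith
  have hX : 0 < X := by
    rcases hX0.lt_or_eq with h | h
    · exact h
    · have hD : D = 0 := by rw [h0, ← h]; ring
      have := pl_Z hr hb hb' hD h.symm h3 h4
      rw [this, ← h] at hXZ
      norm_num at hXZ
  rw [h0] at hc
  have h5 : r * S ≤ b' * y := by
    by_contra h
    push Not at h
    nlinarith
  have hb0 : 0 < b' := hb.trans hb'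
  nlinarith

lemma pl_neg {X Z r a b a' b' S : ℝ} (hr : 0 < r) (hb : 0 < b) (hb' : b < b') (hS : 0 < S)
    (hid : a * b' - b * a' = S) (h3 : 0 ≤ 0 - r * (a * X + b * Z))
    (h4 : 0 ≤ 0 - r * ((a - a') * X + (b - b') * Z)) (hXZ : X ^ 2 + Z ^ 2 = 1) : X < 0 := by
  have hc := pl_comb hb hb' hid h3 h4
  have hX0 : X ≤ 0 := by
    by_contra h
    push Not at h
    have := mul_pos (mul_pos hr hS) h
    linarith
  rcases hX0.lt_or_eq with h | h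
  · exact h
  · have := pl_Z hr hb hb' rfl h h3 h4
    rw [this, h] at hXZ
    norm_num at hXZ

/-- trigonometric bounds on the angles used. -/
lemma pl_trig {α δ : ℝ} (h1 : Real.pi / 48 ≤ α) (h2 : α ≤ Real.pi / 24) (h3 : Real.pi / 12 ≤ δ)
    (h4 : δ ≤ Real.pi / 8) :
    1 / 24 ≤ Real.sin α ∧ 1 / 24 ≤ Real.sin (α + δ) - Real.sin α ∧ 1 / 6 ≤ Real.sin δ ∧
      Real.cos α * Real.sin (α + δ) - Real.sin α * Real.cos (α + δ) = Real.sin δ := by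
  have hpi := Real.pi_pos
  have key : ∀ x, 0 ≤ x → x ≤ Real.pi / 2 → x * (2 / Real.pi) ≤ Real.sin x := by
    intro x h0 h1
    have := Real.mul_le_sin h0 h1
    linarith
  have k2 : ∀ c : ℝ, c * Real.pi * (2 / Real.pi) = 2 * c := by
    intro c
    field_simp
  have e0 : ∀ x c : ℝ, c * Real.pi ≤ x → 2 * c ≤ x * (2 / Real.pi) := by
    intro x c h
    rw [← k2 c]
    exact mul_le_mul_of_nonneg_right h (by positivity)
  refine ⟨?_, ?_, ?_, ?_⟩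
  · have := key α (by linarith) (by linarith)
    have := e0 α (1 / 48) (by linarith)
    linarith
  · have e1 : Real.sin (α + δ) - Real.sin α =
        2 * Real.sin (δ / 2) * Real.cos (α + δ / 2) := by
      rw [Real.sin_sub_sin]
      congr 2 <;> ring_nf
    have e2 := key (δ / 2) (by linarith) (by linarith)
    have e3 := e0 (δ / 2) (1 / 24) (by linarith)
    have e4 : Real.cos (Real.pi / 3) ≤ Real.cos (α + δ / 2) :=
      Real.cos_le_cos_of_nonneg_of_le_pi (by linarith) (by linarith) (by linarith)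
    rw [Real.cos_pi_div_three] at e4
    rw [e1]
    nlinarith
  · have := key δ (by linarith) (by linarith)
    have := e0 δ (1 / 12) (by linarith)
    linarith
  · rw [Real.sin_add, Real.cos_add]
    linear_combination (Real.sin δ) * Real.sin_sq_add_cos_sq α

lemma pl_E {s : ℝ} (hs : s = 1 ∨ s = -1) (x : ℝ) :
    exp (((s * x : ℝ) : ℂ) * I) = (Real.cos x : ℂ) + I * (s : ℂ) * (Real.sin x : ℂ) := by
  rw [Complex.exp_mul_I]
  rcases hs with rfl | rfl <;> simp [Complex.cos_neg, Complex.sin_neg] <;> ring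

lemma pl_d (i : ℕ) (τ U V : ℂ) (c₁ c₂ : ℝ) :
    P.d i (τ + (c₁ : ℂ) * U + (c₂ : ℂ) * V) =
      P.d i τ - (c₁ * (conj (P.n i) * U).re + c₂ * (conj (P.n i) * V).re) := by
  rw [P.d_lin i, P.d_lin i]
  ring

lemma pl_XZ {s : ℝ} (hs : s = 1 ∨ s = -1) (i : ℕ) {U V : ℂ} (hU : ‖U‖ = 1) (hV : V = I * s * U) :
    (conj (P.n i) * U).re ^ 2 + (conj (P.n i) * V).re ^ 2 = 1 := by
  have h : ‖conj (P.n i) * U‖ = 1 := by rw [norm_mul, RCLike.norm_conj, P.norm_n, hU, one_mul]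
  have h2 : Complex.normSq (conj (P.n i) * U) = 1 := by
    rw [Complex.normSq_eq_norm_sq, h]
    norm_num
  have h3 : conj (P.n i) * V = I * s * (conj (P.n i) * U) := by rw [hV]; ring
  rw [h3]
  generalize conj (P.n i) * U = w at *
  rw [Complex.normSq_apply] at h2
  have hs2 : s * s = 1 := by rcases hs with rfl | rfl <;> norm_num
  simp only [Complex.mul_re, Complex.mul_im, Complex.I_re, Complex.I_im, Complex.ofReal_re,
    Complex.ofReal_im]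
  ring_nf
  nlinarith

lemma pl_geom {τ p₀ P' Y U V : ℂ} {s r y α δ : ℝ} (hs : s = 1 ∨ s = -1) (hU : ‖U‖ = 1)
    (hV : V = I * s * U) (h1 : Real.pi / 48 ≤ α) (h2 : α ≤ Real.pi / 24) (h3 : Real.pi / 12 ≤ δ)
    (h4 : δ ≤ Real.pi / 8) (hr : 0 < r) (hy : 0 < y) (hy2 : y ≤ 2 * r) (hτ : τ ∈ P.C)
    (hp : p₀ ∈ P.C) (hP' : P' ∈ P.C) (hY : Y ∈ P.C)
    (hpe : p₀ = τ + ((r * Real.cos α : ℝ) : ℂ) * U + ((r * Real.sin α : ℝ) : ℂ) * V)
    (hPe : P' = τ + ((r * (Real.cos α - Real.cos (α + δ)) : ℝ) : ℂ) * U +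
      ((r * (Real.sin α - Real.sin (α + δ)) : ℝ) : ℂ) * V)
    (hYe : Y = τ + (y : ℂ) * U) (i₀ : ℕ) (hi₀ : P.d i₀ Y = 0) :
    ∀ i, ‖τ - Y‖ / 1800 ≤ P.d i ((τ + Y) / 2) := by
  obtain ⟨t1, t2, t3, t4⟩ := pl_trig h1 h2 h3 h4
  have hb' : Real.sin α < Real.sin (α + δ) := by linarith
  have dY : ∀ i, P.d i Y = P.d i τ - y * (conj (P.n i) * U).re := by
    intro i
    rw [hYe, P.d_lin]
  have dp : ∀ i, P.d i p₀ = P.d i τ - r * (Real.cos α * (conj (P.n i) * U).re +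
      Real.sin α * (conj (P.n i) * V).re) := by
    intro i
    rw [hpe, pl_d]
    ring
  have dP : ∀ i, P.d i P' = P.d i τ - r * ((Real.cos α - Real.cos (α + δ)) * (conj (P.n i) * U).re +
      (Real.sin α - Real.sin (α + δ)) * (conj (P.n i) * V).re) := by
    intro i
    rw [hPe, pl_d]
    ring
  have dM : ∀ i, P.d i ((τ + Y) / 2) = P.d i τ - y / 2 * (conj (P.n i) * U).re := by
    intro i
    have : (τ + Y) / 2 = τ + ((y / 2 : ℝ) : ℂ) * U := by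
      rw [hYe]
      push_cast
      ring
    rw [this, P.d_lin]
  have hlow : r / 6 ≤ y := by
    have e := dY i₀
    rw [hi₀] at e
    exact pl_low hr hy (by linarith) (Real.sin_le_one _) hb' t3 t4 (by linarith) (hτ i₀)
      (by rw [← dp]; exact hp i₀) (by rw [← dP]; exact hP' i₀) (P.pl_XZ hs i₀ hU hV)
  intro i
  have hn : ‖τ - Y‖ = y := by
    rw [hYe]
    simp [hU, abs_of_pos hy]
  have := pl_mid (D := P.d i ((τ + Y) / 2)) (X := (conj (P.n i) * U).re)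
    (Z := (conj (P.n i) * V).re) (a := Real.cos α) (b := Real.sin α) (a' := Real.cos (α + δ))
    (b' := Real.sin (α + δ)) hr hlow hy2 (Real.abs_cos_le_one _) (Real.abs_cos_le_one _) t1 t2
    (by rw [dM]; have := hτ i; linarith) (by rw [dM]; have := dY i; have := hY i; linarith)
    (by rw [dM]; have := dp i; have := hp i; linarith)
    (by rw [dM]; have := dP i; have := hP' i; linarith) (P.pl_XZ hs i hU hV)
  rw [hn]
  linarith

lemma pl_frame {s : ℝ} (hs : s = 1 ∨ s = -1) (r β α δ : ℝ) (e₁ : ℂ) :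
    (r : ℂ) * exp ((β : ℝ) * I) * e₁ =
      ((r * Real.cos α : ℝ) : ℂ) * (exp (((β - s * α : ℝ) : ℂ) * I) * e₁) +
      ((r * Real.sin α : ℝ) : ℂ) * (I * s * (exp (((β - s * α : ℝ) : ℂ) * I) * e₁)) ∧
    (r : ℂ) * exp ((β : ℝ) * I) * e₁ * exp (((s * δ : ℝ) : ℂ) * I) =
      ((r * Real.cos (α + δ) : ℝ) : ℂ) * (exp (((β - s * α : ℝ) : ℂ) * I) * e₁) +
      ((r * Real.sin (α + δ) : ℝ) : ℂ) * (I * s * (exp (((β - s * α : ℝ) : ℂ) * I) * e₁)) := by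
  have e1 : exp ((β : ℝ) * I) = exp (((β - s * α : ℝ) : ℂ) * I) * exp (((s * α : ℝ) : ℂ) * I) := by
    rw [← Complex.exp_add]
    congr 1
    push_cast
    ring
  have e2 : exp ((β : ℝ) * I) * exp (((s * δ : ℝ) : ℂ) * I) =
      exp (((β - s * α : ℝ) : ℂ) * I) * exp (((s * (α + δ) : ℝ) : ℂ) * I) := by
    rw [← Complex.exp_add, ← Complex.exp_add]
    congr 1
    push_cast
    ring
  constructor
  · rw [e1, pl_E hs α]
    push_cast
    ring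
  · have : (r : ℂ) * exp ((β : ℝ) * I) * e₁ * exp (((s * δ : ℝ) : ℂ) * I) =
        (r : ℂ) * (exp ((β : ℝ) * I) * exp (((s * δ : ℝ) : ℂ) * I)) * e₁ := by ring
    rw [this, e2, pl_E hs (α + δ)]
    push_cast
    ring

lemma pl_norm_e (j : ℕ) : ‖P.e j‖ = 1 := by
  unfold e
  rw [norm_mul, Complex.norm_I, P.norm_n, one_mul]

lemma pl_e_ne (j : ℕ) : P.e j ≠ 0 := by
  rw [← norm_ne_zero_iff, P.pl_norm_e]
  exact one_ne_zero

lemma pl_conj_e (j : ℕ) (E : ℂ) : conj (P.n (j + 1)) * (E * P.e j) = E * I := by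
  unfold e
  have := P.n_mul_conj (j + 1)
  linear_combination (E * I) * this

lemma pl_im (j : ℕ) (s : ℝ) (z : ℂ) : ((z - P.σ j s) / P.e j).im = P.d (j + 1) z := by
  have h1 : (z - P.σ j s) / P.e j = -I * (conj (P.n (j + 1)) * (z - P.σ j s)) := by
    rw [div_eq_iff (P.pl_e_ne j)]
    unfold e
    have := P.n_mul_conj (j + 1)
    linear_combination (-(z - P.σ j s)) * this + (z - P.σ j s) * (conj (P.n (j + 1)) * P.n (j + 1)) *
      Complex.I_mul_I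
  have h2 := P.d_sub (j + 1) z (P.σ j s)
  rw [P.d_σ_self, sub_zero] at h2
  rw [h1, h2]
  have : conj (P.n (j + 1)) * (P.σ j s - z) = -(conj (P.n (j + 1)) * (z - P.σ j s)) := by ring
  rw [this]
  simp

lemma pl_sin_half {x : ℝ} (h : |x - Real.pi / 2| ≤ Real.pi / 3) : 1 / 2 ≤ Real.sin x := by
  rw [← Real.cos_sub_pi_div_two, ← Real.cos_abs, ← Real.cos_pi_div_three]
  exact Real.cos_le_cos_of_nonneg_of_le_pi (abs_nonneg _) (by linarith [Real.pi_pos]) h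

lemma pl_range {x : ℝ} (hx : 0 < Real.sin x) (h1 : -Real.pi ≤ x) (h2 : x ≤ 2 * Real.pi) :
    0 < x ∧ x < Real.pi := by
  constructor
  · by_contra h
    push Not at h
    have := Real.sin_nonpos_of_nonpos_of_neg_pi_le h h1
    linarith
  · by_contra h
    push Not at h
    have e := Real.sin_nonneg_of_nonneg_of_le_pi (x := x - Real.pi) (by linarith) (by linarith)
    rw [Real.sin_sub_pi] at e
    linarith

lemma pl_sector {j₀ j₁ : ℕ} {s₀ t₁ s r θ δ : ℝ} (hs : s = 1 ∨ s = -1) (h0 : 0 ≤ s₀)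
    (h0' : s₀ ≤ P.l j₀) (ht : 0 ≤ t₁) (ht' : t₁ ≤ P.l j₁) (hr : 0 < r)
    (hθ : |θ - Real.pi / 2| ≤ Real.pi / 16) (h3 : Real.pi / 12 ≤ δ) (h4 : δ ≤ Real.pi / 8)
    (hτ : P.σ j₁ t₁ = P.σ j₀ s₀ + (r : ℂ) * exp ((θ : ℝ) * I) * P.e j₀)
    (hP : P.σ j₀ s₀ + (r : ℂ) * exp (((θ + s * δ : ℝ) : ℂ) * I) * P.e j₀ ∈ P.C) :
    ∃ θa θb : ℝ, 0 ≤ θa ∧ θb ≤ Real.pi ∧ θb - θa = Real.pi / 48 ∧ ∀ Y, P.SideInt Y →
      θa ≤ arg ((Y - P.σ j₁ t₁) / P.e j₁) → arg ((Y - P.σ j₁ t₁) / P.e j₁) ≤ θb →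
      Y ≠ P.σ j₁ t₁ ∧ ∀ i, ‖P.σ j₁ t₁ - Y‖ / 1800 ≤ P.d i ((P.σ j₁ t₁ + Y) / 2) := by
  have hpi := Real.pi_pos
  have hss : s * s = 1 := by rcases hs with rfl | rfl <;> norm_num
  have hpC : P.σ j₀ s₀ ∈ P.C := P.σ_mem_C h0 h0'
  have hτC : P.σ j₁ t₁ ∈ P.C := P.σ_mem_C ht ht'
  set p₀ := P.σ j₀ s₀ with hp₀
  set τ := P.σ j₁ t₁ with hτdef
  set P' := p₀ + (r : ℂ) * exp (((θ + s * δ : ℝ) : ℂ) * I) * P.e j₀ with hP'
  set β := arg ((p₀ - τ) / P.e j₁) with hβ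
  have hnr : ‖p₀ - τ‖ = r := by
    rw [hτ]
    have : p₀ - (p₀ + (r : ℂ) * exp ((θ : ℝ) * I) * P.e j₀) =
        -((r : ℂ) * exp ((θ : ℝ) * I) * P.e j₀) := by ring
    rw [this, norm_neg, norm_mul, norm_mul, Complex.norm_exp_ofReal_mul_I, P.pl_norm_e]
    simp [abs_of_pos hr]
  have hw : ‖(p₀ - τ) / P.e j₁‖ = r := by
    rw [norm_div, P.pl_norm_e, div_one, hnr]
  have hpτ : p₀ - τ = (r : ℂ) * exp ((β : ℝ) * I) * P.e j₁ := by
    have := Complex.norm_mul_exp_arg_mul_I ((p₀ - τ) / P.e j₁)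
    rw [hw, ← hβ] at this
    rw [this, div_mul_cancel₀ _ (P.pl_e_ne j₁)]
  have hPτ : P' - p₀ = (τ - p₀) * exp (((s * δ : ℝ) : ℂ) * I) := by
    rw [hP', hτ]
    have : exp (((θ + s * δ : ℝ) : ℂ) * I) = exp ((θ : ℝ) * I) * exp (((s * δ : ℝ) : ℂ) * I) := by
      rw [← Complex.exp_add]
      congr 1
      push_cast
      ring
    rw [this]
    ring
  have hfr : ∀ α : ℝ, p₀ = τ + ((r * Real.cos α : ℝ) : ℂ) * (exp (((β - s * α : ℝ) : ℂ) * I) * P.e j₁) +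
      ((r * Real.sin α : ℝ) : ℂ) * (I * s * (exp (((β - s * α : ℝ) : ℂ) * I) * P.e j₁)) ∧
      P' = τ + ((r * (Real.cos α - Real.cos (α + δ)) : ℝ) : ℂ) * (exp (((β - s * α : ℝ) : ℂ) * I) * P.e j₁) +
      ((r * (Real.sin α - Real.sin (α + δ)) : ℝ) : ℂ) * (I * s * (exp (((β - s * α : ℝ) : ℂ) * I) * P.e j₁)) := by
    intro α
    obtain ⟨f1, f2⟩ := pl_frame hs r β α δ (P.e j₁)
    rw [← hpτ] at f1 f2
    constructor
    · rw [add_assoc, ← f1]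
      ring
    · have e : P' = τ + (p₀ - τ) - (p₀ - τ) * exp (((s * δ : ℝ) : ℂ) * I) := by
        linear_combination hPτ
      rw [e, f2, f1]
      push_cast
      ring
  have hpos : ∀ α : ℝ, Real.pi / 48 ≤ α → α ≤ Real.pi / 24 → 0 < β - s * α ∧ β - s * α < Real.pi := by
    intro α a1 a2
    obtain ⟨t1, t2, t3, t4⟩ := pl_trig a1 a2 h3 h4
    obtain ⟨f1, f2⟩ := hfr α
    have hU : ‖exp (((β - s * α : ℝ) : ℂ) * I) * P.e j₁‖ = 1 := by
      rw [norm_mul, Complex.norm_exp_ofReal_mul_I, P.pl_norm_e, one_mul]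
    have d0 : P.d (j₁ + 1) τ = 0 := P.d_σ_self j₁ t₁
    have e1 := P.pl_d (j₁ + 1) τ (exp (((β - s * α : ℝ) : ℂ) * I) * P.e j₁)
      (I * s * (exp (((β - s * α : ℝ) : ℂ) * I) * P.e j₁)) (r * Real.cos α) (r * Real.sin α)
    have e2 := P.pl_d (j₁ + 1) τ (exp (((β - s * α : ℝ) : ℂ) * I) * P.e j₁)
      (I * s * (exp (((β - s * α : ℝ) : ℂ) * I) * P.e j₁)) (r * (Real.cos α - Real.cos (α + δ)))
      (r * (Real.sin α - Real.sin (α + δ)))
    rw [← f1, d0] at e1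
    rw [← f2, d0] at e2
    have n1 := hpC (j₁ + 1)
    have n2 := hP (j₁ + 1)
    rw [e1] at n1
    change 0 ≤ P.d (j₁ + 1) P' at n2
    rw [e2] at n2
    have hX := pl_neg (S := Real.sin δ) hr (by linarith) (by linarith : Real.sin α < Real.sin (α + δ))
      (by linarith) t4
      (by linarith : 0 ≤ 0 - r * (Real.cos α * (conj (P.n (j₁ + 1)) * (exp (((β - s * α : ℝ) : ℂ) * I) * P.e j₁)).re +
        Real.sin α * (conj (P.n (j₁ + 1)) * (I * s * (exp (((β - s * α : ℝ) : ℂ) * I) * P.e j₁))).re))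
      (by linarith : 0 ≤ 0 - r * ((Real.cos α - Real.cos (α + δ)) * (conj (P.n (j₁ + 1)) * (exp (((β - s * α : ℝ) : ℂ) * I) * P.e j₁)).re +
        (Real.sin α - Real.sin (α + δ)) * (conj (P.n (j₁ + 1)) * (I * s * (exp (((β - s * α : ℝ) : ℂ) * I) * P.e j₁))).re))
      (P.pl_XZ hs (j₁ + 1) hU rfl)
    rw [P.pl_conj_e] at hX
    have hsin : 0 < Real.sin (β - s * α) := by
      have : (exp (((β - s * α : ℝ) : ℂ) * I) * I).re = -Real.sin (β - s * α) := by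
        rw [Complex.mul_I_re, Complex.exp_ofReal_mul_I_im]
      rw [this] at hX
      linarith
    have hβ0 : 0 ≤ β := by
      rw [hβ, Complex.arg_nonneg_iff, hτdef, P.pl_im]
      exact hpC _
    have hβ1 : β ≤ Real.pi := Complex.arg_le_pi _
    refine pl_range hsin ?_ ?_ <;> rcases hs with rfl | rfl <;> linarith
  have hsα : ∀ x : ℝ, |x - s * (Real.pi / 32)| ≤ Real.pi / 96 → Real.pi / 48 ≤ s * x ∧ s * x ≤ Real.pi / 24 := by
    intro x hx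
    rw [abs_le] at hx
    rcases hs with rfl | rfl <;> constructor <;> linarith [hx.1, hx.2]
  have hax : Real.pi / 48 ≤ s * (s * (Real.pi / 32) + Real.pi / 96) ∧ s * (s * (Real.pi / 32) + Real.pi / 96) ≤ Real.pi / 24 :=
    hsα _ (by rw [add_sub_cancel_left, abs_of_pos (by positivity)])
  have hbx : Real.pi / 48 ≤ s * (s * (Real.pi / 32) - Real.pi / 96) ∧ s * (s * (Real.pi / 32) - Real.pi / 96) ≤ Real.pi / 24 :=
    hsα _ (by rw [sub_sub_cancel_left, abs_neg, abs_of_pos (by positivity)])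
  have ha := hpos _ hax.1 hax.2
  have hb := hpos _ hbx.1 hbx.2
  have ea : s * (s * (s * (Real.pi / 32) + Real.pi / 96)) = s * (Real.pi / 32) + Real.pi / 96 := by
    rw [← mul_assoc, hss, one_mul]
  have eb : s * (s * (s * (Real.pi / 32) - Real.pi / 96)) = s * (Real.pi / 32) - Real.pi / 96 := by
    rw [← mul_assoc, hss, one_mul]
  rw [ea] at ha
  rw [eb] at hb
  refine ⟨β - (s * (Real.pi / 32) + Real.pi / 96), β - (s * (Real.pi / 32) - Real.pi / 96), ha.1.le,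
    hb.2.le, by ring, ?_⟩
  rintro Y ⟨jY, tY, hY0, hY1, rfl⟩ hφ1 hφ2
  set Y := P.σ jY tY with hYdef
  set φ := arg ((Y - τ) / P.e j₁) with hφ
  have hYC : Y ∈ P.C := P.σ_mem_C hY0.le hY1.le
  have hα := hsα (β - φ) (by rw [abs_le]; constructor <;> linarith)
  set α := s * (β - φ) with hαdef
  have hβφ : β - s * α = φ := by
    rw [hαdef, ← mul_assoc, hss]
    ring
  have hφ0 : 0 < φ := by linarith [ha.1]
  have hYτ : Y - τ = (‖Y - τ‖ : ℂ) * (exp ((φ : ℝ) * I) * P.e j₁) := by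
    have := Complex.norm_mul_exp_arg_mul_I ((Y - τ) / P.e j₁)
    rw [← hφ, norm_div, P.pl_norm_e, div_one] at this
    rw [← mul_assoc, this, div_mul_cancel₀ _ (P.pl_e_ne j₁)]
  have hne : Y ≠ τ := by
    intro h
    rw [h, sub_self, zero_div, Complex.arg_zero] at hφ
    linarith
  have hy : 0 < ‖Y - τ‖ := norm_pos_iff.2 (sub_ne_zero.2 hne)
  obtain ⟨f1, f2⟩ := hfr α
  rw [hβφ] at f1 f2
  refine ⟨hne, ?_⟩
  have hU : ‖exp ((φ : ℝ) * I) * P.e j₁‖ = 1 := by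
    rw [norm_mul, Complex.norm_exp_ofReal_mul_I, P.pl_norm_e, one_mul]
  have hYe : Y = τ + (‖Y - τ‖ : ℂ) * (exp ((φ : ℝ) * I) * P.e j₁) := by
    rw [← hYτ]
    ring
  have hUθ : exp ((φ : ℝ) * I) * P.e j₁ = -(exp (((θ - s * α : ℝ) : ℂ) * I) * P.e j₀) := by
    have e1 : (r : ℂ) * exp ((β : ℝ) * I) * P.e j₁ = -((r : ℂ) * exp ((θ : ℝ) * I) * P.e j₀) := by
      rw [← hpτ, hτ]
      ring
    have e2 : exp ((β : ℝ) * I) = exp ((φ : ℝ) * I) * exp (((s * α : ℝ) : ℂ) * I) := by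
      rw [← Complex.exp_add, ← hβφ]
      congr 1
      push_cast
      ring
    have e3 : exp ((θ : ℝ) * I) = exp (((θ - s * α : ℝ) : ℂ) * I) * exp (((s * α : ℝ) : ℂ) * I) := by
      rw [← Complex.exp_add]
      congr 1
      push_cast
      ring
    have hr' : (r : ℂ) ≠ 0 := by exact_mod_cast hr.ne'
    have hex : exp (((s * α : ℝ) : ℂ) * I) ≠ 0 := Complex.exp_ne_zero _
    rw [e2, e3] at e1
    apply mul_left_cancel₀ hr'
    apply mul_right_cancel₀ hex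
    linear_combination e1
  have hy2 : ‖Y - τ‖ ≤ 2 * r := by
    have e1 := P.d_lin (j₀ + 1) τ (exp ((φ : ℝ) * I) * P.e j₁) ‖Y - τ‖
    rw [← hYe, hUθ] at e1
    have e2 : conj (P.n (j₀ + 1)) * -(exp (((θ - s * α : ℝ) : ℂ) * I) * P.e j₀) =
        -(conj (P.n (j₀ + 1)) * (exp (((θ - s * α : ℝ) : ℂ) * I) * P.e j₀)) := by ring
    rw [e2, P.pl_conj_e] at e1
    have e3 : (-(exp (((θ - s * α : ℝ) : ℂ) * I) * I)).re = Real.sin (θ - s * α) := by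
      rw [Complex.neg_re, Complex.mul_I_re, Complex.exp_ofReal_mul_I_im, neg_neg]
    rw [e3] at e1
    have e4 : 1 / 2 ≤ Real.sin (θ - s * α) := by
      apply pl_sin_half
      rw [abs_le] at hθ ⊢
      have h5 : |s * α| = α := by
        rcases hs with rfl | rfl <;> simp [abs_of_pos (show 0 < α by linarith [hα.1])]
      have := abs_le.1 h5.le
      constructor <;> linarith [hα.2, hθ.1, hθ.2, this.1, this.2]
    have e5 := hYC (j₀ + 1)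
    have e6 : P.d (j₀ + 1) τ ≤ r := by
      have := P.abs_d_sub_le (j₀ + 1) τ p₀
      rw [hp₀, P.d_σ_self, sub_zero, ← hp₀, norm_sub_rev, hnr] at this
      exact (le_abs_self _).trans this
    nlinarith
  exact P.pl_geom hs hU rfl hα.1 hα.2 h3 h4 hr hy hy2 hτC hpC hP hYC f1 f2 hYe (jY + 1)
    (P.d_σ_self jY tY)

lemma pl_sel {j : ℕ} {s₀ : ℝ} (h0 : 0 < s₀) (h1 : s₀ < P.l j) {ψ : ℂ → ℝ}
    (hψc : ContinuousOn ψ P.C) (hψ : ∀ z ∈ P.C, 0 ≤ ψ z) {θ₁ θ₂ A : ℝ}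
    (hw : θ₂ - θ₁ = Real.pi / 48) (hθ₁ : 0 ≤ θ₁) (hθ₂ : θ₂ ≤ Real.pi) (hA : 0 ≤ A)
    (hlt : (P.Vis (fun w => (ψ w : ℂ)) (P.σ j s₀)).re < A / 48) :
    ∃ z, P.SideInt z ∧ θ₁ ≤ arg ((z - P.σ j s₀) / P.e j) ∧ arg ((z - P.σ j s₀) / P.e j) ≤ θ₂ ∧
      ψ z < A := by
  by_contra h
  push Not at h
  have hpi := Real.pi_pos
  have := P.selection h0 h1 hψc hψ (by linarith) hθ₁ hθ₂ hA (fun z hz a b => h z hz a b)
  rw [hw] at this
  have e : A * (Real.pi / 48) / Real.pi = A / 48 := by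
    field_simp
  linarith

lemma pl_two {j₀ : ℕ} {s₀ : ℝ} (h0 : 0 ≤ s₀) (h0' : s₀ ≤ P.l j₀) {z₁ z₂ : ℂ} (hz₁ : P.SideInt z₁)
    (hz₂ : P.SideInt z₂)
    (a1 : Real.pi / 2 - Real.pi / 16 ≤ arg ((z₁ - P.σ j₀ s₀) / P.e j₀))
    (a2 : arg ((z₁ - P.σ j₀ s₀) / P.e j₀) ≤ Real.pi / 2 - Real.pi / 24)
    (b1 : Real.pi / 2 + Real.pi / 24 ≤ arg ((z₂ - P.σ j₀ s₀) / P.e j₀))
    (b2 : arg ((z₂ - P.σ j₀ s₀) / P.e j₀) ≤ Real.pi / 2 + Real.pi / 16) :
    ∃ τ, (τ = z₁ ∨ τ = z₂) ∧ ∃ j₁ t₁, 0 < t₁ ∧ t₁ < P.l j₁ ∧ τ = P.σ j₁ t₁ ∧ ∃ θa θb : ℝ, 0 ≤ θa ∧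
      θb ≤ Real.pi ∧ θb - θa = Real.pi / 48 ∧ ∀ Y, P.SideInt Y →
      θa ≤ arg ((Y - P.σ j₁ t₁) / P.e j₁) → arg ((Y - P.σ j₁ t₁) / P.e j₁) ≤ θb →
      Y ≠ P.σ j₁ t₁ ∧ ∀ i, ‖P.σ j₁ t₁ - Y‖ / 1800 ≤ P.d i ((P.σ j₁ t₁ + Y) / 2) := by
  have hpi := Real.pi_pos
  have hpC : P.σ j₀ s₀ ∈ P.C := P.σ_mem_C h0 h0'
  obtain ⟨j₁, t₁, c1, c2, rfl⟩ := id hz₁
  obtain ⟨j₂, t₂, d1, d2, rfl⟩ := id hz₂
  set p₀ := P.σ j₀ s₀ with hp₀
  have polar : ∀ z : ℂ, z = p₀ + (‖(z - p₀) / P.e j₀‖ : ℂ) * exp ((arg ((z - p₀) / P.e j₀) : ℝ) * I) * P.e j₀ := by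
    intro z
    rw [Complex.norm_mul_exp_arg_mul_I, div_mul_cancel₀ _ (P.pl_e_ne j₀)]
    ring
  have pos : ∀ z : ℂ, 0 < arg ((z - p₀) / P.e j₀) → 0 < ‖(z - p₀) / P.e j₀‖ := by
    intro z hz
    rw [norm_pos_iff]
    intro h
    rw [h, Complex.arg_zero] at hz
    exact lt_irrefl _ hz
  have seg : ∀ (z : ℂ) (r : ℝ), z ∈ P.C → 0 ≤ r → r ≤ ‖(z - p₀) / P.e j₀‖ → 0 < ‖(z - p₀) / P.e j₀‖ →
      p₀ + (r : ℂ) * exp ((arg ((z - p₀) / P.e j₀) : ℝ) * I) * P.e j₀ ∈ P.C := by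
    intro z r hz h1 h2 h3
    have hc := P.convex_C hpC hz (a := 1 - r / ‖(z - p₀) / P.e j₀‖) (b := r / ‖(z - p₀) / P.e j₀‖)
      (by rw [sub_nonneg, div_le_one h3]; exact h2) (by positivity) (by ring)
    have hzp := polar z
    generalize exp ((arg ((z - p₀) / P.e j₀) : ℝ) * I) = A at *
    generalize ‖(z - p₀) / P.e j₀‖ = R at *
    have hR : (R : ℂ) ≠ 0 := by exact_mod_cast h3.ne'
    have hq : (r : ℂ) / R * R = r := by field_simp
    have e : p₀ + (r : ℂ) * A * P.e j₀ = (1 - r / R) • p₀ + (r / R) • z := by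
      rw [Complex.real_smul, Complex.real_smul]
      push_cast
      linear_combination (-((r : ℂ) / R)) * hzp - A * P.e j₀ * hq
    rw [e]
    exact hc
  set θ₁ := arg ((P.σ j₁ t₁ - p₀) / P.e j₀) with hθ₁
  set θ₂ := arg ((P.σ j₂ t₂ - p₀) / P.e j₀) with hθ₂
  have hr₁ := pos (P.σ j₁ t₁) (by rw [← hθ₁]; linarith)
  have hr₂ := pos (P.σ j₂ t₂) (by rw [← hθ₂]; linarith)
  rcases le_or_gt ‖(P.σ j₁ t₁ - p₀) / P.e j₀‖ ‖(P.σ j₂ t₂ - p₀) / P.e j₀‖ with h | h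
  · refine ⟨_, Or.inl rfl, j₁, t₁, c1, c2, rfl, ?_⟩
    refine P.pl_sector (s := 1) (δ := θ₂ - θ₁) (Or.inl rfl) h0 h0' c1.le c2.le hr₁ ?_ (by linarith)
      (by linarith) (polar _) ?_
    · rw [abs_le]
      constructor <;> linarith
    · have e : θ₁ + 1 * (θ₂ - θ₁) = θ₂ := by ring
      rw [e]
      exact seg _ _ (P.σ_mem_C d1.le d2.le) hr₁.le h hr₂
  · refine ⟨_, Or.inr rfl, j₂, t₂, d1, d2, rfl, ?_⟩
    refine P.pl_sector (s := -1) (δ := θ₂ - θ₁) (Or.inr rfl) h0 h0' d1.le d2.le hr₂ ?_ (by linarith)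
      (by linarith) (polar _) ?_
    · rw [abs_le]
      constructor <;> linarith
    · have e : θ₂ + -1 * (θ₂ - θ₁) = θ₁ := by ring
      rw [e]
      exact seg _ _ (P.σ_mem_C c1.le c2.le) hr₂.le h.le hr₁

lemma pl_cont {g : ℂ → ℂ} (hg : DiffContOnCl ℂ g P.Om) : ContinuousOn g P.C := by
  rw [← P.closure_Om]
  exact hg.continuousOn

lemma pl_side_C {p : ℂ} (hp : P.SideInt p) : p ∈ P.C := by
  obtain ⟨j, s, h0, h1, rfl⟩ := hp
  exact P.σ_mem_C h0.le h1.le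

lemma pl_hat_re {g : ℂ → ℂ} (hg : DiffContOnCl ℂ g P.Om) {p : ℂ} (hp : P.SideInt p) :
    (P.hat g p).re = (P.Vis (fun w => ((g w).re : ℂ)) p).re := by
  rw [P.hat_side hg hp, Complex.conj_re, P.vis_re g (P.pl_cont hg) (P.pl_side_C hp)]

lemma pl_re_cont {g : ℂ → ℂ} (hg : ContinuousOn g P.C) : ContinuousOn (fun z => (g z).re) P.C :=
  Complex.continuous_re.comp_continuousOn hg

lemma pl_ofR {g : ℂ → ℝ} (hg : ContinuousOn g P.C) : ContinuousOn (fun z => (g z : ℂ)) P.C :=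
  Complex.continuous_ofReal.comp_continuousOn hg

lemma pl_w0 {f : ℂ → ℂ} (hf : DiffContOnCl ℂ f P.Om) : DiffContOnCl ℂ (P.w0 f) P.Om :=
  ((P.hat_diffContOnCl hf).smul hf).const_add 1

lemma pl_T {f : ℂ → ℂ} (hf : DiffContOnCl ℂ f P.Om) (hf1 : ∀ z ∈ P.C, ‖f z‖ ≤ 1) {z : ℂ}
    (hz : z ∈ P.C) : 0 ≤ (P.w0 f z).re := by
  have h1 := P.hat_bound hf hf1 z hz
  have h2 := hf1 z hz
  have h3 := Complex.abs_re_le_norm (P.hat f z * f z)
  rw [norm_mul] at h3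
  have h4 : ‖P.hat f z‖ * ‖f z‖ ≤ 1 := by
    nlinarith [norm_nonneg (P.hat f z), norm_nonneg (f z)]
  have h5 := (abs_le.1 (h3.trans h4)).1
  simp only [w0, Complex.add_re, Complex.one_re]
  linarith

lemma pl_R {f : ℂ → ℂ} (hf : DiffContOnCl ℂ f P.Om) (hf1 : ∀ z ∈ P.C, ‖f z‖ ≤ 1) {z : ℂ}
    (hz : z ∈ P.C) : 0 ≤ (P.hat (P.w0 f) z).re := by
  have hw := P.pl_w0 hf
  refine P.re_nonneg_of_side (P.hat_diffContOnCl hw) (fun p hp => ?_) z hz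
  rw [P.pl_hat_re hw hp]
  have h0 : P.Vis (fun _ => ((0 : ℝ) : ℂ)) p = 0 := by simp [Vis]
  have := P.vis_re_mono (g := fun _ => 0) (h := fun z => (P.w0 f z).re) continuousOn_const
    (P.pl_re_cont (P.pl_cont hw)) (fun w hw => P.pl_T hf hf1 hw) (P.pl_side_C hp)
  rw [h0] at this
  simpa using this

lemma pl_phi {f : ℂ → ℂ} (hf : DiffContOnCl ℂ f P.Om) (hf1 : ∀ z ∈ P.C, ‖f z‖ ≤ 1) {τ : ℂ}
    (hτ : P.SideInt τ) :
    (P.Vis (fun w => (((P.w0 f w).re + ‖f w + f τ‖ ^ 2 : ℝ) : ℂ)) τ).re ≤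
      (P.hat (P.w0 f) τ).re + 2 * (P.w0 f τ).re := by
  have hw := P.pl_w0 hf
  have hτC := P.pl_side_C hτ
  have cf := P.pl_cont hf
  have cn : ContinuousOn (fun w => ‖f w + f τ‖ ^ 2) P.C :=
    ((cf.add continuousOn_const).norm).pow 2
  have cT := P.pl_re_cont (P.pl_cont hw)
  have e1 : (fun w => (((P.w0 f w).re + ‖f w + f τ‖ ^ 2 : ℝ) : ℂ)) =
      fun w => (((P.w0 f w).re : ℝ) : ℂ) + ((‖f w + f τ‖ ^ 2 : ℝ) : ℂ) := by
    funext w
    push_cast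
    ring
  have e2 : P.Vis (fun w => (((P.w0 f w).re : ℝ) : ℂ) + ((‖f w + f τ‖ ^ 2 : ℝ) : ℂ)) τ =
      P.Vis (fun w => (((P.w0 f w).re : ℝ) : ℂ)) τ + P.Vis (fun w => ((‖f w + f τ‖ ^ 2 : ℝ) : ℂ)) τ :=
    P.vis_add (P.pl_ofR cT) (P.pl_ofR cn) hτC
  rw [e1, e2, Complex.add_re, ← P.pl_hat_re hw hτ]
  have hre : ∀ x : ℂ, ((2 : ℂ) * x).re = 2 * x.re := fun x => by simp [Complex.mul_re]
  have hG : ContinuousOn (fun w => (2 : ℂ) * 1 + (2 * conj (f τ)) * f w) P.C :=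
    continuousOn_const.add (continuousOn_const.mul cf)
  have h2 := P.vis_re_mono (g := fun w => ‖f w + f τ‖ ^ 2)
    (h := fun w => ((2 : ℂ) * 1 + (2 * conj (f τ)) * f w).re) cn
    (P.pl_re_cont hG) (fun w hw' => ?_) hτC
  · have e3 : P.Vis (fun w => (2 : ℂ) * 1 + (2 * conj (f τ)) * f w) τ =
        2 * 1 + (2 * conj (f τ)) * P.Vis f τ := by
      have a := P.vis_add (g := fun _ => (2 : ℂ) * 1) (h := fun w => (2 * conj (f τ)) * f w)
        continuousOn_const (continuousOn_const.mul cf) hτC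
      rw [a, P.vis_const_mul 2 (fun _ => 1), P.vis_const_mul (2 * conj (f τ)) f, P.vis_one_side hτ]
    rw [← P.vis_re _ hG hτC, e3] at h2
    have e4 : (P.w0 f τ).re = 1 + (conj (P.Vis f τ) * f τ).re := by
      simp only [w0, Complex.add_re, Complex.one_re, P.hat_side hf hτ]
    have e5 : (conj (P.Vis f τ) * f τ).re = (conj (f τ) * P.Vis f τ).re := by
      simp only [Complex.mul_re, Complex.conj_re, Complex.conj_im]
      ring
    have e6 : ((2 : ℂ) * 1 + 2 * conj (f τ) * P.Vis f τ).re = 2 + 2 * (conj (f τ) * P.Vis f τ).re := by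
      rw [mul_assoc, Complex.add_re, hre, hre]
      simp
    rw [e6] at h2
    rw [e4, e5]
    linarith
  · have a1 := hf1 w hw'
    have a2 := hf1 τ hτC
    have e6 : ‖f w + f τ‖ ^ 2 = ‖f w‖ ^ 2 + ‖f τ‖ ^ 2 + 2 * (f w * conj (f τ)).re := by
      rw [Complex.sq_norm, Complex.normSq_add, Complex.sq_norm, Complex.sq_norm]
    have e7 : ((2 : ℂ) * 1 + 2 * conj (f τ) * f w).re = 2 + 2 * (f w * conj (f τ)).re := by
      rw [mul_assoc, Complex.add_re, hre, hre, mul_comm (conj (f τ))]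
      simp
    rw [e6, e7]
    nlinarith [norm_nonneg (f w), norm_nonneg (f τ)]

theorem pointwise : ∃ c0 > 0, ∀ (P : Poly) (f : ℂ → ℂ), DiffContOnCl ℂ f P.Om →
    (∀ z ∈ P.C, ‖f z‖ ≤ 1) → ∀ p, P.SideInt p →
    c0 ≤ (P.hat (P.w0 f) p).re + (P.hat (P.hat (P.w0 f)) p).re := by
  obtain ⟨ε, hε, hloc⟩ := local_lemma
  have hm : 0 < min ε (ε ^ 2) := lt_min hε (by positivity)
  refine ⟨min ε (ε ^ 2) / 4608, by positivity, ?_⟩
  intro P f hf hf1 p₀ hp₀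
  set c0 := min ε (ε ^ 2) / 4608 with hc0
  have hc1 : 4608 * c0 ≤ ε := by rw [hc0]; linarith [min_le_left ε (ε ^ 2)]
  have hc2 : 4608 * c0 ≤ ε ^ 2 := by rw [hc0]; linarith [min_le_right ε (ε ^ 2)]
  have hc00 : 0 < c0 := by positivity
  have hw := P.pl_w0 hf
  have hw1 := P.hat_diffContOnCl hw
  have cT := P.pl_re_cont (P.pl_cont hw)
  have cR := P.pl_re_cont (P.pl_cont hw1)
  have cf := P.pl_cont hf
  have cψ : ContinuousOn (fun z => (P.w0 f z).re + (P.hat (P.w0 f) z).re) P.C := cT.add cR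
  have nψ : ∀ z ∈ P.C, 0 ≤ (P.w0 f z).re + (P.hat (P.w0 f) z).re := fun z hz =>
    add_nonneg (P.pl_T hf hf1 hz) (P.pl_R hf hf1 hz)
  by_contra hlt
  push Not at hlt
  have e2 : P.Vis (fun w => (((P.w0 f w).re + (P.hat (P.w0 f) w).re : ℝ) : ℂ)) p₀ =
      P.Vis (fun w => (((P.w0 f w).re : ℝ) : ℂ)) p₀ + P.Vis (fun w => ((P.hat (P.w0 f) w).re : ℂ)) p₀ := by
    have := P.vis_add (P.pl_ofR cT) (P.pl_ofR cR) (P.pl_side_C hp₀)
    simpa only [Complex.ofReal_add] using this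
  rw [P.pl_hat_re hw hp₀, P.pl_hat_re hw1 hp₀, ← Complex.add_re, ← e2] at hlt
  obtain ⟨j₀, s₀, h0, h0', rfl⟩ := hp₀
  have hpi := Real.pi_pos
  have hlt' : (P.Vis (fun w => (((P.w0 f w).re + (P.hat (P.w0 f) w).re : ℝ) : ℂ)) (P.σ j₀ s₀)).re <
      (48 * c0) / 48 := by
    rw [mul_div_cancel_left₀ _ (by norm_num)]
    exact hlt
  obtain ⟨z₁, hz₁, a1, a2, a3⟩ := P.pl_sel h0 h0' cψ nψ (θ₁ := Real.pi / 2 - Real.pi / 16)
    (θ₂ := Real.pi / 2 - Real.pi / 24) (by ring) (by linarith) (by linarith) (by positivity) hlt'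
  obtain ⟨z₂, hz₂, b1, b2, b3⟩ := P.pl_sel h0 h0' cψ nψ (θ₁ := Real.pi / 2 + Real.pi / 24)
    (θ₂ := Real.pi / 2 + Real.pi / 16) (by ring) (by linarith) (by linarith) (by positivity) hlt'
  obtain ⟨τ, hτ, j₁, t₁, g1, g2, hτe, θa, θb, g3, g4, g5, key⟩ :=
    P.pl_two h0.le h0'.le hz₁ hz₂ a1 a2 b1 b2
  have hτs : P.SideInt τ := by
    rcases hτ with rfl | rfl
    · exact hz₁
    · exact hz₂
  have hψτ : (P.w0 f τ).re + (P.hat (P.w0 f) τ).re < 48 * c0 := by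
    rcases hτ with rfl | rfl
    · exact a3
    · exact b3
  have hτC := P.pl_side_C hτs
  have h2 := P.pl_phi hf hf1 hτs
  have hT := P.pl_T hf hf1 hτC
  have hR := P.pl_R hf hf1 hτC
  have cn : ContinuousOn (fun w => (P.w0 f w).re + ‖f w + f τ‖ ^ 2) P.C :=
    cT.add (((cf.add continuousOn_const).norm).pow 2)
  have nn : ∀ z ∈ P.C, 0 ≤ (P.w0 f z).re + ‖f z + f τ‖ ^ 2 := fun z hz =>
    add_nonneg (P.pl_T hf hf1 hz) (by positivity)
  rw [hτe] at h2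
  obtain ⟨Y, hY, c1, c2, c3⟩ := P.pl_sel g1 g2 cn nn g5 g3 g4 (A := 96 * (48 * c0)) (by positivity)
    (by rw [← hτe] at h2 ⊢; linarith)
  obtain ⟨k1, k2⟩ := key Y hY c1 c2
  rw [← hτe] at k1 k2
  refine hloc P f hf hf1 τ Y hτs hY k1 k2 ⟨?_, by linarith, ?_⟩
  · have : 0 ≤ ‖f Y + f τ‖ ^ 2 := by positivity
    linarith
  · have h3 := P.pl_T hf hf1 (P.pl_side_C hY)
    have h4 : ‖f Y + f τ‖ ^ 2 < ε ^ 2 := by linarith
    exact lt_of_pow_lt_pow_left₀ 2 hε.le h4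

end Poly

end P123U
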