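import Vale.Agent.Lib.P123.U.Stub

/-! Plane geometry for the pointwise lemma. -/

open Complex Finset Filter Topology
open scoped ComplexConjugate

noncomputable section

namespace P123U

/-- The unit complex number with argument `x`. -/
def E (x : ℝ) : ℂ := Complex.exp ((x : ℂ) * I)

lemma E_add (a b : ℝ) : E (a + b) = E a * E b := by
  unfold E
  rw [← Complex.exp_add]
  congr 1
  push_cast
  ring

lemma E_zero : E 0 = 1 := by simp [E]

lemma norm_E (a : ℝ) : ‖E a‖ = 1 := Complex.norm_exp_ofReal_mul_I a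

lemma E_re (a : ℝ) : (E a).re = Real.cos a := Complex.exp_ofReal_mul_I_re a

lemma E_im (a : ℝ) : (E a).im = Real.sin a := Complex.exp_ofReal_mul_I_im a

lemma E_eq (a : ℝ) : E a = (Real.cos a : ℂ) + (Real.sin a : ℂ) * I := by
  unfold E
  rw [Complex.exp_mul_I, Complex.ofReal_cos, Complex.ofReal_sin]

lemma E_neg_mul (a : ℝ) : E (-a) * E a = 1 := by
  rw [← E_add]
  simp [E_zero]

lemma arg_form (w : ℂ) : w = (‖w‖ : ℂ) * E (Complex.arg w) :=
  (Complex.norm_mul_exp_arg_mul_I w).symm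

lemma sin_ge {x a : ℝ} (ha0 : 0 ≤ a) (ha : a ≤ Real.pi / 2) (h1 : a ≤ x)
    (h2 : x ≤ Real.pi - a) : 2 / Real.pi * a ≤ Real.sin x := by
  have hpi := Real.pi_pos
  have h3 : 2 / Real.pi * a ≤ 2 / Real.pi * x := by
    apply mul_le_mul_of_nonneg_left h1 (by positivity)
  by_cases h : x ≤ Real.pi / 2
  · exact h3.trans (Real.mul_le_sin (by linarith) h)
  · have h4 : Real.sin x = Real.sin (Real.pi - x) := (Real.sin_pi_sub x).symm
    rw [h4]
    have h5 : 2 / Real.pi * a ≤ 2 / Real.pi * (Real.pi - x) := by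
      apply mul_le_mul_of_nonneg_left (by linarith) (by positivity)
    exact h5.trans (Real.mul_le_sin (by linarith) (by linarith))

lemma sin_ge_12 {x : ℝ} (h1 : Real.pi / 12 ≤ x) (h2 : x ≤ Real.pi - Real.pi / 12) :
    1 / 6 ≤ Real.sin x := by
  have hpi := Real.pi_pos
  have := sin_ge (by positivity) (by linarith) h1 h2
  have h3 : 2 / Real.pi * (Real.pi / 12) = 1 / 6 := by
    field_simp
    norm_num
  linarith

lemma sin_ge_24 {x : ℝ} (h1 : Real.pi / 24 ≤ x) (h2 : x ≤ Real.pi - Real.pi / 24) :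
    1 / 12 ≤ Real.sin x := by
  have hpi := Real.pi_pos
  have := sin_ge (by positivity) (by linarith) h1 h2
  have h3 : 2 / Real.pi * (Real.pi / 24) = 1 / 12 := by
    field_simp
    norm_num
  linarith

lemma sin_ge_48 {x : ℝ} (h1 : Real.pi / 48 ≤ x) (h2 : x ≤ Real.pi - Real.pi / 48) :
    1 / 24 ≤ Real.sin x := by
  have hpi := Real.pi_pos
  have := sin_ge (by positivity) (by linarith) h1 h2
  have h3 : 2 / Real.pi * (Real.pi / 48) = 1 / 24 := by
    field_simp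
    norm_num
  linarith

lemma sin_ge_4 {x : ℝ} (h1 : Real.pi / 4 ≤ x) (h2 : x ≤ Real.pi - Real.pi / 4) :
    1 / 2 ≤ Real.sin x := by
  have hpi := Real.pi_pos
  have := sin_ge (by positivity) (by linarith) h1 h2
  have h3 : 2 / Real.pi * (Real.pi / 4) = 1 / 2 := by
    field_simp
    norm_num
  linarith

/-- Real inequality behind the midpoint lemma. -/
lemma mid_core {D X Z a b p q r y : ℝ} (h : X ^ 2 + Z ^ 2 = 1) (h1 : y / 2 * X ≤ D)
    (h2 : -(y / 2 * X) ≤ D) (h3 : a * X + b * Z ≤ D) (h4 : p * X + q * Z ≤ D)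
    (ha : |a| ≤ 3 * r) (hp : |p| ≤ 3 * r) (hb : r / 24 ≤ b) (hq : q ≤ -(r / 12))
    (hy : r / 6 ≤ y) (hr : 0 < r) : r / 900 ≤ D := by
  have hX : r * |X| ≤ 12 * D := by
    have h5 : y / 2 * |X| ≤ D := by
      rcases abs_cases X with ⟨h, _⟩ | ⟨h, _⟩ <;> rw [h] <;> linarith
    have h6 : r / 12 * |X| ≤ y / 2 * |X| := by
      apply mul_le_mul_of_nonneg_right (by linarith) (abs_nonneg X)
    linarith
  have haX : |a * X| ≤ 3 * r * |X| := by
    rw [abs_mul]; exact mul_le_mul_of_nonneg_right ha (abs_nonneg X)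
  have hpX : |p * X| ≤ 3 * r * |X| := by
    rw [abs_mul]; exact mul_le_mul_of_nonneg_right hp (abs_nonneg X)
  have hD : 0 ≤ D := by
    have := mul_nonneg hr.le (abs_nonneg X)
    linarith
  have hZ : r * |Z| ≤ 888 * D := by
    have h7 := le_abs_self (a * X)
    have h8 := neg_abs_le (a * X)
    have h9 := neg_abs_le (p * X)
    rcases le_total 0 Z with hz | hz
    · rw [abs_of_nonneg hz]
      have : r / 24 * Z ≤ b * Z := mul_le_mul_of_nonneg_right hb hz
      linarith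
    · rw [abs_of_nonpos hz]
      have : (r / 12) * (-Z) ≤ (-q) * (-Z) :=
        mul_le_mul_of_nonneg_right (by linarith) (by linarith)
      nlinarith
  have h10 : 1 ≤ |X| + |Z| := by
    have : (|X| + |Z|) ^ 2 ≥ 1 := by
      have e1 : |X| ^ 2 = X ^ 2 := sq_abs X
      have e2 : |Z| ^ 2 = Z ^ 2 := sq_abs Z
      nlinarith [abs_nonneg X, abs_nonneg Z, mul_nonneg (abs_nonneg X) (abs_nonneg Z)]
    nlinarith [abs_nonneg X, abs_nonneg Z]
  have h11 : r * 1 ≤ r * (|X| + |Z|) := mul_le_mul_of_nonneg_left h10 hr.le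
  linarith

lemma abs_aux1 {r y c : ℝ} (hr : 0 < r) (hy0 : 0 ≤ y) (hy2 : y ≤ 2 * r) (h1 : c ≤ 1) (h2 : -1 ≤ c) :
    |r * c - y / 2| ≤ 3 * r := by
  have h3 : r * c ≤ r * 1 := mul_le_mul_of_nonneg_left h1 hr.le
  have h4 : r * (-1) ≤ r * c := mul_le_mul_of_nonneg_left h2 hr.le
  rw [abs_le]
  constructor <;> linarith

lemma abs_aux2 {r y c c' : ℝ} (hr : 0 < r) (hy0 : 0 ≤ y) (hy2 : y ≤ 2 * r) (h1 : c ≤ 1) (h2 : -1 ≤ c)
    (h1' : c' ≤ 1) (h2' : -1 ≤ c') : |r * (c - c') - y / 2| ≤ 3 * r := by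
  have h3 : r * (c - c') ≤ r * 2 := mul_le_mul_of_nonneg_left (by linarith) hr.le
  have h4 : r * (-2) ≤ r * (c - c') := mul_le_mul_of_nonneg_left (by linarith) hr.le
  rw [abs_le]
  constructor <;> linarith

namespace Poly

variable (P : Poly)

/-- The midpoint of `τ`, `Y` is deep in every half plane containing `p₀, τ, P', Y`. -/
lemma geom_mid (i : ℕ) {p₀ u : ℂ} (hu : ‖u‖ = 1) {s r δ α y : ℝ} (hs : s * s = 1) (hr : 0 < r)
    (hδ1 : Real.pi / 12 ≤ δ) (hδ2 : δ ≤ Real.pi / 8) (hα1 : Real.pi / 48 ≤ α)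
    (hα2 : α ≤ Real.pi / 24) (hy1 : r / 6 ≤ y) (hy2 : y ≤ 2 * r)
    (h0 : 0 ≤ P.d i p₀)
    (h1 : 0 ≤ P.d i (p₀ - (r : ℂ) * (u * E (s * α))))
    (h2 : 0 ≤ P.d i (p₀ - (r : ℂ) * (u * E (s * α) * E (s * δ))))
    (h3 : 0 ≤ P.d i (p₀ - (r : ℂ) * (u * E (s * α)) + (y : ℂ) * u)) :
    r / 900 ≤ P.d i (p₀ - (r : ℂ) * (u * E (s * α)) + ((y / 2 : ℝ) : ℂ) * u) := by
  have hpi := Real.pi_pos
  have hs' : (s : ℂ) * s = 1 := by exact_mod_cast hs
  have Es : ∀ a : ℝ, E (s * a) = (Real.cos a : ℂ) + (s : ℂ) * (Real.sin a : ℂ) * I := by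
    intro a
    have hs2 : s = 1 ∨ s = -1 := by
      have : (s - 1) * (s + 1) = 0 := by ring_nf; nlinarith
      rcases mul_eq_zero.1 this with h | h
      · left; linarith
      · right; linarith
    rcases hs2 with rfl | rfl
    · simp [E_eq]
    · have : ((-1 : ℝ) * a) = -a := by ring
      rw [this, E_eq]
      simp
  set M : ℂ := p₀ - (r : ℂ) * (u * E (s * α)) + ((y / 2 : ℝ) : ℂ) * u with hM
  set v : ℂ := I * (s : ℂ) * u with hv
  set X : ℝ := (conj (P.n i) * u).re with hX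
  set Z : ℝ := (conj (P.n i) * v).re with hZ
  have hXZ : X ^ 2 + Z ^ 2 = 1 := by
    have hw : ‖conj (P.n i) * u‖ = 1 := by rw [norm_mul, RCLike.norm_conj, P.norm_n, hu, one_mul]
    have h5 : (conj (P.n i) * u).re ^ 2 + (conj (P.n i) * u).im ^ 2 = 1 := by
      have := Complex.sq_norm (conj (P.n i) * u)
      rw [hw, Complex.normSq_apply] at this
      nlinarith
    have h6 : Z = -(s * (conj (P.n i) * u).im) := by
      rw [hZ, hv]
      have : conj (P.n i) * (I * (s : ℂ) * u) = I * ((s : ℂ) * (conj (P.n i) * u)) := by ring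
      rw [this]
      simp
    rw [hX, h6]
    have : (-(s * (conj (P.n i) * u).im)) ^ 2 = (s * s) * (conj (P.n i) * u).im ^ 2 := by ring
    rw [this, hs, one_mul]
    exact h5
  -- the four points in the frame at `M`
  have e1 : p₀ - (r : ℂ) * (u * E (s * α)) = M + ((-(y / 2) : ℝ) : ℂ) * u := by
    rw [hM]; push_cast; ring
  have e2 : p₀ - (r : ℂ) * (u * E (s * α)) + (y : ℂ) * u = M + ((y / 2 : ℝ) : ℂ) * u := by
    rw [hM]; push_cast; ring
  have e3 : p₀ = M + ((r * Real.cos α - y / 2 : ℝ) : ℂ) * u + ((r * Real.sin α : ℝ) : ℂ) * v := by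
    rw [hM, hv, Es α]; push_cast; ring_nf
  have e4 : p₀ - (r : ℂ) * (u * E (s * α) * E (s * δ)) =
      M + ((r * (Real.cos α - Real.cos (α + δ)) - y / 2 : ℝ) : ℂ) * u
        + ((r * (Real.sin α - Real.sin (α + δ)) : ℝ) : ℂ) * v := by
    have e5 : E (s * α) * E (s * δ) = E (s * (α + δ)) := by
      rw [mul_add, E_add]
    rw [mul_assoc u, e5, hM, hv, Es α, Es (α + δ)]
    push_cast
    ring_nf
  have d1 := h1
  rw [e1, P.d_lin] at d1
  have d3 := h3
  rw [e2, P.d_lin] at d3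
  have d0 := h0
  rw [e3, P.d_lin, P.d_lin] at d0
  have d2 := h2
  rw [e4, P.d_lin, P.d_lin] at d2
  have hcos := Real.cos_le_one α
  have hcos' := Real.neg_one_le_cos α
  have hcos2 := Real.cos_le_one (α + δ)
  have hcos2' := Real.neg_one_le_cos (α + δ)
  have hy0 : 0 ≤ y := by linarith [div_pos hr (by norm_num : (0 : ℝ) < 6)]
  have hb : r / 24 ≤ r * Real.sin α := by
    have := mul_le_mul_of_nonneg_left (sin_ge_48 hα1 (by linarith)) hr.le
    linarith
  have hq : r * (Real.sin α - Real.sin (α + δ)) ≤ -(r / 12) := by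
    have h5 : Real.sin α - Real.sin (α + δ) = 2 * Real.sin (-(δ / 2)) * Real.cos (α + δ / 2) := by
      rw [Real.sin_sub_sin]
      congr 2
      · congr 1; ring
      · congr 1; ring
    have h6 : 1 / 12 ≤ Real.sin (δ / 2) := sin_ge_24 (by linarith) (by linarith)
    have h7 : 1 / 2 ≤ Real.cos (α + δ / 2) := by
      rw [← Real.sin_pi_div_two_sub]
      exact sin_ge_4 (by linarith) (by linarith)
    rw [Real.sin_neg] at h5
    have h8 : 1 / 12 * 1 ≤ Real.sin (δ / 2) * (2 * Real.cos (α + δ / 2)) :=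
      mul_le_mul h6 (by linarith) (by norm_num) (by linarith)
    have h9 : Real.sin α - Real.sin (α + δ) ≤ -(1 / 12) := by
      rw [h5]; linarith
    have := mul_le_mul_of_nonneg_left h9 hr.le
    linarith
  refine mid_core hXZ (by linarith) (by linarith) (a := r * Real.cos α - y / 2)
    (b := r * Real.sin α) ?_ (p := r * (Real.cos α - Real.cos (α + δ)) - y / 2)
    (q := r * (Real.sin α - Real.sin (α + δ))) ?_ ?_ ?_ hb hq hy1 hr
  · linarith
  · linarith
  · exact abs_aux1 hr hy0 hy2 hcos hcos'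
  · exact abs_aux2 hr hy0 hy2 hcos hcos' hcos2 hcos2'

lemma norm_e (j : ℕ) : ‖P.e j‖ = 1 := by
  unfold e
  rw [norm_mul, Complex.norm_I, P.norm_n, one_mul]

lemma im_div_e (j : ℕ) (s : ℝ) (z : ℂ) : ((z - P.σ j s) / P.e j).im = P.d (j + 1) z := by
  have h1 : (z - P.σ j s) / P.e j = -I * (conj (P.n (j + 1)) * (z - P.σ j s)) := by
    have hn := P.n_mul_conj (j + 1)
    have hne : P.n (j + 1) ≠ 0 := by
      intro h
      rw [h] at hn
      simp at hn
    unfold e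
    rw [div_eq_iff (mul_ne_zero I_ne_zero hne)]
    have : -I * (conj (P.n (j + 1)) * (z - P.σ j s)) * (I * P.n (j + 1))
        = (-(I * I)) * (conj (P.n (j + 1)) * P.n (j + 1)) * (z - P.σ j s) := by ring
    rw [this, hn, I_mul_I]
    ring
  rw [h1]
  have h2 := P.d_sub (j + 1) z (P.σ j s)
  rw [d_σ_self, sub_zero] at h2
  rw [h2]
  have : conj (P.n (j + 1)) * (P.σ j s - z) = -(conj (P.n (j + 1)) * (z - P.σ j s)) := by ring
  rw [this]
  simp

lemma norm_div_e (j : ℕ) (z : ℂ) : ‖z / P.e j‖ = ‖z‖ := by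
  rw [norm_div, P.norm_e, div_one]

/-- Inner step at a point of a side. -/
lemma exists_step {j₀ : ℕ} {s₀ : ℝ} (h0 : 0 < s₀) (h1 : s₀ < P.l j₀) :
    ∃ t : ℝ, 0 < t ∧ P.σ j₀ s₀ + (t : ℂ) * (I * P.e j₀) ∈ P.C := by
  have hc : ∀ i, Continuous fun t : ℝ => P.d i (P.σ j₀ s₀ + (t : ℂ) * (I * P.e j₀)) := by
    intro i
    exact (P.continuous_d i).comp (by fun_prop)
  have hev : ∀ᶠ t : ℝ in 𝓝 0, ∀ r ∈ Finset.range P.N, r ≠ 0 →
      0 < P.d (j₀ + 1 + r) (P.σ j₀ s₀ + (t : ℂ) * (I * P.e j₀)) := by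
    rw [Filter.eventually_all_finset]
    intro r hr
    by_cases hr0 : r = 0
    · simp [hr0]
    · have h2 := P.d_σ_pos h0 h1 (by omega : 1 ≤ r) (Finset.mem_range.1 hr)
      have h3 := (hc (j₀ + 1 + r)).tendsto 0
      simp only [Complex.ofReal_zero, zero_mul, add_zero] at h3
      filter_upwards [h3.eventually (lt_mem_nhds h2)] with t ht _
      exact ht
  have hev2 := (hev.filter_mono nhdsWithin_le_nhds).and
    (self_mem_nhdsWithin : Set.Ioi (0 : ℝ) ∈ 𝓝[>] 0)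
  obtain ⟨t, ht, ht0⟩ := hev2.exists
  refine ⟨t, ht0, fun i => ?_⟩
  obtain ⟨r, hr, hd⟩ := P.d_shift i (j₀ + 1)
  rw [hd]
  by_cases hr0 : r = 0
  · subst hr0
    rw [add_zero, P.d_lin, d_σ_self]
    have : (conj (P.n (j₀ + 1)) * (I * P.e j₀)).re = -1 := by
      unfold e
      have : conj (P.n (j₀ + 1)) * (I * (I * P.n (j₀ + 1)))
          = (I * I) * (conj (P.n (j₀ + 1)) * P.n (j₀ + 1)) := by ring
      rw [this, n_mul_conj, I_mul_I]
      simp
    rw [this]
    have : (0 : ℝ) < t := ht0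
    linarith
  · exact (ht r (Finset.mem_range.2 hr) hr0).le

end Poly

lemma arg_range_of {w : ℂ} (him : 0 ≤ w.im) (hw : w ≠ 0) (h : 2 * |w.re| ≤ ‖w‖) :
    Real.pi / 3 ≤ Complex.arg w ∧ Complex.arg w ≤ 2 * Real.pi / 3 := by
  have hn : 0 < ‖w‖ := norm_pos_iff.2 hw
  have harg0 : 0 ≤ Complex.arg w := Complex.arg_nonneg_iff.2 him
  have hargpi := Complex.arg_le_pi w
  have hcos : Real.cos (Complex.arg w) = w.re / ‖w‖ := Complex.cos_arg hw
  have h1 : |w.re / ‖w‖| ≤ 1 / 2 := by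
    rw [abs_div, abs_of_pos hn, div_le_iff₀ hn]
    linarith
  rw [← hcos, abs_le] at h1
  have hpi := Real.pi_pos
  constructor
  · by_contra hlt
    push Not at hlt
    have := Real.cos_lt_cos_of_nonneg_of_le_pi harg0 (by linarith) hlt
    rw [Real.cos_pi_div_three] at this
    linarith
  · by_contra hlt
    push Not at hlt
    have := Real.cos_lt_cos_of_nonneg_of_le_pi (by positivity) hargpi hlt
    have h2 : Real.cos (2 * Real.pi / 3) = -(1 / 2) := by
      have : 2 * Real.pi / 3 = Real.pi - Real.pi / 3 := by ring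
      rw [this, Real.cos_pi_sub, Real.cos_pi_div_three]
    rw [h2] at this
    linarith

lemma re_le_of_arg {w : ℂ} (h1 : Real.pi / 3 ≤ Complex.arg w)
    (h2 : Complex.arg w ≤ 2 * Real.pi / 3) (hw : w ≠ 0) : 2 * |w.re| ≤ ‖w‖ := by
  have hn : 0 < ‖w‖ := norm_pos_iff.2 hw
  have hcos : Real.cos (Complex.arg w) = w.re / ‖w‖ := Complex.cos_arg hw
  have hpi := Real.pi_pos
  have h3 : Real.cos (Complex.arg w) ≤ 1 / 2 := by
    rw [← Real.cos_pi_div_three]
    exact Real.cos_le_cos_of_nonneg_of_le_pi (by positivity) (Complex.arg_le_pi w) h1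
  have h4 : -(1 / 2) ≤ Real.cos (Complex.arg w) := by
    have h5 : Real.cos (2 * Real.pi / 3) = -(1 / 2) := by
      have : 2 * Real.pi / 3 = Real.pi - Real.pi / 3 := by ring
      rw [this, Real.cos_pi_sub, Real.cos_pi_div_three]
    rw [← h5]
    exact Real.cos_le_cos_of_nonneg_of_le_pi (by linarith) (by linarith) h2
  have h6 : |w.re| = ‖w‖ * |Real.cos (Complex.arg w)| := by
    rw [hcos, abs_div, abs_of_pos hn]
    field_simp
  rw [h6]
  have h7 : |Real.cos (Complex.arg w)| ≤ 1 / 2 := abs_le.2 ⟨h4, h3⟩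
  nlinarith

lemma choose_params {θs : ℝ} (h1 : Real.pi / 3 ≤ θs) (h2 : θs ≤ 2 * Real.pi / 3) :
    ∃ s θ₁ θ₂ : ℝ, s * s = 1 ∧ θ₂ - θ₁ = Real.pi / 24 ∧ Real.pi / 3 ≤ θ₁ ∧ θ₂ ≤ 2 * Real.pi / 3 ∧
      ∀ θ, θ₁ ≤ θ → θ ≤ θ₂ → Real.pi / 12 ≤ s * (θs - θ) ∧ s * (θs - θ) ≤ Real.pi / 8 ∧
        ∀ α, Real.pi / 48 ≤ α → α ≤ Real.pi / 24 →
          Real.pi / 4 ≤ θ - s * α ∧ θ - s * α ≤ Real.pi - Real.pi / 4 := by
  have hpi := Real.pi_pos
  by_cases h : Real.pi / 2 ≤ θs
  · refine ⟨1, θs - Real.pi / 8, θs - Real.pi / 12, by norm_num, by ring, by linarith, by linarith,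
      fun θ h3 h4 => ⟨by linarith, by linarith, fun α h5 h6 => ⟨by linarith, by linarith⟩⟩⟩
  · push Not at h
    refine ⟨-1, θs + Real.pi / 12, θs + Real.pi / 8, by norm_num, by ring, by linarith, by linarith,
      fun θ h3 h4 => ⟨by linarith, by linarith, fun α h5 h6 => ⟨by linarith, by linarith⟩⟩⟩

/-- the elementary identity for the crossing point -/
lemma cross_id {p₀ u : ℂ} {s r α δ : ℝ} (hs : s * s = 1) (hS : Real.sin (α + δ) ≠ 0) :
    p₀ - (r : ℂ) * (u * E (s * α)) + ((r * Real.sin δ / Real.sin (α + δ) : ℝ) : ℂ) * u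
      = ((1 - Real.sin α / Real.sin (α + δ) : ℝ) : ℂ) * p₀
        + ((Real.sin α / Real.sin (α + δ) : ℝ) : ℂ) *
          (p₀ - (r : ℂ) * (u * E (s * α) * E (s * δ))) := by
  have hs2 : s = 1 ∨ s = -1 := by
    have : (s - 1) * (s + 1) = 0 := by ring_nf; nlinarith
    rcases mul_eq_zero.1 this with h | h
    · left; linarith
    · right; linarith
  have Es : ∀ a : ℝ, E (s * a) = (Real.cos a : ℂ) + (s : ℂ) * (Real.sin a : ℂ) * I := by
    intro a
    rcases hs2 with rfl | rfl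
    · simp [E_eq]
    · have : ((-1 : ℝ) * a) = -a := by ring
      rw [this, E_eq]
      simp
  have e5 : E (s * α) * E (s * δ) = E (s * (α + δ)) := by
    rw [mul_add, E_add]
  have fact : Real.sin δ = Real.sin (α + δ) * Real.cos α - Real.cos (α + δ) * Real.sin α := by
    have : δ = (α + δ) - α := by ring
    conv_lhs => rw [this, Real.sin_sub]
  have factC : (Real.sin δ : ℂ) = (Real.sin (α + δ) : ℂ) * (Real.cos α : ℂ)
      - (Real.cos (α + δ) : ℂ) * (Real.sin α : ℂ) := by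
    exact_mod_cast fact
  rw [mul_assoc u, e5, Es α, Es (α + δ)]
  have hSC : (Real.sin (α + δ) : ℂ) ≠ 0 := by exact_mod_cast hS
  simp only [Complex.ofReal_div, Complex.ofReal_mul, Complex.ofReal_sub, Complex.ofReal_one]
  generalize (Real.sin (α + δ) : ℂ) = Sad at *
  generalize (Real.cos (α + δ) : ℂ) = Cad at *
  generalize (Real.sin α : ℂ) = Sa at *
  generalize (Real.cos α : ℂ) = Ca at *
  generalize (Real.sin δ : ℂ) = Sd at *
  field_simp
  rw [factC]
  ring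

end P123U
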