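import Vale.Agent.Lib.P123.U.PL1

/-! The geometric core of the pointwise lemma. -/

open Complex Finset Filter Topology
open scoped ComplexConjugate

noncomputable section

namespace P123U

lemma arg_mem_of_im_pos {w : ℂ} (h : 0 < w.im) : 0 < Complex.arg w ∧ Complex.arg w < Real.pi := by
  have hw : w ≠ 0 := by
    intro h0
    rw [h0] at h
    simp at h
  have hn : 0 < ‖w‖ := norm_pos_iff.2 hw
  have hs : Real.sin (Complex.arg w) = w.im / ‖w‖ := Complex.sin_arg w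
  have hs0 : 0 < Real.sin (Complex.arg w) := by
    rw [hs]
    positivity
  have h0 := Complex.arg_nonneg_iff.2 h.le
  have h1 := Complex.arg_le_pi w
  constructor
  · rcases h0.eq_or_lt with h2 | h2
    · rw [← h2, Real.sin_zero] at hs0
      exact absurd hs0 (lt_irrefl _)
    · exact h2
  · rcases h1.eq_or_lt with h2 | h2
    · rw [h2, Real.sin_pi] at hs0
      exact absurd hs0 (lt_irrefl _)
    · exact h2

lemma sin_pos_range {x : ℝ} (h : 0 < Real.sin x) (h1 : -Real.pi ≤ x) (h2 : x ≤ 2 * Real.pi) :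
    0 < x ∧ x < Real.pi := by
  constructor
  · by_contra hc
    push Not at hc
    have := Real.sin_nonpos_of_nonpos_of_neg_pi_le hc h1
    linarith
  · by_contra hc
    push Not at hc
    have h3 := Real.sin_nonneg_of_nonneg_of_le_pi (x := x - Real.pi) (by linarith) (by linarith)
    rw [Real.sin_sub_pi] at h3
    linarith

lemma s_cases {s : ℝ} (hs : s * s = 1) : s = 1 ∨ s = -1 := by
  have : (s - 1) * (s + 1) = 0 := by ring_nf; nlinarith
  rcases mul_eq_zero.1 this with h | h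
  · left; linarith
  · right; linarith

namespace Poly

variable (P : Poly)

lemma d_pos_other {j : ℕ} {s : ℝ} (h0 : 0 < s) (h1 : s < P.l j) (i : ℕ) {z : ℂ}
    (hz : P.d (j + 1) z ≠ P.d i z) : 0 < P.d i (P.σ j s) := by
  obtain ⟨r, hr, h⟩ := P.d_shift i (j + 1)
  by_cases hr0 : r = 0
  · subst hr0
    exact absurd (by rw [h z, add_zero]) hz
  · rw [h]
    exact P.d_σ_pos h0 h1 (by omega) hr

/-- The second step of the geometric core. -/
lemma second_step {j₀ j₁ : ℕ} {s₀ s₁ r θ θs δ s : ℝ} (h0 : 0 < s₀) (h1 : s₀ < P.l j₀) (h2 : 0 < s₁)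
    (h3 : s₁ < P.l j₁) (hr : 0 < r) (hτ : P.σ j₁ s₁ = P.σ j₀ s₀ + (r : ℂ) * (E θ * P.e j₀))
    (hθ1 : 0 < θ) (hθ2 : θ < Real.pi) (hs : s * s = 1)
    (hδ1 : Real.pi / 12 ≤ δ) (hδ2 : δ ≤ Real.pi / 8) (hθs : θs = θ + s * δ)
    (hP' : P.σ j₀ s₀ + (r : ℂ) * (E θs * P.e j₀) ∈ P.C)
    (hα : ∀ α, Real.pi / 48 ≤ α → α ≤ Real.pi / 24 →
      Real.pi / 4 ≤ θ - s * α ∧ θ - s * α ≤ Real.pi - Real.pi / 4) :
    ∃ θ₁' θ₂' : ℝ, 0 ≤ θ₁' ∧ θ₂' ≤ Real.pi ∧ θ₂' - θ₁' = Real.pi / 48 ∧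
      ∀ Y, P.SideInt Y → θ₁' ≤ Complex.arg ((Y - P.σ j₁ s₁) / P.e j₁) →
        Complex.arg ((Y - P.σ j₁ s₁) / P.e j₁) ≤ θ₂' →
        Y ≠ P.σ j₁ s₁ ∧ ∀ i, ‖P.σ j₁ s₁ - Y‖ / 1800 ≤ P.d i ((P.σ j₁ s₁ + Y) / 2) := by
  have hpi := Real.pi_pos
  set p₀ := P.σ j₀ s₀ with hp₀
  set τ := P.σ j₁ s₁ with hτdef
  set e0 := P.e j₀ with he0
  set e1 := P.e j₁ with he1
  have he1n : ‖e1‖ = 1 := P.norm_e j₁
  have he1ne : e1 ≠ 0 := P.e_ne j₁
  have he0ne : e0 ≠ 0 := P.e_ne j₀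
  have hrC : (r : ℂ) ≠ 0 := by exact_mod_cast hr.ne'
  set ω := E θ * e0 with hω
  have hωn : ‖ω‖ = 1 := by rw [hω, norm_mul, norm_E, P.norm_e, one_mul]
  -- heights
  have hWτ : (τ - p₀) / e0 = (r : ℂ) * E θ := by
    rw [hτ, hω]
    field_simp
    ring
  have himτ : P.d (j₀ + 1) τ = r * Real.sin θ := by
    rw [← P.im_div_e j₀ s₀ τ, ← hp₀, ← he0, hWτ, Complex.im_ofReal_mul, E_im]
  have hsinθ : 0 < Real.sin θ := Real.sin_pos_of_pos_of_lt_pi hθ1 hθ2
  have hdτ : 0 < P.d (j₀ + 1) τ := by rw [himτ]; positivity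
  have hd1τ : P.d (j₁ + 1) τ = 0 := P.d_σ_self j₁ s₁
  have hd1p : 0 < P.d (j₁ + 1) p₀ :=
    P.d_pos_other h0 h1 (j₁ + 1) (z := τ) (by rw [hd1τ]; exact hdτ.ne')
  -- the angle at `τ` of `p₀`
  have him : 0 < ((p₀ - τ) / e1).im := by
    rw [P.im_div_e j₁ s₁ p₀]
    exact hd1p
  obtain ⟨hβ0, hβπ⟩ := arg_mem_of_im_pos him
  set β₀ := Complex.arg ((p₀ - τ) / e1) with hβ₀
  have hnw : ‖(p₀ - τ) / e1‖ = r := by
    rw [P.norm_div_e, hτ, show p₀ - (p₀ + (r : ℂ) * ω) = -((r : ℂ) * ω) by ring, norm_neg, norm_mul,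
      hωn, mul_one, Complex.norm_real, Real.norm_eq_abs, abs_of_pos hr]
  have hform : (p₀ - τ) / e1 = (r : ℂ) * E β₀ := by
    have := arg_form ((p₀ - τ) / e1)
    rw [hnw] at this
    exact this
  have hω2 : -ω = E β₀ * e1 := by
    have h5 : p₀ - τ = (r : ℂ) * E β₀ * e1 := by
      rw [← hform]
      field_simp
    have h6 : (r : ℂ) * (-ω) = (r : ℂ) * (E β₀ * e1) := by
      rw [hτ] at h5
      linear_combination h5
    exact mul_left_cancel₀ hrC h6
  -- directions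
  have hP'' : ∀ α : ℝ, p₀ - (r : ℂ) * ((-ω * E (-(s * α))) * E (s * α) * E (s * δ))
      = p₀ + (r : ℂ) * (E θs * e0) := by
    intro α
    have e5 : E (-(s * α)) * E (s * α) = 1 := E_neg_mul _
    rw [hθs, E_add, hω]
    linear_combination (r : ℂ) * E θ * e0 * E (s * δ) * e5
  have hτ' : ∀ α : ℝ, p₀ - (r : ℂ) * ((-ω * E (-(s * α))) * E (s * α)) = τ := by
    intro α
    have e5 : E (-(s * α)) * E (s * α) = 1 := E_neg_mul _
    rw [hτ]
    linear_combination (r : ℂ) * ω * e5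
  have hp₀C : p₀ ∈ P.C := P.σ_mem_C h0.le h1.le
  -- the crossing point
  have hcross : ∀ α, Real.pi / 48 ≤ α → α ≤ Real.pi / 24 →
      0 < Real.sin (α + δ) ∧ Real.sin (α + δ) ≤ 1 ∧ Real.sin α < Real.sin (α + δ) ∧ 0 < Real.sin α ∧
      ∀ i, P.d i (τ + ((r * Real.sin δ / Real.sin (α + δ) : ℝ) : ℂ) * (-ω * E (-(s * α))))
        = (1 - Real.sin α / Real.sin (α + δ)) * P.d i p₀
          + Real.sin α / Real.sin (α + δ) * P.d i (p₀ + (r : ℂ) * (E θs * e0)) := by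
    intro α h4 h5
    have hS : 0 < Real.sin (α + δ) := Real.sin_pos_of_pos_of_lt_pi (by linarith) (by linarith)
    refine ⟨hS, Real.sin_le_one _, Real.sin_lt_sin_of_lt_of_le_pi_div_two (by linarith)
      (by linarith) (by linarith), Real.sin_pos_of_pos_of_lt_pi (by linarith) (by linarith), ?_⟩
    intro i
    have h6 := cross_id (p₀ := p₀) (u := -ω * E (-(s * α))) (r := r) (s := s) (α := α) (δ := δ) hs hS.ne'
    rw [hτ' α, hP'' α] at h6
    rw [h6, d_comb]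
  have hsinβ : ∀ α, Real.pi / 48 ≤ α → α ≤ Real.pi / 24 → 0 < Real.sin (β₀ - s * α) := by
    intro α h4 h5
    obtain ⟨hS, _, hSa, hS0, hd⟩ := hcross α h4 h5
    have h6 := hd (j₁ + 1)
    have h7 : (-ω * E (-(s * α))) / e1 = E (β₀ - s * α) := by
      rw [hω2, sub_eq_add_neg, E_add]
      field_simp
    have h8 : ∀ t : ℝ, P.d (j₁ + 1) (τ + (t : ℂ) * (-ω * E (-(s * α)))) = t * Real.sin (β₀ - s * α) := by
      intro t
      rw [← P.im_div_e j₁ s₁, ← hτdef, ← he1]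
      have : (τ + (t : ℂ) * (-ω * E (-(s * α))) - τ) / e1 = (t : ℂ) * E (β₀ - s * α) := by
        rw [← h7]; ring
      rw [this, Complex.im_ofReal_mul, E_im]
    rw [h8] at h6
    have ha : 0 < 1 - Real.sin α / Real.sin (α + δ) := by
      rw [sub_pos, div_lt_one hS]
      exact hSa
    have ha' : 0 ≤ Real.sin α / Real.sin (α + δ) := by positivity
    have hnn := hP' (j₁ + 1)
    have hpos : 0 < (r * Real.sin δ / Real.sin (α + δ)) * Real.sin (β₀ - s * α) := by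
      rw [h6]
      have := mul_pos ha hd1p
      have := mul_nonneg ha' hnn
      linarith
    have hrc : 0 < r * Real.sin δ / Real.sin (α + δ) := by
      have : 0 < Real.sin δ := Real.sin_pos_of_pos_of_lt_pi (by linarith) (by linarith)
      positivity
    exact (pos_iff_pos_of_mul_pos hpos).1 hrc
  have hrange : ∀ α, Real.pi / 48 ≤ α → α ≤ Real.pi / 24 → 0 < β₀ - s * α ∧ β₀ - s * α < Real.pi := by
    intro α h4 h5
    apply sin_pos_range (hsinβ α h4 h5)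
    · rcases s_cases hs with rfl | rfl <;> linarith
    · rcases s_cases hs with rfl | rfl <;> linarith
  -- the range of angles
  have hb1 := hrange (Real.pi / 48) le_rfl (by linarith)
  have hb2 := hrange (Real.pi / 24) (by linarith) le_rfl
  refine ⟨min (β₀ - s * (Real.pi / 48)) (β₀ - s * (Real.pi / 24)),
    max (β₀ - s * (Real.pi / 48)) (β₀ - s * (Real.pi / 24)),
    le_min hb1.1.le hb2.1.le, max_le hb1.2.le hb2.2.le, ?_, ?_⟩
  · rcases s_cases hs with rfl | rfl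
    · rw [min_eq_right (by linarith), max_eq_left (by linarith)]
      ring
    · rw [min_eq_left (by linarith), max_eq_right (by linarith)]
      ring
  · rintro Y ⟨j₂, s₂, hs₂0, hs₂1, hY⟩ hY1 hY2
    set β := Complex.arg ((Y - τ) / e1) with hβ
    have hβ0 : 0 < β := lt_of_lt_of_le (lt_min hb1.1 hb2.1) hY1
    have hβπ' : β < Real.pi := lt_of_le_of_lt hY2 (max_lt hb1.2 hb2.2)
    have hw0 : (Y - τ) / e1 ≠ 0 := by
      intro h
      rw [hβ, h, Complex.arg_zero] at hβ0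
      exact lt_irrefl _ hβ0
    have hYτ : Y ≠ τ := by
      intro h
      apply hw0
      rw [h]
      simp
    set y := ‖Y - τ‖ with hy
    have hy0 : 0 < y := norm_pos_iff.2 (sub_ne_zero.2 hYτ)
    -- the direction
    set α := s * (β₀ - β) with hαdef
    have hsα : s * α = β₀ - β := by
      rw [hαdef, ← mul_assoc, hs, one_mul]
    have hα1 : Real.pi / 48 ≤ α := by
      rcases s_cases hs with h | h
      · rw [h] at hY1 hY2 hαdef
        rw [min_eq_right (by linarith)] at hY1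
        rw [max_eq_left (by linarith)] at hY2
        rw [hαdef]
        linarith
      · rw [h] at hY1 hY2 hαdef
        rw [min_eq_left (by linarith)] at hY1
        rw [max_eq_right (by linarith)] at hY2
        rw [hαdef]
        linarith
    have hα2 : α ≤ Real.pi / 24 := by
      rcases s_cases hs with h | h
      · rw [h] at hY1 hY2 hαdef
        rw [min_eq_right (by linarith)] at hY1
        rw [max_eq_left (by linarith)] at hY2
        rw [hαdef]
        linarith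
      · rw [h] at hY1 hY2 hαdef
        rw [min_eq_left (by linarith)] at hY1
        rw [max_eq_right (by linarith)] at hY2
        rw [hαdef]
        linarith
    set u := -ω * E (-(s * α)) with hu
    have huE : u = E β * e1 := by
      rw [hu, hω2, hsα]
      have : β = β₀ + -(β₀ - β) := by ring
      conv_rhs => rw [this, E_add]
      ring
    have hun : ‖u‖ = 1 := by rw [huE, norm_mul, norm_E, P.norm_e, one_mul]
    have hYeq : Y = τ + (y : ℂ) * u := by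
      have h5 := arg_form ((Y - τ) / e1)
      rw [P.norm_div_e] at h5
      have h6 : Y - τ = (y : ℂ) * E β * e1 := by
        rw [← h5]
        field_simp
      rw [huE]
      linear_combination h6
    obtain ⟨hS, hS1, hSa, hS0, hd⟩ := hcross α hα1 hα2
    -- lower bound for `y`
    have hsinβ' : 0 < Real.sin β := Real.sin_pos_of_pos_of_lt_pi hβ0 hβπ'
    have hdY1 : P.d (j₁ + 1) Y = y * Real.sin β := by
      rw [← P.im_div_e j₁ s₁, ← hτdef, ← he1]
      conv_lhs => rw [arg_form ((Y - τ) / e1), P.norm_div_e]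
      rw [Complex.im_ofReal_mul, E_im]
    have hdτ2 : 0 < P.d (j₂ + 1) τ := by
      apply P.d_pos_other h2 h3 (j₂ + 1) (z := Y)
      rw [hdY1, hY, P.d_σ_self]
      positivity
    have hdY2 : P.d (j₂ + 1) Y = 0 := by rw [hY, P.d_σ_self]
    have hL : P.d (j₂ + 1) τ = y * (conj (P.n (j₂ + 1)) * u).re := by
      rw [hYeq, P.d_lin] at hdY2
      linarith
    have hLpos : 0 < (conj (P.n (j₂ + 1)) * u).re := by
      have := hdτ2
      rw [hL] at this
      exact (pos_iff_pos_of_mul_pos this).1 hy0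
    have hrcle : r * Real.sin δ / Real.sin (α + δ) ≤ y := by
      have h5 := hd (j₂ + 1)
      rw [P.d_lin] at h5
      have ha : 0 ≤ 1 - Real.sin α / Real.sin (α + δ) := by
        rw [sub_nonneg, div_le_one hS]
        exact hSa.le
      have ha' : 0 ≤ Real.sin α / Real.sin (α + δ) := by positivity
      have h6 := mul_nonneg ha (hp₀C (j₂ + 1))
      have h7 := mul_nonneg ha' (hP' (j₂ + 1))
      have h8 : r * Real.sin δ / Real.sin (α + δ) * (conj (P.n (j₂ + 1)) * u).re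
          ≤ y * (conj (P.n (j₂ + 1)) * u).re := by
        rw [← hL]
        linarith
      exact le_of_mul_le_mul_right h8 hLpos
    have hsinδ : 1 / 6 ≤ Real.sin δ := sin_ge_12 hδ1 (by linarith)
    have hy6 : r / 6 ≤ y := by
      refine le_trans ?_ hrcle
      rw [le_div_iff₀ hS]
      have h5 : r / 6 * Real.sin (α + δ) ≤ r / 6 * 1 :=
        mul_le_mul_of_nonneg_left hS1 (by positivity)
      have h6 : r * (1 / 6) ≤ r * Real.sin δ := mul_le_mul_of_nonneg_left hsinδ hr.le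
      linarith
    -- upper bound for `y`
    have hYC : Y ∈ P.C := by
      rw [hY]
      exact P.σ_mem_C hs₂0.le hs₂1.le
    have hy2 : y ≤ 2 * r := by
      have h5 := hYC (j₀ + 1)
      rw [← P.im_div_e j₀ s₀, ← hp₀, ← he0] at h5
      have h6 : (Y - p₀) / e0 = (r : ℂ) * E θ - (y : ℂ) * E (θ - s * α) := by
        rw [hYeq, hτ, hu, hω, sub_eq_add_neg θ, E_add]
        field_simp
        ring
      rw [h6, Complex.sub_im, Complex.im_ofReal_mul, Complex.im_ofReal_mul, E_im, E_im] at h5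
      obtain ⟨h7, h8⟩ := hα α hα1 hα2
      have h9 := sin_ge_4 h7 h8
      have h10 := Real.sin_le_one θ
      have h11 : y * (1 / 2) ≤ y * Real.sin (θ - s * α) := mul_le_mul_of_nonneg_left h9 hy0.le
      have h12 : r * Real.sin θ ≤ r * 1 := mul_le_mul_of_nonneg_left h10 hr.le
      linarith
    refine ⟨hYτ, fun i => ?_⟩
    have hmid : (τ + Y) / 2 = p₀ - (r : ℂ) * (u * E (s * α)) + ((y / 2 : ℝ) : ℂ) * u := by
      rw [hτ' α, hYeq]
      push_cast
      ring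
    have hnorm : ‖τ - Y‖ = y := norm_sub_rev _ _
    rw [hmid, hnorm]
    have hgm := P.geom_mid i (p₀ := p₀) hun (s := s) (r := r) (δ := δ) (α := α) (y := y) hs hr hδ1 hδ2
      hα1 hα2 hy6 hy2 (hp₀C i)
      (by rw [hτ' α]; exact P.σ_mem_C h2.le h3.le i)
      (by rw [hP'' α]; exact hP' i)
      (by rw [hτ' α, ← hYeq]; exact hYC i)
    linarith

/-- The geometric core of the pointwise lemma. -/
theorem pl_geom {j₀ : ℕ} {s₀ : ℝ} (h0 : 0 < s₀) (h1 : s₀ < P.l j₀) :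
    ∃ θ₁ θ₂ : ℝ, 0 ≤ θ₁ ∧ θ₂ ≤ Real.pi ∧ θ₂ - θ₁ = Real.pi / 24 ∧
      ∀ j₁ s₁, 0 < s₁ → s₁ < P.l j₁ →
        θ₁ ≤ Complex.arg ((P.σ j₁ s₁ - P.σ j₀ s₀) / P.e j₀) →
        Complex.arg ((P.σ j₁ s₁ - P.σ j₀ s₀) / P.e j₀) ≤ θ₂ →
        ∃ θ₁' θ₂' : ℝ, 0 ≤ θ₁' ∧ θ₂' ≤ Real.pi ∧ θ₂' - θ₁' = Real.pi / 48 ∧
          ∀ Y, P.SideInt Y → θ₁' ≤ Complex.arg ((Y - P.σ j₁ s₁) / P.e j₁) →
            Complex.arg ((Y - P.σ j₁ s₁) / P.e j₁) ≤ θ₂' →
            Y ≠ P.σ j₁ s₁ ∧ ∀ i, ‖P.σ j₁ s₁ - Y‖ / 1800 ≤ P.d i ((P.σ j₁ s₁ + Y) / 2) := by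
  have hpi := Real.pi_pos
  set p₀ := P.σ j₀ s₀ with hp₀
  set e0 := P.e j₀ with he0
  have he0ne : e0 ≠ 0 := P.e_ne j₀
  have hp₀C : p₀ ∈ P.C := P.σ_mem_C h0.le h1.le
  have hWc : Continuous fun z : ℂ => (z - p₀) / e0 := by fun_prop
  have hQ : IsCompact (P.C ∩ {z | 2 * |((z - p₀) / e0).re| ≤ ‖(z - p₀) / e0‖}) :=
    P.isCompact_C.inter_right (isClosed_le (by fun_prop) (by fun_prop))
  have hp₀Q : p₀ ∈ P.C ∩ {z | 2 * |((z - p₀) / e0).re| ≤ ‖(z - p₀) / e0‖} := by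
    refine ⟨hp₀C, ?_⟩
    simp
  obtain ⟨P₁, hP₁, hmax⟩ := hQ.exists_isMaxOn ⟨p₀, hp₀Q⟩ (continuous_norm.comp hWc).continuousOn
  obtain ⟨t, ht, htC⟩ := P.exists_step h0 h1
  have hstep : (p₀ + (t : ℂ) * (I * e0) - p₀) / e0 = (t : ℂ) * I := by
    field_simp
    ring
  have hstepQ : p₀ + (t : ℂ) * (I * e0) ∈ P.C ∩ {z | 2 * |((z - p₀) / e0).re| ≤ ‖(z - p₀) / e0‖} := by
    refine ⟨htC, ?_⟩
    show 2 * |((p₀ + (t : ℂ) * (I * e0) - p₀) / e0).re| ≤ ‖(p₀ + (t : ℂ) * (I * e0) - p₀) / e0‖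
    rw [hstep]
    simp
  have hR0 : t ≤ ‖(P₁ - p₀) / e0‖ := by
    have h2 := hmax hstepQ
    simp only [Function.comp, Set.mem_ofPred_eq] at h2
    rw [hstep] at h2
    simpa [abs_of_pos ht] using h2
  have hR : 0 < ‖(P₁ - p₀) / e0‖ := lt_of_lt_of_le ht hR0
  set R := ‖(P₁ - p₀) / e0‖ with hRdef
  have hP₁ne : (P₁ - p₀) / e0 ≠ 0 := norm_pos_iff.1 hR
  have him : 0 ≤ ((P₁ - p₀) / e0).im := by
    rw [hp₀, he0, P.im_div_e]
    exact hP₁.1 _
  obtain ⟨h3, h4⟩ := arg_range_of him hP₁ne hP₁.2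
  set θs := Complex.arg ((P₁ - p₀) / e0) with hθs
  obtain ⟨s, θ₁, θ₂, hs, hw, h5, h6, hall⟩ := choose_params h3 h4
  refine ⟨θ₁, θ₂, by linarith, by linarith, hw, ?_⟩
  intro j₁ s₁ hs1 hs2 hθ1 hθ2
  set τ := P.σ j₁ s₁ with hτ
  set θ := Complex.arg ((τ - p₀) / e0) with hθ
  have hθ3 : Real.pi / 3 ≤ θ := by linarith
  have hθ4 : θ ≤ 2 * Real.pi / 3 := by linarith
  have hWτ0 : (τ - p₀) / e0 ≠ 0 := by
    intro h
    rw [hθ, h, Complex.arg_zero] at hθ3
    linarith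
  set r := ‖(τ - p₀) / e0‖ with hrdef
  have hrpos : 0 < r := norm_pos_iff.2 hWτ0
  have hτC : τ ∈ P.C := P.σ_mem_C hs1.le hs2.le
  have hτQ : τ ∈ P.C ∩ {z | 2 * |((z - p₀) / e0).re| ≤ ‖(z - p₀) / e0‖} :=
    ⟨hτC, re_le_of_arg hθ3 hθ4 hWτ0⟩
  have hrR : r ≤ R := hmax hτQ
  obtain ⟨hδ1, hδ2, hα⟩ := hall θ hθ1 hθ2
  have hτeq : τ = p₀ + (r : ℂ) * (E θ * e0) := by
    have h7 := arg_form ((τ - p₀) / e0)
    have h8 : τ - p₀ = (r : ℂ) * E θ * e0 := by
      rw [← h7]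
      field_simp
    linear_combination h8
  have hP₁eq : P₁ - p₀ = (R : ℂ) * E θs * e0 := by
    have h7 := arg_form ((P₁ - p₀) / e0)
    rw [← h7]
    field_simp
  have hP' : p₀ + (r : ℂ) * (E θs * e0) ∈ P.C := by
    intro i
    have hRC : (R : ℂ) ≠ 0 := by exact_mod_cast hR.ne'
    have h7 : p₀ + (r : ℂ) * (E θs * e0) = ((1 - r / R : ℝ) : ℂ) * p₀ + ((r / R : ℝ) : ℂ) * P₁ := by
      have h8 : P₁ = p₀ + (R : ℂ) * E θs * e0 := by linear_combination hP₁eq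
      rw [h8]
      push_cast
      field_simp
      ring
    rw [h7, d_comb]
    have h8 : 0 ≤ r / R := by positivity
    have h9 : 0 ≤ 1 - r / R := by
      rw [sub_nonneg, div_le_one hR]
      exact hrR
    have := mul_nonneg h8 (hP₁.1 i)
    have := mul_nonneg h9 (hp₀C i)
    linarith
  refine P.second_step h0 h1 hs1 hs2 hrpos hτeq (by linarith) (by linarith) hs hδ1 hδ2 ?_ hP' hα
  rw [← mul_assoc, hs]
  ring

end Poly

end P123U
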