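import Mathlib

/-! Convex polygons with equally spaced outward normals. -/

open Complex Finset
open scoped ComplexConjugate

noncomputable section

namespace P123U

/-- A convex polygon with `4 * m` sides whose outward unit normals are equally spaced,
given by the heights of its supporting lines, with a marked point in the interior. -/
structure Poly where
  m : ℕ
  hm : 2 ≤ m
  H : ℕ → ℝ
  per : ∀ j, H (j + 4 * m) = H j
  hconv : ∀ j, 2 * Real.cos (Real.pi / (2 * m)) * H (j + 1) < H j + H (j + 2)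
  c : ℂ
  hc : ∀ j, 0 < H j - ((starRingEnd ℂ) (Complex.exp (((j : ℝ) * (Real.pi / (2 * m)) : ℝ) * I)) * c).re

variable (P : Poly)

namespace Poly

def N : ℕ := 4 * P.m
def φ : ℝ := Real.pi / (2 * P.m)
def n (j : ℕ) : ℂ := Complex.exp (((j : ℝ) * P.φ : ℝ) * I)
def d (j : ℕ) (z : ℂ) : ℝ := P.H j - (conj (P.n j) * z).re
def y (j : ℕ) : ℝ := (P.H (j + 1) - P.H j * Real.cos P.φ) / Real.sin P.φ
def v (j : ℕ) : ℂ := P.n j * ((P.H j : ℂ) + (P.y j : ℂ) * I)
def e (j : ℕ) : ℂ := I * P.n (j + 1)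
def l (j : ℕ) : ℝ := (P.H j + P.H (j + 2) - 2 * Real.cos P.φ * P.H (j + 1)) / Real.sin P.φ
def σ (j : ℕ) (s : ℝ) : ℂ := P.v j + (s : ℂ) * P.e j
def Om : Set ℂ := {z | ∀ j, 0 < P.d j z}
def C : Set ℂ := {z | ∀ j, 0 ≤ P.d j z}

lemma m_pos : (0 : ℝ) < P.m := by
  have := P.hm
  positivity

lemma φ_pos : 0 < P.φ := by
  have := P.m_pos
  unfold φ
  positivity

lemma φ_le : P.φ ≤ Real.pi / 4 := by
  unfold φ
  have h2 : (2 : ℝ) ≤ P.m := by exact_mod_cast P.hm
  have hpi := Real.pi_pos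
  apply div_le_div_of_nonneg_left hpi.le (by norm_num) (by linarith)

lemma N_mul_φ : (P.N : ℝ) * P.φ = 2 * Real.pi := by
  unfold N φ
  have := P.m_pos
  push_cast
  field_simp
  ring

lemma sin_φ_pos : 0 < Real.sin P.φ :=
  Real.sin_pos_of_pos_of_lt_pi P.φ_pos (by
    have := P.φ_le
    have := Real.pi_pos
    linarith)

lemma cos_φ_pos : 0 < Real.cos P.φ :=
  Real.cos_pos_of_mem_Ioo ⟨by have := P.φ_pos; have := Real.pi_pos; linarith, by
    have := P.φ_le
    have := Real.pi_pos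
    linarith⟩

lemma N_pos : 0 < P.N := by
  unfold N
  have := P.hm
  omega

lemma N_ge : 8 ≤ P.N := by
  unfold N
  have := P.hm
  omega

lemma norm_n (j : ℕ) : ‖P.n j‖ = 1 := by
  unfold n
  exact Complex.norm_exp_ofReal_mul_I _

lemma n_mul_conj (j : ℕ) : conj (P.n j) * P.n j = 1 := by
  rw [Complex.conj_mul', norm_n]
  simp

lemma mul_conj_n (j : ℕ) : P.n j * conj (P.n j) = 1 := by
  rw [mul_comm, n_mul_conj]

lemma n_succ (j : ℕ) : P.n (j + 1) = P.n j * Complex.exp ((P.φ : ℝ) * I) := by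
  unfold n
  rw [← Complex.exp_add]
  congr 1
  push_cast
  ring

lemma n_add (j r : ℕ) : P.n (j + r) = P.n j * P.n r := by
  unfold n
  rw [← Complex.exp_add]
  congr 1
  push_cast
  ring

lemma n_per (j : ℕ) : P.n (j + P.N) = P.n j := by
  unfold n
  have h : ((j + P.N : ℕ) : ℝ) * P.φ = (j : ℝ) * P.φ + 2 * Real.pi := by
    push_cast
    rw [add_mul, N_mul_φ]
  rw [h]
  push_cast
  rw [add_mul, Complex.exp_add]
  have : Complex.exp (2 * (Real.pi : ℂ) * I) = 1 := Complex.exp_two_pi_mul_I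
  rw [this, mul_one]

lemma H_per (j : ℕ) : P.H (j + P.N) = P.H j := P.per j

lemma d_per (j : ℕ) (z : ℂ) : P.d (j + P.N) z = P.d j z := by
  unfold d
  rw [n_per, H_per]

lemma y_per (j : ℕ) : P.y (j + P.N) = P.y j := by
  unfold y
  have : j + P.N + 1 = j + 1 + P.N := by omega
  rw [this, H_per, H_per]

lemma v_per (j : ℕ) : P.v (j + P.N) = P.v j := by
  unfold v
  rw [n_per, H_per, y_per]

lemma e_per (j : ℕ) : P.e (j + P.N) = P.e j := by
  unfold e
  have : j + P.N + 1 = j + 1 + P.N := by omega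
  rw [this, n_per]

lemma l_per (j : ℕ) : P.l (j + P.N) = P.l j := by
  unfold l
  have h1 : j + P.N + 2 = j + 2 + P.N := by omega
  have h2 : j + P.N + 1 = j + 1 + P.N := by omega
  rw [h1, h2, H_per, H_per, H_per]

lemma σ_per (j : ℕ) (s : ℝ) : P.σ (j + P.N) s = P.σ j s := by
  unfold σ
  rw [v_per, e_per]

lemma per_mod {α : Type*} (f : ℕ → α) (hf : ∀ j, f (j + P.N) = f j) (j : ℕ) :
    f (j % P.N) = f j := by
  have hp : Function.Periodic f P.N := fun j => hf j
  exact hp.map_mod_nat j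

lemma per_mul {α : Type*} (f : ℕ → α) (hf : ∀ j, f (j + P.N) = f j) (j k : ℕ) :
    f (j + k * P.N) = f j := by
  induction k with
  | zero => simp
  | succ k ih =>
    have : j + (k + 1) * P.N = j + k * P.N + P.N := by ring
    rw [this, hf, ih]

lemma l_pos (j : ℕ) : 0 < P.l j := by
  unfold l
  apply div_pos _ P.sin_φ_pos
  have := P.hconv j
  unfold φ
  linarith

lemma d_lin (j : ℕ) (z w : ℂ) (t : ℝ) :
    P.d j (z + (t : ℂ) * w) = P.d j z - t * (conj (P.n j) * w).re := by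
  unfold d
  have : conj (P.n j) * (z + (t : ℂ) * w) = conj (P.n j) * z + (t : ℂ) * (conj (P.n j) * w) := by
    ring
  rw [this, Complex.add_re, Complex.re_ofReal_mul]
  ring

lemma d_sub (j : ℕ) (z w : ℂ) : P.d j z - P.d j w = (conj (P.n j) * (w - z)).re := by
  unfold d
  rw [mul_sub, Complex.sub_re]
  ring

lemma abs_d_sub_le (j : ℕ) (z w : ℂ) : |P.d j z - P.d j w| ≤ ‖z - w‖ := by
  rw [d_sub]
  calc |(conj (P.n j) * (w - z)).re| ≤ ‖conj (P.n j) * (w - z)‖ := Complex.abs_re_le_norm _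
    _ = ‖w - z‖ := by rw [norm_mul, RCLike.norm_conj, norm_n, one_mul]
    _ = ‖z - w‖ := norm_sub_rev _ _

lemma continuous_d (j : ℕ) : Continuous (P.d j) := by
  unfold d
  fun_prop

/-- convex combination for the affine function `d`. -/
lemma d_comb (j : ℕ) (z w : ℂ) (t : ℝ) :
    P.d j ((1 - t : ℝ) * z + (t : ℝ) * w) = (1 - t) * P.d j z + t * P.d j w := by
  unfold d
  have : conj (P.n j) * (((1 - t : ℝ) : ℂ) * z + (t : ℝ) * w)
      = ((1 - t : ℝ) : ℂ) * (conj (P.n j) * z) + (t : ℝ) * (conj (P.n j) * w) := by ring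
  rw [this, Complex.add_re, Complex.re_ofReal_mul, Complex.re_ofReal_mul]
  ring

lemma conj_n_mul_n_add (j r : ℕ) : conj (P.n j) * P.n (j + r) = P.n r := by
  rw [n_add, ← mul_assoc, n_mul_conj, one_mul]

lemma n_re (r : ℕ) : (P.n r).re = Real.cos ((r : ℝ) * P.φ) := by
  unfold n
  rw [Complex.exp_ofReal_mul_I_re]

lemma n_im (r : ℕ) : (P.n r).im = Real.sin ((r : ℝ) * P.φ) := by
  unfold n
  rw [Complex.exp_ofReal_mul_I_im]

lemma n_one : P.n 1 = Complex.exp ((P.φ : ℝ) * I) := by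
  unfold n
  simp

/-- the vertex `v j` lies on the line `j`. -/
lemma d_v_self (j : ℕ) : P.d j (P.v j) = 0 := by
  unfold d v
  rw [← mul_assoc, n_mul_conj, one_mul]
  simp

/-- the vertex `v j` lies on the line `j + 1`. -/
lemma d_v_succ (j : ℕ) : P.d (j + 1) (P.v j) = 0 := by
  unfold d v
  have hn : P.n j = P.n (j + 1) * conj (P.n 1) := by
    rw [n_add, mul_assoc, mul_conj_n, mul_one]
  have h1 : conj (P.n (j + 1)) * (P.n j * ((P.H j : ℂ) + (P.y j : ℂ) * I))
      = conj (P.n 1) * ((P.H j : ℂ) + (P.y j : ℂ) * I) := by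
    rw [hn, ← mul_assoc, ← mul_assoc, n_mul_conj, one_mul]
  rw [h1]
  have hre : (conj (P.n 1) * ((P.H j : ℂ) + (P.y j : ℂ) * I)).re
      = P.H j * Real.cos P.φ + P.y j * Real.sin P.φ := by
    have h2 := P.n_re 1
    have h3 := P.n_im 1
    simp only [Nat.cast_one, one_mul] at h2 h3
    simp [Complex.mul_re, h2, h3]
    ring
  rw [hre]
  unfold y
  have := P.sin_φ_pos
  field_simp
  ring

lemma v_succ (j : ℕ) : P.v (j + 1) = P.v j + (P.l j : ℂ) * P.e j := by
  have hn : P.n j = P.n (j + 1) * conj (P.n 1) := by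
    rw [n_add, mul_assoc, mul_conj_n, mul_one]
  have hn1 : conj (P.n 1) = ((Real.cos P.φ : ℝ) : ℂ) - ((Real.sin P.φ : ℝ) : ℂ) * I := by
    have h1 := P.n_re 1
    have h2 := P.n_im 1
    simp only [Nat.cast_one, one_mul] at h1 h2
    rw [← h1, ← h2]
    apply Complex.ext <;> simp
  unfold v e
  rw [hn, hn1]
  have hs : Real.sin P.φ ≠ 0 := P.sin_φ_pos.ne'
  have hy1R : P.y (j + 1) * Real.sin P.φ = P.H (j + 2) - P.H (j + 1) * Real.cos P.φ := by
    unfold y
    field_simp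
  have hy0R : P.y j * Real.sin P.φ = P.H (j + 1) - P.H j * Real.cos P.φ := by
    unfold y
    field_simp
  have hlR : P.l j * Real.sin P.φ = P.H j + P.H (j + 2) - 2 * Real.cos P.φ * P.H (j + 1) := by
    unfold l
    field_simp
  have hcR : Real.cos P.φ * Real.cos P.φ + Real.sin P.φ * Real.sin P.φ = 1 := by
    have := Real.cos_sq_add_sin_sq P.φ
    nlinarith
  generalize Real.sin P.φ = SR at *
  generalize Real.cos P.φ = KR at *
  have hy1 : (P.y (j + 1) : ℂ) * (SR : ℂ) = (P.H (j + 2) : ℂ) - (P.H (j + 1) : ℂ) * (KR : ℂ) := by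
    exact_mod_cast hy1R
  have hy0 : (P.y j : ℂ) * (SR : ℂ) = (P.H (j + 1) : ℂ) - (P.H j : ℂ) * (KR : ℂ) := by
    exact_mod_cast hy0R
  have hl : (P.l j : ℂ) * (SR : ℂ) = (P.H j : ℂ) + (P.H (j + 2) : ℂ) - 2 * (KR : ℂ) * (P.H (j + 1) : ℂ) := by
    exact_mod_cast hlR
  have hcos : (KR : ℂ) * (KR : ℂ) + (SR : ℂ) * (SR : ℂ) = 1 := by
    exact_mod_cast hcR
  have hsc : (SR : ℂ) ≠ 0 := by exact_mod_cast hs
  apply mul_left_cancel₀ hsc
  have hI : I * I = -1 := Complex.I_mul_I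
  generalize (SR : ℂ) = S at *
  generalize (KR : ℂ) = K at *
  generalize P.n (j + 1) = N1 at *
  linear_combination N1 * I * hy1 - N1 * (K - S * I) * I * hy0 - N1 * I * hl
    + N1 * (S * (P.H (j + 1) : ℂ) - K * S * (P.H j : ℂ)) * hI + N1 * (P.H j : ℂ) * I * hcos

end Poly

end P123U
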