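import Vale.Agent.Lib.P123.U.Oper

/-! From the polygon statement `core` to the theorem for all operators and polynomials. -/

open Complex Finset Filter Topology Polynomial
open scoped ComplexConjugate

noncomputable section
namespace P123U
namespace Reduce

universe u

section TH
variable {V : Type*} [NormedAddCommGroup V] [InnerProductSpace ℂ V]

theorem th_core (S : V →ₗ[ℂ] V) {x y : V} (hx : ‖x‖ = 1) (hy : ‖y‖ = 1) (h0 : inner ℂ x (S x) = 0)
    (h1 : inner ℂ y (S y) = 1) {t : ℝ} (ht0 : 0 ≤ t) (ht1 : t ≤ 1) :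
    ∃ z, ‖z‖ = 1 ∧ inner ℂ z (S z) = (t : ℂ) := by
  obtain ⟨ω, hω, hωr⟩ : ∃ ω : ℂ, ‖ω‖ = 1 ∧
      (ω * (inner ℂ y (S x) - conj (inner ℂ x (S y)))).im = 0 := by
    by_cases hw : inner ℂ y (S x) - conj (inner ℂ x (S y)) = 0
    · exact ⟨1, by simp, by rw [hw]; simp⟩
    · generalize inner ℂ y (S x) - conj (inner ℂ x (S y)) = w at hw
      have hn : (‖w‖ : ℂ) ≠ 0 := by simpa using hw
      refine ⟨conj w / ‖w‖, ?_, ?_⟩
      · rw [norm_div]; simp [hw]
      · have : conj w / ‖w‖ * w = (‖w‖ : ℂ) := by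
          rw [div_mul_eq_mul_div, Complex.conj_mul']; field_simp
        rw [this]; simp
  have hωω : conj ω * ω = 1 := by rw [Complex.conj_mul', hω]; simp
  set x' : V := ω • x with hx'
  have hx1 : ‖x'‖ = 1 := by rw [hx', norm_smul, hω, hx, one_mul]
  have h0' : inner ℂ x' (S x') = 0 := by
    simp [hx', h0]
  set c : ℂ := inner ℂ x' (S y) with hc
  set d : ℂ := inner ℂ y (S x') with hd
  have hcd : (c + d).im = 0 := by
    have e1 : c = conj ω * inner ℂ x (S y) := by simp [hc, hx', mul_comm]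
    have e2 : d = ω * inner ℂ y (S x) := by simp [hd, hx']
    have e3 : (ω * conj (inner ℂ x (S y))).im = -(conj ω * inner ℂ x (S y)).im := by
      rw [← Complex.conj_im]; simp
    rw [e1, e2]
    rw [mul_sub] at hωr
    simp only [Complex.sub_im] at hωr
    rw [e3] at hωr
    simp only [Complex.add_im]
    linarith
  set r : ℝ := (c + d).re with hr
  have hcdr : c + d = (r : ℂ) := by
    apply Complex.ext <;> simp [hr, hcd]
  let zz : ℝ → V := fun s => ((1 - s : ℝ) : ℂ) • x' + (s : ℂ) • y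
  have key : ∀ s : ℝ, inner ℂ (zz s) (S (zz s)) = ((s ^ 2 + s * (1 - s) * r : ℝ) : ℂ) := by
    intro s
    have : inner ℂ (zz s) (S (zz s)) =
        ((1 - s : ℝ) : ℂ) * (s : ℂ) * (c + d) + (s : ℂ) ^ 2 := by
      simp only [zz, map_add, map_smul, inner_add_left, inner_add_right, inner_smul_left,
        inner_smul_right, Complex.conj_ofReal, h0', h1, ← hc, ← hd]
      ring
    rw [this, hcdr]; push_cast; ring
  have hz0 : ∀ s : ℝ, zz s ≠ 0 := by
    intro s hs
    have hy : (s : ℂ) • y = -(((1 - s : ℝ) : ℂ) • x') := eq_neg_of_add_eq_zero_right hs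
    have h2 : (s : ℂ) ^ 2 = 0 := by
      have := congrArg (fun v => inner ℂ v (S v)) hy
      simp only [map_neg, map_smul, inner_neg_left, inner_neg_right, inner_smul_left,
        inner_smul_right, Complex.conj_ofReal, h0', h1] at this
      simpa [sq] using this
    have hs0 : s = 0 := by simpa using h2
    have : x' = 0 := by simpa [zz, hs0] using hs
    rw [this, norm_zero] at hx1
    exact zero_ne_one hx1
  have hzn : ∀ s : ℝ, ‖zz s‖ ≠ 0 := fun s => norm_ne_zero_iff.2 (hz0 s)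
  let g : ℝ → ℝ := fun s => (s ^ 2 + s * (1 - s) * r) / ‖zz s‖ ^ 2
  have hzc : Continuous zz := by
    apply Continuous.add <;> apply Continuous.smul <;> fun_prop
  have hgc : ContinuousOn g (Set.Icc 0 1) := by
    apply Continuous.continuousOn
    apply Continuous.div (by fun_prop) (by fun_prop)
    intro s; exact pow_ne_zero _ (hzn s)
  have hg0 : g 0 = 0 := by simp [g]
  have hz1 : zz 1 = y := by simp [zz]
  have hg1 : g 1 = 1 := by simp [g, hz1, hy]
  have hmem : t ∈ Set.Icc (g 0) (g 1) := by rw [hg0, hg1]; exact ⟨ht0, ht1⟩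
  obtain ⟨s, -, hs⟩ := intermediate_value_Icc (zero_le_one) hgc hmem
  refine ⟨((‖zz s‖⁻¹ : ℝ) : ℂ) • zz s, ?_, ?_⟩
  · rw [norm_smul]; simp [hzn s]
  · rw [map_smul, inner_smul_left, inner_smul_right, key, Complex.conj_ofReal]
    have : t = (‖zz s‖⁻¹) * (‖zz s‖⁻¹) * (s ^ 2 + s * (1 - s) * r) := by
      rw [← hs]; simp only [g]; field_simp
    rw [this]; push_cast; ring

theorem th (T : V →ₗ[ℂ] V) {x y : V} (hx : ‖x‖ = 1) (hy : ‖y‖ = 1) {t : ℝ} (ht0 : 0 ≤ t)
    (ht1 : t ≤ 1) : ∃ z, ‖z‖ = 1 ∧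
      inner ℂ z (T z) = ((1 - t : ℝ) : ℂ) * inner ℂ x (T x) + (t : ℂ) * inner ℂ y (T y) := by
  set a : ℂ := inner ℂ x (T x) with ha
  set b : ℂ := inner ℂ y (T y) with hb
  by_cases hab : b = a
  · refine ⟨x, hx, ?_⟩
    rw [hab, ← ha]; push_cast; ring
  have hba : b - a ≠ 0 := sub_ne_zero.2 hab
  let S : V →ₗ[ℂ] V := (b - a)⁻¹ • (T - a • LinearMap.id)
  have hS : ∀ v, ‖v‖ = 1 → inner ℂ v (S v) = (b - a)⁻¹ * (inner ℂ v (T v) - a) := by
    intro v hv
    simp [S, hv]
  obtain ⟨z, hz, hzt⟩ := th_core S hx hy (by rw [hS x hx, ← ha]; simp)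
    (by rw [hS y hy, ← hb]; field_simp) ht0 ht1
  refine ⟨z, hz, ?_⟩
  rw [hS z hz] at hzt
  have : inner ℂ z (T z) - a = (t : ℂ) * (b - a) := by
    rw [← hzt]; field_simp
  push_cast
  linear_combination this

/-- the numerical range -/
def NR (T : V →ₗ[ℂ] V) : Set ℂ := {ζ | ∃ v : V, ‖v‖ = 1 ∧ inner ℂ v (T v) = ζ}

theorem convex_NR (T : V →ₗ[ℂ] V) : Convex ℝ (NR T) := by
  rintro _ ⟨x, hx, rfl⟩ _ ⟨y, hy, rfl⟩ α β hα hβ hαβ
  obtain ⟨z, hz, hzt⟩ := th T hx hy hβ (by linarith)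
  refine ⟨z, hz, ?_⟩
  rw [hzt, show (1 - β : ℝ) = α by linarith]
  simp [Complex.real_smul]

end TH

section Perturb

theorem aeval_inter {V W : Type*} [AddCommGroup V] [Module ℂ V] [AddCommGroup W] [Module ℂ W]
    (A : V →ₗ[ℂ] V) (B : W →ₗ[ℂ] W) (i : W →ₗ[ℂ] V) (h : ∀ w, A (i w) = i (B w)) (q : ℂ[X])
    (w : W) : (aeval A q) (i w) = i ((aeval B q) w) := by
  induction q using Polynomial.induction_on generalizing w with
  | C a => simp [Module.algebraMap_end_apply]
  | add p q hp hq => simp [hp, hq]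
  | monomial n a ih =>
    have e : (C a * X ^ (n + 1) : ℂ[X]) = C a * X ^ n * X := by ring
    have h1 : aeval A (C a * X ^ n * X) = aeval A (C a * X ^ n) * A := by rw [map_mul, aeval_X]
    have h2 : aeval B (C a * X ^ n * X) = aeval B (C a * X ^ n) * B := by rw [map_mul, aeval_X]
    rw [e, h1, h2, Module.End.mul_apply, Module.End.mul_apply, h, ih]

theorem perturb (n : ℕ) : ∀ (V : Type u) [NormedAddCommGroup V] [InnerProductSpace ℂ V]
    [FiniteDimensional ℂ V], Module.finrank ℂ V = n → ∀ (T : V →ₗ[ℂ] V) (η : ℝ), 0 < η →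
    ∃ (T' : V →ₗ[ℂ] V) (Λ : Finset ℂ), (∀ v, ‖T' v - T v‖ ≤ η * ‖v‖) ∧
      aeval T' (∏ a ∈ Λ, (X - C a)) = 0 := by
  induction n with
  | zero =>
    intro V _ _ _ hV T η hη
    have hsub : Subsingleton V := Module.finrank_zero_iff.1 hV
    exact ⟨T, ∅, fun v => by simp; positivity, Subsingleton.elim _ _⟩
  | succ n ih =>
    intro V _ _ _ hV T η hη
    have : Fact (Module.finrank ℂ V = n + 1) := ⟨hV⟩
    have : Nontrivial V := Module.nontrivial_of_finrank_pos (R := ℂ) (by omega)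
    have : CompleteSpace V := FiniteDimensional.complete ℂ V
    obtain ⟨μ, hμ⟩ := Module.End.exists_eigenvalue (LinearMap.adjoint T)
    obtain ⟨v₀, hv₀⟩ := hμ.exists_hasEigenvector
    have hv0 : v₀ ≠ 0 := hv₀.2
    have hv₁ : LinearMap.adjoint T v₀ = μ • v₀ := hv₀.apply_eq_smul
    set e : V := ((‖v₀‖⁻¹ : ℝ) : ℂ) • v₀ with he
    have hen : ‖e‖ = 1 := by rw [he, norm_smul]; simp [norm_ne_zero_iff.2 hv0]
    have he0 : e ≠ 0 := by intro h; rw [h, norm_zero] at hen; exact zero_ne_one hen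
    have hee : inner ℂ e e = (1 : ℂ) := by rw [inner_self_eq_norm_sq_to_K, hen]; simp
    have hadj : LinearMap.adjoint T e = μ • e := by rw [he, map_smul, hv₁, smul_comm]
    let W : Submodule ℂ V := (ℂ ∙ e)ᗮ
    have hW : ∀ w : V, w ∈ W ↔ inner ℂ e w = 0 := fun w =>
      Submodule.mem_orthogonal_singleton_iff_inner_right
    have hinv : ∀ w ∈ W, T w ∈ W := by
      intro w hw
      rw [hW] at hw ⊢
      rw [← LinearMap.adjoint_inner_left, hadj, inner_smul_left, hw, mul_zero]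
    have hWr : Module.finrank ℂ W = n := Submodule.finrank_orthogonal_span_singleton he0
    obtain ⟨S, Λ, hS, hΛ⟩ := ih W hWr (T.restrict hinv) (η / 4) (by positivity)
    set τ : ℂ := inner ℂ e (T e) with hτ
    obtain ⟨ε, ⟨hε0, hε1⟩, hεΛ⟩ : ∃ ε ∈ Set.Ioo 0 (η / 2),
        ε ∉ Λ.image (fun z : ℂ => (z - τ).re) :=
      (Set.Ioo_infinite (by positivity)).exists_notMem_finset _
    set μ' : ℂ := τ + (ε : ℂ) with hμ'
    have hμΛ : μ' ∉ Λ := by
      intro h
      apply hεΛ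
      rw [Finset.mem_image]
      exact ⟨μ', h, by simp [hμ']⟩
    have hPW : ∀ v : V, v - inner ℂ e v • e ∈ W := by
      intro v
      rw [hW, inner_sub_right, inner_smul_right, hee]; ring
    let PW : V →ₗ[ℂ] W := LinearMap.codRestrict W
      (LinearMap.id - (innerₛₗ ℂ e).smulRight e) (fun v => by simpa using hPW v)
    have hPWv : ∀ v : V, (PW v : V) = v - inner ℂ e v • e := fun v => by simp [PW]
    have hPWw : ∀ w : W, PW (w : V) = w := by
      intro w
      apply Subtype.ext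
      rw [hPWv, (hW _).1 w.2]; simp
    have hPWe : PW e = 0 := by
      apply Subtype.ext
      rw [hPWv, hee]; simp
    let T' : V →ₗ[ℂ] V := W.subtype ∘ₗ S ∘ₗ PW + (innerₛₗ ℂ e).smulRight (T e + (ε : ℂ) • e)
    have hT' : ∀ v, T' v = (S (PW v) : V) + inner ℂ e v • (T e + (ε : ℂ) • e) := fun v => by
      simp [T']
    have hT'w : ∀ w : W, T' (w : V) = (S w : V) := by
      intro w
      rw [hT', hPWw, (hW _).1 w.2]; simp
    have hT'e : T' e = T e + (ε : ℂ) • e := by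
      rw [hT', hPWe, hee]; simp
    refine ⟨T', insert μ' Λ, ?_, ?_⟩
    · intro v
      have hv : v = (PW v : V) + inner ℂ e v • e := by rw [hPWv]; abel
      have h1 : T v = T (PW v : V) + inner ℂ e v • T e := by
        conv_lhs => rw [hv]
        simp
      have h2 : T' v - T v = ((S (PW v) - (T.restrict hinv) (PW v) : W) : V)
          + inner ℂ e v • ((ε : ℂ) • e) := by
        rw [hT', h1]
        simp only [Submodule.coe_sub, LinearMap.coe_restrict_apply, smul_add]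
        abel
      have h3 : ‖inner ℂ e v‖ ≤ ‖v‖ := by
        have := norm_inner_le_norm (𝕜 := ℂ) e v
        rwa [hen, one_mul] at this
      have h4 : ‖(PW v : V)‖ ≤ 2 * ‖v‖ := by
        rw [hPWv]
        calc ‖v - inner ℂ e v • e‖ ≤ ‖v‖ + ‖inner ℂ e v • e‖ := norm_sub_le _ _
          _ ≤ 2 * ‖v‖ := by rw [norm_smul, hen, mul_one]; linarith
      have h5 := hS (PW v)
      rw [h2]
      calc _ ≤ ‖((S (PW v) - (T.restrict hinv) (PW v) : W) : V)‖
            + ‖inner ℂ e v • ((ε : ℂ) • e)‖ := norm_add_le _ _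
        _ ≤ η / 4 * (2 * ‖v‖) + ‖v‖ * ε := by
            gcongr
            · calc _ ≤ η / 4 * ‖PW v‖ := h5
                _ ≤ _ := by gcongr; exact h4
            · rw [norm_smul, norm_smul, hen, mul_one]
              have : ‖(ε : ℂ)‖ = ε := by simp [abs_of_pos hε0]
              rw [this]; gcongr
        _ ≤ η * ‖v‖ := by
            have := norm_nonneg v
            nlinarith
    · rw [Finset.prod_insert hμΛ]
      set g : ℂ[X] := ∏ a ∈ Λ, (X - C a) with hg
      have hinter : ∀ (q : ℂ[X]) (w : W), (aeval T' q) (w : V) = ((aeval S q) w : V) :=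
        fun q w => aeval_inter T' S W.subtype hT'w q w
      have hgw : ∀ w : W, (aeval T' g) (w : V) = 0 := by
        intro w
        rw [hinter, hΛ]; simp
      have hsub : (aeval T' (X - C μ')) e = (PW (T e) : V) := by
        rw [hPWv]
        simp only [map_sub, aeval_X, aeval_C, LinearMap.sub_apply, Module.algebraMap_end_apply]
        rw [hT'e, hμ', add_smul, ← hτ]
        abel
      ext v
      have hv : v = (PW v : V) + inner ℂ e v • e := by rw [hPWv]; abel
      rw [hv]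
      simp only [map_add, map_smul, LinearMap.zero_apply]
      have h1 : (aeval T' ((X - C μ') * g)) (PW v : V) = 0 := by
        rw [map_mul, Module.End.mul_apply, hgw]; simp
      have h2 : (aeval T' ((X - C μ') * g)) e = 0 := by
        rw [mul_comm, map_mul, Module.End.mul_apply, hsub, hgw]
      rw [h1, h2]

end Perturb


section Spec
variable {V : Type*} [AddCommGroup V] [Module ℂ V]

theorem spec [Nontrivial V] (T : V →ₗ[ℂ] V) (Λ : Finset ℂ) (h : aeval T (∏ a ∈ Λ, (X - C a)) = 0) :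
    ∃ (ι : Type) (_ : Fintype ι) (_ : DecidableEq ι) (lam : ι → ℂ) (E : ι → V →ₗ[ℂ] V),
      (∑ i, E i = 1) ∧ (∀ i j, E i * E j = if i = j then E i else 0) ∧
      (∀ i, ∃ v, v ≠ 0 ∧ T v = lam i • v) ∧ ∀ q : ℂ[X], aeval T q = ∑ i, q.eval (lam i) • E i := by
  classical
  have hΛ : Λ.Nonempty := by
    by_contra hne
    rw [Finset.not_nonempty_iff_eq_empty] at hne
    obtain ⟨v, hv⟩ := exists_ne (0 : V)
    apply hv
    have := congrArg (fun f : V →ₗ[ℂ] V => f v) h
    simpa [hne] using this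
  have hinj : Set.InjOn (id : ℂ → ℂ) Λ := Function.injective_id.injOn
  let L : ℂ → ℂ[X] := fun a => Lagrange.basis Λ id a
  let Ea : ℂ → V →ₗ[ℂ] V := fun a => aeval T (L a)
  have hsum : ∑ a ∈ Λ, Ea a = 1 := by
    simp only [Ea, L]
    rw [← map_sum, Lagrange.sum_basis hinj hΛ, map_one]
  have hL : ∀ a ∈ Λ, aeval T ((X - C a) * L a) = 0 := by
    intro a ha
    have e1 : L a = C (∏ j ∈ Λ.erase a, (a - j)⁻¹) * ∏ j ∈ Λ.erase a, (X - C j) := by
      simp only [L, Lagrange.basis, Lagrange.basisDivisor, Finset.prod_mul_distrib, map_prod, id]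
    rw [e1, mul_left_comm, Finset.mul_prod_erase Λ (fun j => X - C j) ha, map_mul, h, mul_zero]
  have heig : ∀ a ∈ Λ, ∀ v, T (Ea a v) = a • Ea a v := by
    intro a ha v
    have := congrArg (fun f : V →ₗ[ℂ] V => f v) (hL a ha)
    simp only [map_mul, map_sub, aeval_X, aeval_C, Module.End.mul_apply, LinearMap.sub_apply,
      Module.algebraMap_end_apply, LinearMap.zero_apply] at this
    exact sub_eq_zero.1 this
  have hact : ∀ a ∈ Λ, ∀ (q : ℂ[X]) v, aeval T q (Ea a v) = q.eval a • Ea a v := fun a ha q v =>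
    Module.End.aeval_apply_of_mem_apply_eq_smul (heig a ha v)
  let s := Λ.filter (fun a => Ea a ≠ 0)
  have hsums : ∀ c : ℂ → ℂ, ∑ i : s, c i.1 • Ea i.1 = ∑ a ∈ Λ, c a • Ea a := by
    intro c
    rw [Finset.sum_coe_sort s (fun a => c a • Ea a)]
    apply Finset.sum_filter_of_ne
    intro a _ hne h0
    exact hne (by rw [h0, smul_zero])
  refine ⟨s, inferInstance, inferInstance, fun i => i.1, fun i => Ea i.1, ?_, ?_, ?_, ?_⟩
  · have := hsums (fun _ => 1)
    simp only [one_smul] at this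
    rw [this, hsum]
  · intro i j
    ext v
    have hiΛ := (Finset.mem_filter.1 i.2).1
    have hjΛ := (Finset.mem_filter.1 j.2).1
    rw [Module.End.mul_apply]
    simp only [Ea]
    rw [hact _ hjΛ]
    by_cases hij : i = j
    · subst hij
      have := Lagrange.eval_basis_self (s := Λ) (v := id) hinj hiΛ
      simp only [id] at this
      simp [L, this, Ea]
    · have hne : i.1 ≠ j.1 := fun e => hij (Subtype.ext e)
      have := Lagrange.eval_basis_of_ne (s := Λ) (v := id) hne hjΛ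
      simp only [id] at this
      simp [L, this, hij]
  · intro i
    have hiΛ := (Finset.mem_filter.1 i.2).1
    have hi0 := (Finset.mem_filter.1 i.2).2
    obtain ⟨v, hv⟩ : ∃ v, Ea i.1 v ≠ 0 := by
      by_contra hh
      push Not at hh
      exact hi0 (LinearMap.ext hh)
    exact ⟨_, hv, heig _ hiΛ v⟩
  · intro q
    rw [hsums (fun a => q.eval a)]
    ext v
    have : v = ∑ a ∈ Λ, Ea a v := by
      have := congrArg (fun f : V →ₗ[ℂ] V => f v) hsum
      simpa using this.symm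
    conv_lhs => rw [this]
    rw [map_sum, LinearMap.sum_apply]
    apply Finset.sum_congr rfl
    intro a ha
    rw [hact a ha]; rfl

end Spec

section Poly0

/-- The normal directions. -/
def nn (m j : ℕ) : ℂ := Complex.exp (((j : ℝ) * (Real.pi / (2 * m)) : ℝ) * I)

lemma nn_per {m : ℕ} (hm : 0 < m) (j : ℕ) : nn m (j + 4 * m) = nn m j := by
  unfold nn
  have hm' : (m : ℝ) ≠ 0 := by positivity
  have : (((j + 4 * m : ℕ) : ℝ) * (Real.pi / (2 * m)) : ℝ) =
      (j : ℝ) * (Real.pi / (2 * m)) + 2 * Real.pi := by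
    push_cast; field_simp; ring
  rw [this]
  push_cast
  rw [add_mul, Complex.exp_add]
  simp [Complex.exp_two_pi_mul_I]

lemma nn_add (m j : ℕ) : nn m j + nn m (j + 2) =
    (2 * Real.cos (Real.pi / (2 * m)) : ℝ) * nn m (j + 1) := by
  unfold nn
  set φ : ℝ := Real.pi / (2 * m)
  have ex : ∀ x y : ℝ, Complex.exp (((x + y : ℝ) : ℂ) * I) =
      Complex.exp ((x : ℂ) * I) * Complex.exp ((y : ℂ) * I) := by
    intro x y
    rw [← Complex.exp_add]; push_cast; ring_nf
  set a : ℝ := ((j + 1 : ℕ) : ℝ) * φ with ha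
  have e1 : (((j + 2 : ℕ) : ℝ) * φ : ℝ) = a + φ := by rw [ha]; push_cast; ring
  have e2 : (((j : ℕ) : ℝ) * φ : ℝ) = a + (-φ) := by rw [ha]; push_cast; ring
  rw [e1, e2, ex, ex]
  have h2 : ((2 * Real.cos φ : ℝ) : ℂ) =
      Complex.exp ((φ : ℂ) * I) + Complex.exp (((-φ : ℝ) : ℂ) * I) := by
    push_cast
    rw [Complex.two_cos]
  rw [h2]
  ring

variable (K : Set ℂ)

/-- The support function. -/
def hh (n : ℂ) : ℝ := sSup ((fun ζ => (conj n * ζ).re) '' K)

variable {K}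

lemma hh_im_compact (hK : IsCompact K) (n : ℂ) :
    IsCompact ((fun ζ => (conj n * ζ).re) '' K) :=
  hK.image (by fun_prop)

lemma le_hh (hK : IsCompact K) (n : ℂ) {ζ : ℂ} (hζ : ζ ∈ K) : (conj n * ζ).re ≤ hh K n :=
  le_csSup (hh_im_compact hK n).bddAbove ⟨ζ, hζ, rfl⟩

lemma exists_hh (hK : IsCompact K) (hne : K.Nonempty) (n : ℂ) :
    ∃ ζ ∈ K, (conj n * ζ).re = hh K n := by
  have := (hh_im_compact hK n).sSup_mem (hne.image _)
  obtain ⟨ζ, hζ, h⟩ := this
  exact ⟨ζ, hζ, h⟩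

/-- The circumscribed polygon. -/
def mkPoly (hK : IsCompact K) (hne : K.Nonempty) (m : ℕ) (hm : 2 ≤ m) (δ : ℝ) (hδ : 0 < δ) : Poly where
  m := m
  hm := hm
  H := fun j => hh K (nn m j) + δ
  per := fun j => by rw [nn_per (by omega)]
  hconv := fun j => by
    obtain ⟨ζ, hζ, h⟩ := exists_hh hK hne (nn m (j + 1))
    have h1 := le_hh hK (nn m j) hζ
    have h2 := le_hh hK (nn m (j + 2)) hζ
    have h3 : (conj (nn m j) * ζ).re + (conj (nn m (j + 2)) * ζ).re =
        (2 * Real.cos (Real.pi / (2 * m))) * (conj (nn m (j + 1)) * ζ).re := by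
      rw [← Complex.add_re, ← add_mul, ← map_add, nn_add, map_mul, Complex.conj_ofReal, mul_assoc,
        Complex.re_ofReal_mul]
    have hc1 : Real.cos (Real.pi / (2 * m)) < 1 := by
      have hm' : (0 : ℝ) < m := by
        have : 0 < m := by omega
        exact_mod_cast this
      have := Real.cos_lt_cos_of_nonneg_of_le_pi (x := 0) (y := Real.pi / (2 * m)) le_rfl
        (div_le_self Real.pi_pos.le (by
          have : (2 : ℝ) ≤ m := by exact_mod_cast hm
          linarith)) (by positivity)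
      simpa using this
    rw [h] at h3
    nlinarith
  c := hne.some
  hc := fun j => by
    have := le_hh hK (nn m j) hne.some_mem
    change 0 < hh K (nn m j) + δ - (conj (nn m j) * hne.some).re
    linarith

lemma mkPoly_d (hK : IsCompact K) (hne : K.Nonempty) (m : ℕ) (hm : 2 ≤ m) (δ : ℝ) (hδ : 0 < δ)
    (j : ℕ) (z : ℂ) :
    (mkPoly hK hne m hm δ hδ).d j z = hh K (nn m j) + δ - (conj (nn m j) * z).re := rfl

/-- Grid normals are dense. -/
lemma exists_grid {m : ℕ} (hm : 2 ≤ m) {u : ℂ} (hu : ‖u‖ = 1) :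
    ∃ j, ‖u - nn m j‖ ≤ Real.pi / (2 * m) := by
  have hm' : (0 : ℝ) < m := by
    have : 0 < m := by omega
    exact_mod_cast this
  set φ : ℝ := Real.pi / (2 * m) with hφ
  have hφ0 : 0 < φ := by positivity
  set θ : ℝ := Complex.arg u + 2 * Real.pi with hθ
  have hθ0 : 0 ≤ θ := by
    have := Complex.neg_pi_lt_arg u
    have := Real.pi_pos
    rw [hθ]; linarith
  have hθu : u = Complex.exp ((θ : ℂ) * I) := by
    have h1 : Complex.exp ((Complex.arg u : ℂ) * I) = u := by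
      have := Complex.norm_mul_exp_arg_mul_I u
      rw [hu] at this
      simpa using this
    rw [hθ]; push_cast
    rw [add_mul, Complex.exp_add, h1, Complex.exp_two_pi_mul_I, mul_one]
  refine ⟨⌊θ / φ⌋₊, ?_⟩
  set j := ⌊θ / φ⌋₊ with hj
  have h1 : (j : ℝ) * φ ≤ θ := by
    have := Nat.floor_le (div_nonneg hθ0 hφ0.le)
    rwa [le_div_iff₀ hφ0] at this
  have h2 : θ < ((j : ℝ) + 1) * φ := by
    have := Nat.lt_floor_add_one (θ / φ)
    rwa [div_lt_iff₀ hφ0] at this
  have e : u - nn m j = nn m j * (Complex.exp (((θ - j * φ : ℝ) : ℂ) * I) - 1) := by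
    rw [hθu]
    unfold nn
    rw [← hφ, mul_sub, ← Complex.exp_add, mul_one]
    congr 2
    push_cast
    ring
  rw [e, norm_mul]
  have hn : ‖nn m j‖ = 1 := by
    unfold nn
    exact Complex.norm_exp_ofReal_mul_I _
  rw [hn, one_mul]
  have := Real.norm_exp_I_mul_ofReal_sub_one_le (x := θ - j * φ)
  rw [mul_comm] at this
  calc _ ≤ ‖θ - j * φ‖ := this
    _ ≤ φ := by
      rw [Real.norm_eq_abs, abs_of_nonneg (by linarith)]
      nlinarith

/-- Every point of the circumscribed polygon is close to `K`. -/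
theorem close_of_mem {hK : IsCompact K} (hc : Convex ℝ K) {hne : K.Nonempty} {m : ℕ} {hm : 2 ≤ m}
    {δ : ℝ} {hδ : 0 < δ} {R : ℝ} (hR : ∀ ξ ∈ K, ‖ξ‖ ≤ R) (hφ : Real.pi / (2 * m) ≤ 1 / 2) {z : ℂ}
    (hz : z ∈ (mkPoly hK hne m hm δ hδ).C) :
    ∃ ζ ∈ K, ‖z - ζ‖ ≤ 2 * δ + 4 * (Real.pi / (2 * m)) * R := by
  obtain ⟨ζ, hζ, hmin⟩ := exists_norm_eq_iInf_of_complete_convex hne hK.isComplete hc z
  have hsep := (norm_eq_iInf_iff_real_inner_le_zero hc hζ).1 hmin
  refine ⟨ζ, hζ, ?_⟩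
  set ρ := ‖z - ζ‖ with hρ
  have hR0 : 0 ≤ R := (norm_nonneg _).trans (hR ζ hζ)
  have hφ0 : 0 ≤ Real.pi / (2 * m) := by positivity
  by_cases h0 : ρ = 0
  · rw [h0]; positivity
  have hρ0 : 0 < ρ := lt_of_le_of_ne (norm_nonneg _) (Ne.symm h0)
  set u : ℂ := (z - ζ) / ρ with hu
  have hρc : (ρ : ℂ) ≠ 0 := by exact_mod_cast h0
  have hun : ‖u‖ = 1 := by
    rw [hu, norm_div]; simp [← hρ, abs_of_pos hρ0, h0]
  have huz : z - ζ = (ρ : ℂ) * u := by rw [hu]; field_simp
  obtain ⟨j, hj⟩ := exists_grid hm hun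
  set φ := Real.pi / (2 * m) with hφd
  have hnj : ‖nn m j‖ = 1 := Complex.norm_exp_ofReal_mul_I _
  obtain ⟨ξ, hξ, hξh⟩ := exists_hh hK hne (nn m j)
  have hzj : (conj (nn m j) * z).re ≤ hh K (nn m j) + δ := by
    have := hz j
    rw [mkPoly_d] at this
    linarith
  have hsepξ : (conj u * (ξ - ζ)).re ≤ 0 := by
    have := hsep ξ hξ
    rw [Complex.inner, huz, mul_comm] at this
    have e : (conj ((ρ : ℂ) * u) * (ξ - ζ)).re = ρ * (conj u * (ξ - ζ)).re := by
      rw [map_mul, Complex.conj_ofReal, mul_assoc, Complex.re_ofReal_mul]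
    rw [e] at this
    by_contra hh'
    push Not at hh'
    have := mul_pos hρ0 hh'
    linarith
  have hbd : ∀ a : ℂ, |(conj (u - nn m j) * a).re| ≤ φ * ‖a‖ := by
    intro a
    calc _ ≤ ‖conj (u - nn m j) * a‖ := Complex.abs_re_le_norm _
      _ = ‖u - nn m j‖ * ‖a‖ := by rw [norm_mul, Complex.norm_conj]
      _ ≤ _ := by gcongr
  have hξζ : ‖ξ - ζ‖ ≤ 2 * R := by
    calc _ ≤ ‖ξ‖ + ‖ζ‖ := norm_sub_le _ _
      _ ≤ _ := by linarith [hR ξ hξ, hR ζ hζ]
  have h1 : (conj (nn m j) * (z - ζ)).re ≤ δ + φ * (2 * R) := by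
    have e1 : (conj (nn m j) * (z - ζ)).re =
        (conj (nn m j) * z).re - (conj (nn m j) * ζ).re := by
      rw [mul_sub, Complex.sub_re]
    have e2 : (conj (nn m j) * (ξ - ζ)).re = (conj u * (ξ - ζ)).re
        - (conj (u - nn m j) * (ξ - ζ)).re := by
      rw [map_sub, sub_mul, Complex.sub_re]; ring
    have e3 : (conj (nn m j) * (ξ - ζ)).re = hh K (nn m j) - (conj (nn m j) * ζ).re := by
      rw [mul_sub, Complex.sub_re, hξh]
    have h5 := neg_abs_le (conj (u - nn m j) * (ξ - ζ)).re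
    have h6 := hbd (ξ - ζ)
    have h7 : φ * ‖ξ - ζ‖ ≤ φ * (2 * R) := by gcongr
    linarith
  have h2 : ρ ≤ (conj (nn m j) * (z - ζ)).re + φ * ρ := by
    have e1 : (conj u * (z - ζ)).re = ρ := by
      rw [huz, mul_left_comm, Complex.re_ofReal_mul, Complex.conj_mul', hun]; simp
    have e2 : (conj u * (z - ζ)).re = (conj (nn m j) * (z - ζ)).re
        + (conj (u - nn m j) * (z - ζ)).re := by
      rw [map_sub, sub_mul, Complex.sub_re]; ring
    have h5 := le_abs_self (conj (u - nn m j) * (z - ζ)).re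
    have h6 := hbd (z - ζ)
    rw [← hρ] at h6
    linarith
  nlinarith

end Poly0

section Main

universe u2

theorem aeval_clm {V : Type*} [NormedAddCommGroup V] [InnerProductSpace ℂ V] (S : V →L[ℂ] V)
    (q : ℂ[X]) (v : V) : (aeval S q) v = (aeval (S : V →ₗ[ℂ] V) q) v := by
  induction q using Polynomial.induction_on generalizing v with
  | C a => simp [Module.algebraMap_end_apply, ContinuousLinearMap.algebraMap_apply]
  | add p q hp hq => simp [hp, hq]
  | monomial n a ih =>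
    have e : (C a * X ^ (n + 1) : ℂ[X]) = C a * X ^ n * X := by ring
    have h1 : aeval S (C a * X ^ n * X) = aeval S (C a * X ^ n) * S := by rw [map_mul, aeval_X]
    have h2 : aeval (S : V →ₗ[ℂ] V) (C a * X ^ n * X) =
        aeval (S : V →ₗ[ℂ] V) (C a * X ^ n) * (S : V →ₗ[ℂ] V) := by rw [map_mul, aeval_X]
    rw [e, h1, h2, ContinuousLinearMap.mul_apply, Module.End.mul_apply, ih]
    rfl

/-- unit vector from a nonzero one -/
lemma exists_unit {V : Type*} [NormedAddCommGroup V] [InnerProductSpace ℂ V] {v : V} (hv : v ≠ 0) :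
    ‖((‖v‖⁻¹ : ℝ) : ℂ) • v‖ = 1 := by
  rw [norm_smul]; simp [norm_ne_zero_iff.2 hv]

theorem fd_step (ε₀ : ℝ) (hcore : ∀ (Q : Poly) {V : Type u2} [NormedAddCommGroup V]
    [InnerProductSpace ℂ V]
    [FiniteDimensional ℂ V] {ι : Type} [Fintype ι] [DecidableEq ι] (lam : ι → ℂ)
    (E : ι → V →L[ℂ] V), (∀ i, lam i ∈ Q.Om) → (∑ i, E i = 1) →
    (∀ i j, E i * E j = if i = j then E i else 0) →
    (∀ v : V, ‖v‖ = 1 → inner ℂ v ((∑ i, lam i • E i) v) ∈ Q.Om) →
    ∀ f : ℂ → ℂ, DiffContOnCl ℂ f Q.Om → (∀ z ∈ Q.C, ‖f z‖ ≤ 1) →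
    ‖∑ i, f (lam i) • E i‖ ≤ ε₀)
    {V : Type u2} [NormedAddCommGroup V] [InnerProductSpace ℂ V] [FiniteDimensional ℂ V]
    [Nontrivial V] (T : V →ₗ[ℂ] V) (P : ℂ[X]) (M : ℝ)
    (hM : ∀ v : V, ‖v‖ = 1 → ‖P.eval (inner ℂ v (T v))‖ ≤ M) {ε ξ : ℝ} (hε : 0 < ε) (hξ : 0 < ξ) :
    0 ≤ ε₀ ∧ ∀ v, ‖(aeval T P) v‖ ≤ ε₀ * (M + ε) * ‖v‖ + ξ * ‖v‖ := by
  classical
  have : ProperSpace V := FiniteDimensional.proper ℂ V
  obtain ⟨v₁, hv₁⟩ := exists_ne (0 : V)
  have hu₁ := exists_unit hv₁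
  set K : Set ℂ := NR T with hKd
  have hTc : Continuous T := T.continuous_of_finiteDimensional
  have hKsph : K = (fun v => inner ℂ v (T v)) '' Metric.sphere (0 : V) 1 := by
    ext ζ; simp [hKd, NR]
  have hK : IsCompact K := by
    rw [hKsph]
    exact (isCompact_sphere _ _).image (by fun_prop)
  have hne : K.Nonempty := ⟨_, _, hu₁, rfl⟩
  have hMK : ∀ ζ ∈ K, ‖P.eval ζ‖ ≤ M := by
    rintro ζ ⟨v, hv, rfl⟩
    exact hM v hv
  have hM0 : 0 ≤ M := (norm_nonneg _).trans (hMK _ hne.some_mem)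
  have hMε : 0 < M + ε := by linarith
  have hPc : Continuous fun z : ℂ => ‖P.eval z‖ := by
    have := P.continuous
    fun_prop
  obtain ⟨ρ, hρ, hρU⟩ := hK.exists_cthickening_subset_open
    (isOpen_lt hPc continuous_const) (t := {z | ‖P.eval z‖ < M + ε})
    (fun ζ hζ => by
      have := hMK ζ hζ
      simp only [Set.mem_setOf_eq]
      linarith)
  obtain ⟨R, hR⟩ := hK.isBounded.exists_norm_le
  have hR0 : 0 ≤ R := (norm_nonneg _).trans (hR _ hne.some_mem)
  obtain ⟨m, hm⟩ := exists_nat_ge (4 * Real.pi * R / ρ + 4)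
  have hπ4 := Real.pi_le_four
  have hπ0 := Real.pi_pos
  have hfrac : 0 ≤ 4 * Real.pi * R / ρ := by positivity
  have hm4 : (4 : ℝ) ≤ m := by linarith
  have hm2 : 2 ≤ m := by
    have : (2 : ℝ) ≤ m := by linarith
    exact_mod_cast this
  have hm0 : (0 : ℝ) < m := by linarith
  have hφ : Real.pi / (2 * m) ≤ 1 / 2 := by
    rw [div_le_div_iff₀ (by positivity) (by norm_num)]
    nlinarith
  have hφR : 4 * (Real.pi / (2 * m)) * R ≤ ρ / 2 := by
    have h1 : 4 * Real.pi * R / ρ ≤ m := by linarith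
    rw [div_le_iff₀ hρ] at h1
    have : 4 * (Real.pi / (2 * m)) * R = (4 * Real.pi * R) / (2 * m) := by ring
    rw [this, div_le_iff₀ (by positivity)]
    nlinarith
  have hδ : 0 < ρ / 4 := by positivity
  set Q : Poly := mkPoly hK hne m hm2 (ρ / 4) hδ with hQ
  set f : ℂ → ℂ := fun z => P.eval z / ((M + ε : ℝ) : ℂ) with hf
  have hfd : DiffContOnCl ℂ f Q.Om := by
    apply Differentiable.diffContOnCl
    exact (P.differentiable).div_const _
  have hMεc : ‖((M + ε : ℝ) : ℂ)‖ = M + ε := by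
    rw [Complex.norm_real, Real.norm_eq_abs, abs_of_pos hMε]
  have hf1 : ∀ z ∈ Q.C, ‖f z‖ ≤ 1 := by
    intro z hz
    obtain ⟨ζ, hζ, hd⟩ := close_of_mem (hc := convex_NR T) hR hφ hz
    have hz' : z ∈ Metric.cthickening ρ K :=
      Metric.mem_cthickening_of_dist_le z ζ ρ K hζ (by
        rw [dist_eq_norm]
        linarith)
    have := hρU hz'
    simp only [Set.mem_setOf_eq] at this
    rw [hf]
    simp only
    rw [norm_div, hMεc, div_le_one hMε]
    exact this.le
  have hcont := (Polynomial.continuous_aeval P : Continuous fun S : V →L[ℂ] V => aeval S P)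
  let Tc : V →L[ℂ] V := LinearMap.toContinuousLinearMap T
  obtain ⟨η, hη, hηc⟩ := Metric.continuous_iff.1 hcont Tc ξ hξ
  have hη2 : 0 < min (η / 2) (ρ / 8) := by positivity
  obtain ⟨T', Λ, hT', hΛ⟩ := perturb _ V rfl T _ hη2
  obtain ⟨ι, _, _, lam, E, hE1, hE2, hEig, hEq⟩ := spec T' Λ hΛ
  have hT'q : ∑ i, lam i • E i = T' := by
    have := hEq X
    simpa using this.symm
  let Ec : ι → V →L[ℂ] V := fun i => LinearMap.toContinuousLinearMap (E i)
  have hsumc : ∀ c : ι → ℂ, ∀ v, (∑ i, c i • Ec i) v = (∑ i, c i • E i) v := by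
    intro c v
    simp [Ec, LinearMap.sum_apply]
  have hNR' : ∀ v : V, ‖v‖ = 1 → inner ℂ v (T' v) ∈ Q.Om := by
    intro v hv j
    rw [hQ, mkPoly_d]
    have h0 := le_hh hK (nn m j) (ζ := inner ℂ v (T v)) ⟨v, hv, rfl⟩
    have h1 : inner ℂ v (T' v) = inner ℂ v (T v) + inner ℂ v (T' v - T v) := by
      rw [inner_sub_right]; ring
    have h2 : ‖inner ℂ v (T' v - T v)‖ ≤ min (η / 2) (ρ / 8) := by
      calc _ ≤ ‖v‖ * ‖T' v - T v‖ := norm_inner_le_norm _ _
        _ ≤ min (η / 2) (ρ / 8) := by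
          have := hT' v
          rw [hv] at this ⊢
          linarith
    have hnn : ‖nn m j‖ = 1 := Complex.norm_exp_ofReal_mul_I _
    have h3 : (conj (nn m j) * inner ℂ v (T' v - T v)).re ≤ min (η / 2) (ρ / 8) := by
      calc _ ≤ ‖conj (nn m j) * inner ℂ v (T' v - T v)‖ := Complex.re_le_norm _
        _ = ‖inner ℂ v (T' v - T v)‖ := by rw [norm_mul, Complex.norm_conj, hnn, one_mul]
        _ ≤ _ := h2
    have h4 : min (η / 2) (ρ / 8) ≤ ρ / 8 := min_le_right _ _
    rw [h1, mul_add, Complex.add_re]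
    linarith
  have hlam : ∀ i, lam i ∈ Q.Om := by
    intro i
    obtain ⟨v, hv0, hv⟩ := hEig i
    have hu := exists_unit hv0
    have := hNR' _ hu
    have hTu : T' (((‖v‖⁻¹ : ℝ) : ℂ) • v) = lam i • (((‖v‖⁻¹ : ℝ) : ℂ) • v) := by
      rw [map_smul, hv, smul_comm]
    have e : inner ℂ (((‖v‖⁻¹ : ℝ) : ℂ) • v) (T' (((‖v‖⁻¹ : ℝ) : ℂ) • v)) = lam i := by
      rw [hTu, inner_smul_right, inner_self_eq_norm_sq_to_K, hu]; simp
    rwa [e] at this
  have hEc1 : ∑ i, Ec i = 1 := by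
    ext v
    have := congrArg (fun g : V →ₗ[ℂ] V => g v) hE1
    simpa [Ec, LinearMap.sum_apply] using this
  have hEc2 : ∀ i j, Ec i * Ec j = if i = j then Ec i else 0 := by
    intro i j
    ext v
    have := congrArg (fun g : V →ₗ[ℂ] V => g v) (hE2 i j)
    by_cases hij : i = j
    · simpa [Ec, hij] using this
    · simpa [Ec, hij] using this
  have hC := hcore Q lam Ec hlam hEc1 hEc2
    (fun v hv => by rw [hsumc, hT'q]; exact hNR' v hv) f hfd hf1
  refine ⟨(norm_nonneg _).trans hC, fun v => ?_⟩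
  have hP' : ∀ w, (aeval T' P) w = ((M + ε : ℝ) : ℂ) • (∑ i, f (lam i) • Ec i) w := by
    intro w
    rw [hsumc, hEq P]
    have hne : ((M + ε : ℝ) : ℂ) ≠ 0 := by exact_mod_cast hMε.ne'
    simp only [LinearMap.sum_apply, LinearMap.smul_apply, Finset.smul_sum, smul_smul, hf]
    apply Finset.sum_congr rfl
    intro i _
    rw [mul_div_cancel₀ _ hne]
  have h1 : ‖(aeval T' P) v‖ ≤ ε₀ * (M + ε) * ‖v‖ := by
    rw [hP', norm_smul, hMεc]
    calc _ ≤ (M + ε) * (ε₀ * ‖v‖) := by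
          gcongr
          exact ((∑ i, f (lam i) • Ec i).le_opNorm v).trans (by gcongr)
      _ = _ := by ring
  let T'c : V →L[ℂ] V := LinearMap.toContinuousLinearMap T'
  have hdist : dist T'c Tc < η := by
    rw [dist_eq_norm]
    have : ‖T'c - Tc‖ ≤ min (η / 2) (ρ / 8) :=
      ContinuousLinearMap.opNorm_le_bound _ hη2.le (fun w => hT' w)
    have h2 : min (η / 2) (ρ / 8) ≤ η / 2 := min_le_left _ _
    linarith
  have h2 := hηc T'c hdist
  rw [dist_eq_norm] at h2
  have h3 : (aeval T P) v = (aeval Tc P) v := (aeval_clm Tc P v).symm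
  have h4 : (aeval T' P) v = (aeval T'c P) v := (aeval_clm T'c P v).symm
  have h5 : (aeval T P) v = (aeval T' P) v - (aeval T'c P - aeval Tc P) v := by
    rw [h3, h4, ContinuousLinearMap.sub_apply]; abel
  rw [h5]
  calc _ ≤ ‖(aeval T' P) v‖ + ‖(aeval T'c P - aeval Tc P) v‖ := norm_sub_le _ _
    _ ≤ _ := by
      gcongr
      exact ((aeval T'c P - aeval Tc P).le_opNorm v).trans (by gcongr)

theorem fd_main (ε₀ : ℝ) (hcore : ∀ (Q : Poly) {V : Type u2} [NormedAddCommGroup V]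
    [InnerProductSpace ℂ V]
    [FiniteDimensional ℂ V] {ι : Type} [Fintype ι] [DecidableEq ι] (lam : ι → ℂ)
    (E : ι → V →L[ℂ] V), (∀ i, lam i ∈ Q.Om) → (∑ i, E i = 1) →
    (∀ i j, E i * E j = if i = j then E i else 0) →
    (∀ v : V, ‖v‖ = 1 → inner ℂ v ((∑ i, lam i • E i) v) ∈ Q.Om) →
    ∀ f : ℂ → ℂ, DiffContOnCl ℂ f Q.Om → (∀ z ∈ Q.C, ‖f z‖ ≤ 1) →
    ‖∑ i, f (lam i) • E i‖ ≤ ε₀)
    {V : Type u2} [NormedAddCommGroup V] [InnerProductSpace ℂ V] [FiniteDimensional ℂ V]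
    [Nontrivial V] (T : V →ₗ[ℂ] V) (P : ℂ[X]) (M : ℝ)
    (hM : ∀ v : V, ‖v‖ = 1 → ‖P.eval (inner ℂ v (T v))‖ ≤ M) (v : V) :
    ‖(aeval T P) v‖ ≤ ε₀ * M * ‖v‖ := by
  have h0 : 0 ≤ ε₀ := (fd_step ε₀ hcore T P M hM one_pos one_pos).1
  apply le_of_forall_pos_le_add
  intro e he
  have hn := norm_nonneg v
  have hD : 0 < (ε₀ + 1) * (‖v‖ + 1) := by positivity
  have hx : 0 < e / ((ε₀ + 1) * (‖v‖ + 1)) := by positivity
  have := (fd_step ε₀ hcore T P M hM hx hx).2 v
  set x := e / ((ε₀ + 1) * (‖v‖ + 1)) with hxd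
  have hxe : x * ((ε₀ + 1) * (‖v‖ + 1)) = e := by rw [hxd]; field_simp
  nlinarith [mul_nonneg hx.le (mul_nonneg (by linarith : 0 ≤ ε₀ + 1) (zero_le_one' ℝ))]

/-- Krylov compression. -/
theorem krylov {H : Type u2} [NormedAddCommGroup H] [InnerProductSpace ℂ H] (A : H →L[ℂ] H)
    (P : ℂ[X]) (x : H) : ∃ (W : Submodule ℂ H) (_ : FiniteDimensional ℂ W) (B : W →ₗ[ℂ] W) (y : W),
    (y : H) = x ∧ (∀ w : W, inner ℂ w (B w) = inner ℂ (w : H) (A w)) ∧
      ((aeval B P) y : H) = (aeval A P) x := by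
  classical
  let g : Fin (P.natDegree + 1) → H := fun k => (A ^ (k : ℕ)) x
  let W : Submodule ℂ H := Submodule.span ℂ (Set.range g)
  have hfd : FiniteDimensional ℂ W := FiniteDimensional.span_of_finite ℂ (Set.finite_range g)
  have hcomp : CompleteSpace W := FiniteDimensional.complete ℂ W
  let pr : H →L[ℂ] W := W.orthogonalProjectionOnto
  let B : W →ₗ[ℂ] W := (pr : H →ₗ[ℂ] W) ∘ₗ (A : H →ₗ[ℂ] H) ∘ₗ W.subtype
  have hg : ∀ k ≤ P.natDegree, (A ^ k) x ∈ W := fun k hk =>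
    Submodule.subset_span ⟨⟨k, by omega⟩, rfl⟩
  have hpow : ∀ k (hk : k ≤ P.natDegree), (((B ^ k) ⟨x, by simpa using hg 0 (Nat.zero_le _)⟩ : W) : H)
      = (A ^ k) x := by
    intro k
    induction k with
    | zero => intro _; simp
    | succ k ih =>
      intro hk
      rw [pow_succ', Module.End.mul_apply]
      have h1 := ih (by omega)
      have h2 : B ((B ^ k) ⟨x, by simpa using hg 0 (Nat.zero_le _)⟩)
          = pr ((A ^ (k + 1)) x) := by
        simp only [B, LinearMap.comp_apply, Submodule.subtype_apply, h1]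
        rw [pow_succ' A k]
        rfl
      rw [h2]
      have := Submodule.orthogonalProjectionOnto_mem_subspace_eq_self (K := W) ⟨_, hg (k + 1) hk⟩
      simp only [pr]
      rw [this]
  refine ⟨W, hfd, B, ⟨x, by simpa using hg 0 (Nat.zero_le _)⟩, rfl, ?_, ?_⟩
  · intro w
    simp only [B, LinearMap.comp_apply, Submodule.subtype_apply]
    exact Submodule.inner_orthogonalProjectionOnto_eq_of_mem_left _ _
  · rw [Polynomial.aeval_eq_sum_range, Polynomial.aeval_eq_sum_range]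
    simp only [LinearMap.sum_apply, LinearMap.smul_apply, ContinuousLinearMap.sum_apply,
      ContinuousLinearMap.smul_apply, Submodule.coe_sum, Submodule.coe_smul]
    apply Finset.sum_congr rfl
    intro k hk
    rw [hpow k (by simpa [Nat.lt_succ_iff] using hk)]

/-- Final result: universal improvement on Crouzeix-Palencia. -/
theorem final : ∃ C : ℝ, C < 1 + Real.sqrt 2 ∧ ∀ {H : Type u2} [NormedAddCommGroup H]
    [InnerProductSpace ℂ H] [Nontrivial H] (A : H →L[ℂ] H) (P : ℂ[X]) (M : ℝ),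
    (∀ x : H, ‖x‖ = 1 → ‖P.eval (inner ℂ x (A x))‖ ≤ M) → ‖aeval A P‖ ≤ C * M := by
  obtain ⟨ε₀, hε₀, hcore⟩ := P123U.Oper.core.{u2}
  refine ⟨1 + Real.sqrt 2 - ε₀, by linarith, ?_⟩
  intro H _ _ _ A P M hM
  set C := 1 + Real.sqrt 2 - ε₀ with hC
  have key : ∀ x : H, ‖x‖ = 1 → ‖(aeval A P) x‖ ≤ C * M := by
    intro x hx
    obtain ⟨W, hfd, B, y, hy, hB, hBP⟩ := krylov A P x
    have hy0 : y ≠ 0 := by
      intro h
      rw [h] at hy
      have : x = 0 := by simpa using hy.symm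
      rw [this, norm_zero] at hx
      exact zero_ne_one hx
    have hnt : Nontrivial W := ⟨⟨y, 0, hy0⟩⟩
    have hyn : ‖y‖ = 1 := by
      rw [Submodule.coe_norm, hy, hx]
    have := fd_main C (fun Q {V} _ _ _ {ι} _ _ lam E h1 h2 h3 h4 f hf hf1 =>
      hcore Q lam E h1 h2 h3 h4 f hf hf1) B P M (fun w hw => by
        rw [hB]
        exact hM _ (by rw [← Submodule.coe_norm, hw])) y
    rw [hyn, mul_one] at this
    rw [← hBP, ← Submodule.coe_norm]
    exact this
  obtain ⟨v, hv⟩ := exists_ne (0 : H)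
  have hu := exists_unit hv
  have h0 : 0 ≤ C * M := (norm_nonneg _).trans (key _ hu)
  exact ContinuousLinearMap.opNorm_le_of_unit_norm h0 key

end Main

end Reduce
end P123U
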