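import Vale.Agent.Lib.P123.U.Hat

/-! INTERFACE STUBS.  Everything here is to be proved in the module named in the comment;
a module may only use statements of modules before it. -/

open Complex Finset Filter Topology
open scoped ComplexConjugate

noncomputable section

namespace P123U

namespace Poly

variable (P : Poly)

/-! ### M5 the local lemma (U/Local.lean) -/

/-- Near-extremal behaviour at two points `p`, `q` of sides whose midpoint is deep inside is
impossible. -/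
theorem local_lemma : ∃ ε₂ > 0, ∀ (P : Poly) (f : ℂ → ℂ), DiffContOnCl ℂ f P.Om →
    (∀ z ∈ P.C, ‖f z‖ ≤ 1) → ∀ p q : ℂ, P.SideInt p → P.SideInt q → q ≠ p →
    (∀ i, ‖p - q‖ / 1800 ≤ P.d i ((p + q) / 2)) →
    ¬ ((P.w0 f q).re < ε₂ ∧ (P.w0 f p).re < ε₂ ∧ ‖f q + f p‖ < ε₂) := sorry

/-! ### M6 the pointwise lemma (U/PL.lean) -/

/-- Pointwise lemma: `hat w0 + hat (hat w0)` has real part at least `c0`. -/
theorem pointwise : ∃ c0 > 0, ∀ (P : Poly) (f : ℂ → ℂ), DiffContOnCl ℂ f P.Om →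
    (∀ z ∈ P.C, ‖f z‖ ≤ 1) → ∀ p, P.SideInt p →
    c0 ≤ (P.hat (P.w0 f) p).re + (P.hat (P.hat (P.w0 f)) p).re := sorry

end Poly

/-! ### M7 the operator argument (U/Oper.lean) -/

/-- Universal improvement on a polygon, for diagonalizable operators with numerical range in the
interior of the polygon. -/
theorem core : ∃ ε₀ > 0, ∀ (P : Poly) {V : Type*} [NormedAddCommGroup V] [InnerProductSpace ℂ V]
    [FiniteDimensional ℂ V] {ι : Type} [Fintype ι] [DecidableEq ι] (lam : ι → ℂ)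
    (E : ι → V →L[ℂ] V), (∀ i, lam i ∈ P.Om) → (∑ i, E i = 1) →
    (∀ i j, E i * E j = if i = j then E i else 0) →
    (∀ v : V, ‖v‖ = 1 → inner ℂ v ((∑ i, lam i • E i) v) ∈ P.Om) →
    ∀ f : ℂ → ℂ, DiffContOnCl ℂ f P.Om → (∀ z ∈ P.C, ‖f z‖ ≤ 1) →
    ‖∑ i, f (lam i) • E i‖ ≤ 1 + Real.sqrt 2 - ε₀ := sorry

end P123U
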